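import Crest.Agent.N206.TA.Alg1

/-!
# Row 206, Theorem A: the algebra of one stage (helper22)
-/

set_option autoImplicit false

noncomputable section

open scoped Classical

namespace Crest.Agent.N206.TA

open Crest.GeometryTopology.GraphMetric Crest.Agent.N206.PL Crest.Agent.R206.Iface534

variable {V : Type} [Fintype V]

namespace Stage

variable {E : Env V} {w : ℝ} {D : Dom V} (T : Stage E w D) {n : ℕ}
  (r : ∀ i, Res E n (w / K0) (T.sub i))

/-- the slope charged to an edge -/
def gα (p q : V) : ℝ :=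
  if h : ∃ i, p ∈ T.ter i ∨ q ∈ T.ter i then
    (if T.kind h.choose = Kind.ramp then T.a h.choose else (r h.choose).αe p q) else 0

omit [Fintype V] in
theorem near_edge {i : T.ι} {p q : V} (h : E.G.Adj p q) (hi : p ∈ T.ter i ∨ q ∈ T.ter i) :
    T.Near i p ∧ T.Near i q := by
  rcases hi with hi | hi
  · exact ⟨⟨p, hi, Or.inl rfl⟩, ⟨p, hi, Or.inr h.symm⟩⟩
  · exact ⟨⟨q, hi, Or.inr h⟩, ⟨q, hi, Or.inl rfl⟩⟩

omit r in
/-- the mean of the passed parameters -/
theorem mean_par (i : T.ι) {A : ℝ} (hA : 0 ≤ A) (ξ α : ℝ) :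
    mean (fun e => T.pA i A ξ e + |T.pξ i A ξ e| / 2 + T.pξ i A ξ e * α) =
      A + |ξ| / 2 + ξ * (if T.kind i = Kind.ramp then T.a i else α) := by
  unfold pA pξ
  cases hk : T.kind i with
  | plain => simp only [reduceCtorEq, if_false]; exact mean_const _
  | tent =>
    simp only [reduceCtorEq, if_false]
    rw [← mean_aff (A + |ξ| / 2 + ξ * α) (A * T.a i) (T.cell i)]
    exact mean_congr fun e => by ring
  | ramp =>
    simp only [if_true, abs_mul, abs_sg, abs_of_nonneg hA]
    rw [← mean_aff (A + |ξ| / 2 + ξ * T.a i) (A * α) (T.cell i)]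
    exact mean_congr fun e => by ring

omit r in
theorem mean_pA (i : T.ι) (A ξ : ℝ) :
    mean (fun e => T.pA i A ξ e) =
      if T.kind i = Kind.ramp then A / 2 + |ξ| / 2 + ξ * T.a i else A := by
  unfold pA
  cases hk : T.kind i with
  | plain => simp only [reduceCtorEq, if_false]; exact mean_const _
  | tent => simp only [reduceCtorEq, if_false]; exact mean_aff _ _ _
  | ramp => simp only [if_true]; exact mean_const _

theorem mean_inc_near {i : T.ι} {p q : V} (hp : T.Near i p) (hq : T.Near i q) {A : ℝ}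
    (hA : 0 ≤ A) (ξ : ℝ) :
    mean (fun ω => |inc E A ξ (T.gX r) (T.gu r A ξ ω) p q|) =
      mean (fun e => mean (fun ω => |inc E (T.pA i A ξ e) (T.pξ i A ξ e) (r i).Xf
        ((r i).u (T.pA i A ξ e) (T.pξ i A ξ e) ω) p q|)) := by
  rw [mean_succ]
  exact mean_congr fun e => mean_congr fun ω => by rw [T.inc_near r hp hq hA]

theorem load {A : ℝ} (ξ : ℝ) (hA : 0 ≤ A) {p q : V} (h : E.G.Adj p q) :
    mean (fun ω => |inc E A ξ (T.gX r) (T.gu r A ξ ω) p q|) ≤
      5 * (A + |ξ| / 2 + ξ * T.gα r p q) * E.ℓ s(p, q) := by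
  unfold gα
  split_ifs with h1 hk
  · obtain ⟨hp, hq⟩ := T.near_edge h h1.choose_spec
    rw [T.mean_inc_near r hp hq hA]
    refine (mean_mono fun e => (r _).load _ _ (T.pA_nonneg _ ξ hA e) p q h).trans ?_
    rw [mean_mul_right, mean_mul_left, T.mean_par _ hA, if_pos hk]
  · obtain ⟨hp, hq⟩ := T.near_edge h h1.choose_spec
    rw [T.mean_inc_near r hp hq hA]
    refine (mean_mono fun e => (r _).load _ _ (T.pA_nonneg _ ξ hA e) p q h).trans ?_
    rw [mean_mul_right, mean_mul_left, T.mean_par _ hA, if_neg hk]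
  · push Not at h1
    have hp : ∀ i, p ∉ T.ter i := fun i => (h1 i).1
    have hq : ∀ i, q ∉ T.ter i := fun i => (h1 i).2
    rw [mean_succ, ← mean_const (Ω := V → Bool) (5 * (A + |ξ| / 2 + ξ * 0) * E.ℓ s(p, q))]
    refine mean_mono fun e => ?_
    rw [← mean_const (Ω := Om V n) (5 * (A + |ξ| / 2 + ξ * 0) * E.ℓ s(p, q))]
    refine mean_mono fun ω => ?_
    obtain ⟨l, hl⟩ := T.one_cell (Or.inr h)
    have c1 : T.cu r e p - T.cu r e q = sg (e l) * (T.g l p - T.g l q) := by
      unfold cu
      rw [Finset.sum_eq_single l (fun l' _ hl' => by rw [T.gf_far r hp, (hl l' hl').1, mul_zero])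
        (by simp), Finset.sum_eq_single l
        (fun l' _ hl' => by rw [T.gf_far r hq, (hl l' hl').2, mul_zero]) (by simp),
        T.gf_far r hp, T.gf_far r hq]
      ring
    have e1 : inc E A ξ (T.gX r) (T.gu r A ξ (Fin.cons e ω)) p q =
        (A + |ξ| / 2) * (E.π p - E.π q) + ξ * (T.X' p - T.X' q) +
          A * (sg (e l) * (T.g l p - T.g l q)) := by
      simp only [inc, gu_cons, T.gX_far r hp, T.gX_far r hq, T.su_far r hp, T.su_far r hq, ← c1]
      ring
    rw [e1]
    have h1 := pi_edge E h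
    have h2 := T.lipX p trivial q trivial h
    have h3 := ell_pos E h
    have h5 := T.lipg l p trivial q trivial h
    have h4 : 0 ≤ A + |ξ| / 2 := by positivity
    calc _ ≤ (A + |ξ| / 2) * |E.π p - E.π q| + |ξ| * |T.X' p - T.X' q| +
          A * |T.g l p - T.g l q| := by
          refine (abs_add_le _ _).trans (add_le_add ((abs_add_le _ _).trans ?_) ?_)
          · rw [abs_mul, abs_mul, abs_of_nonneg h4]
          · rw [abs_mul, abs_mul, abs_of_nonneg hA, abs_sg, one_mul]
      _ ≤ (A + |ξ| / 2) * E.ℓ s(p, q) + |ξ| * (1 * E.ℓ s(p, q)) + A * (cc * E.ℓ s(p, q)) := by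
          gcongr
      _ ≤ _ := by
          simp only [cc]
          nlinarith [mul_nonneg (abs_nonneg ξ) h3.le, mul_nonneg hA h3.le]

theorem w_small {w : ℝ} (hw : 0 ≤ w) : w / K0 ≤ w / 100000 := by
  refine div_le_div_of_nonneg_left hw (by norm_num) ?_
  norm_num [K0]

/-- the glued result -/
def glue (hw : 0 ≤ w) : Res E (n + 1) w D where
  Xf := T.gX r
  u := T.gu r
  αe := T.gα r
  lip := fun p _ q _ h => by
    by_cases h1 : ∃ i, p ∈ T.ter i ∨ q ∈ T.ter i
    · obtain ⟨i, hi⟩ := h1
      obtain ⟨hp, hq⟩ := T.near_edge h hi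
      rw [T.gX_near r hp, T.gX_near r hq]
      split_ifs
      · exact T.lipX p trivial q trivial h
      · exact (r i).lip p trivial q trivial h
    · push Not at h1
      rw [T.gX_far r fun i => (h1 i).1, T.gX_far r fun i => (h1 i).2]
      exact T.lipX p trivial q trivial h
  off := fun p hp => by
    rw [T.gX_far r fun i hi => hp (T.terr i hi), T.suppX p hp]
  near := fun p => by
    have h1 := T.gX_sub_bd r hw p
    have h2 := T.nearX p
    have h3 := w_small hw
    have h4 := abs_add_le (T.gX r p - T.X' p) (T.X' p - D.X p)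
    rw [sub_add_sub_cancel] at h4
    simp only [cc] at *
    linarith
  uoff := fun A ξ ω p hp => by
    have hf : ∀ i, p ∉ T.ter i := fun i hi => hp (T.terr i hi)
    simp only [gu, T.su_far r hf, cu, T.gf_far r hf, T.suppg _ p hp, mul_zero,
      Finset.sum_const_zero, add_zero]
  ubd := fun A ξ hA ω p => by
    have h1 := T.cu_bd r hw (ω 0) p
    have h3 := w_small hw
    have h0 : 0 ≤ w / K0 := by simp only [K0]; positivity
    have hξ := abs_nonneg ξ
    have h2 : |T.su r A ξ (ω 0) (Fin.tail ω) p| ≤ 2 * (A + |ξ|) * (w / K0) := by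
      by_cases h : ∃ i, p ∈ T.ter i
      · obtain ⟨i, hi⟩ := h
        rw [T.su_near r (T.near_of_mem hi)]
        refine ((r i).ubd _ _ (T.pA_nonneg i ξ hA _) _ _).trans ?_
        exact mul_le_mul_of_nonneg_right (T.pA_le i ξ hA _) h0
      · push Not at h
        rw [T.su_far r h, abs_zero]; positivity
    unfold gu
    refine (abs_add_le _ _).trans ?_
    rw [abs_mul, abs_of_nonneg hA]
    have h4 : |T.cu r (ω 0) p| ≤ w / 2 := by simp only [cc] at h1; linarith
    have h5 := mul_le_mul_of_nonneg_left h4 hA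
    have h6 : 2 * (A + |ξ|) * (w / K0) ≤ 2 * (A + |ξ|) * (w / 100000) := by gcongr
    nlinarith [mul_nonneg hA hw, mul_nonneg hξ hw]
  umean := fun A ξ p => by
    rw [mean_succ]
    simp only [gu_cons, mean_add, mean_const, T.su_mean r, add_zero, mean_mul_left, T.cu_mean r,
      mul_zero]
  αbd := fun p q => by
    unfold gα
    split_ifs
    · exact T.slope _
    · exact (r _).αbd p q
    · norm_num
  load := fun A ξ hA p q h => T.load r ξ hA h

/-- correlation with the sign of a cell -/
theorem corr (l : V) (A ξ : ℝ) (p q : V) :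
    |A * (T.gf r l p - T.gf r l q)| ≤ mean (fun ω => |inc E A ξ (T.gX r) (T.gu r A ξ ω) p q|) := by
  rw [mean_succ]
  have h1 : ∀ e : V → Bool, mean (fun ω : Om V n =>
      inc E A ξ (T.gX r) (T.gu r A ξ (Fin.cons e ω)) p q) =
      ((A + |ξ| / 2) * (E.π p - E.π q) + ξ * (T.gX r p - T.gX r q)) +
        (A * T.cu r e p - A * T.cu r e q) := by
    intro e
    simp only [inc, gu_cons, mean_add, mean_sub, mean_const, T.su_mean r, add_zero]
  have h2 : mean (fun e : V → Bool => sg (e l) * mean (fun ω : Om V n =>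
      inc E A ξ (T.gX r) (T.gu r A ξ (Fin.cons e ω)) p q)) = A * (T.gf r l p - T.gf r l q) := by
    simp only [h1]
    rw [← T.cu_corr r l p, ← T.cu_corr r l q, ← mean_sub, ← mean_mul_left,
      ← add_zero (mean fun e => A * (sg (e l) * T.cu r e p - sg (e l) * T.cu r e q)),
      ← zero_mul ((A + |ξ| / 2) * (E.π p - E.π q) + ξ * (T.gX r p - T.gX r q)), ← mean_sg l,
      ← mean_mul_right, ← mean_add]
    exact mean_congr fun e => by ring
  rw [← h2]
  refine (abs_mean_le _).trans (mean_mono fun e => ?_)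
  rw [abs_mul, abs_sg, one_mul]
  exact abs_mean_le _

theorem good_sub (hw : 0 ≤ w) {i : T.ι} {x y : V} (hx : x ∈ T.ter i) (hy : y ∈ T.ter i)
    (h : (r i).Good x y) : (T.glue r hw).Good x y := by
  have nx := T.near_of_mem hx
  have ny := T.near_of_mem hy
  have hc : 0 ≤ c2 * E.d x y := mul_nonneg (by norm_num [c2, cc]) (d_nonneg E x y)
  change c2 * E.d x y ≤ |T.gX r x - T.gX r y| ∨
    (∀ A ξ, 0 ≤ A → c2 * E.d x y * A ≤
      mean (fun ω => |inc E A ξ (T.gX r) (T.gu r A ξ ω) x y|)) ∨
    ∃ α : ℝ, |α| ≤ 1 / 2 ∧ ∀ A ξ, 0 ≤ A → c2 * E.d x y * ((A + |ξ| / 2 + ξ * α) / 2) ≤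
      mean (fun ω => |inc E A ξ (T.gX r) (T.gu r A ξ ω) x y|)
  rcases h with h | h | ⟨α, hα, h⟩
  · by_cases hk : T.kind i = Kind.ramp
    · refine Or.inr (Or.inl fun A ξ hA => le_trans ?_ (T.corr r (T.cell i) A ξ x y))
      rw [T.gf_near r nx, T.gf_near r ny, if_pos ⟨hk, rfl⟩, if_pos ⟨hk, rfl⟩, dX, dX,
        (T.subX i).1 hk, add_sub_cancel, add_sub_cancel, abs_mul, abs_of_nonneg hA, mul_comm A]
      exact mul_le_mul_of_nonneg_right h hA
    · left
      rw [T.gX_near r nx, T.gX_near r ny, if_neg hk, if_neg hk]; exact h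
  · have key : ∀ A ξ, 0 ≤ A → c2 * E.d x y *
        (if T.kind i = Kind.ramp then A / 2 + |ξ| / 2 + ξ * T.a i else A) ≤
        mean (fun ω => |inc E A ξ (T.gX r) (T.gu r A ξ ω) x y|) := by
      intro A ξ hA
      rw [T.mean_inc_near r nx ny hA, ← T.mean_pA i A ξ, ← mean_mul_left]
      exact mean_mono fun e => h _ _ (T.pA_nonneg i ξ hA e)
    by_cases hk : T.kind i = Kind.ramp
    · refine Or.inr (Or.inr ⟨T.a i, T.slope i, fun A ξ hA => le_trans ?_ (key A ξ hA)⟩)
      rw [if_pos hk]
      refine mul_le_mul_of_nonneg_left ?_ hc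
      linarith [(xi_al (ξ := ξ) (T.slope i)).1]
    · refine Or.inr (Or.inl fun A ξ hA => ?_)
      have := key A ξ hA
      rwa [if_neg hk] at this
  · refine Or.inr (Or.inr ⟨if T.kind i = Kind.ramp then T.a i else α, ?_, fun A ξ hA => ?_⟩)
    · split_ifs
      · exact T.slope i
      · exact hα
    · rw [T.mean_inc_near r nx ny hA, ← T.mean_par i hA ξ α, div_eq_mul_inv, ← mean_mul_right,
        ← mean_mul_left]
      exact mean_mono fun e => by
        rw [← div_eq_mul_inv]; exact h _ _ (T.pA_nonneg i ξ hA e)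

theorem good_win (hw : 0 ≤ w) {x y : V} (hd : E.d x y < 2 * 10 ^ 4 * w)
    (h : (∃ l, cc * w / 16 ≤ T.g l x ∧ T.g l y = 0) ∨ 5 * (130 * cc * w) ≤ |D.X x - D.X y|) :
    (T.glue r hw).Good x y := by
  have hc : c2 * E.d x y ≤ cc * w / 32 := by
    simp only [c2, cc]; linarith
  have h3 := w_small hw
  rcases h with ⟨l, h1, h2⟩ | h
  · refine Or.inr (Or.inl fun A ξ hA => le_trans ?_ (T.corr r l A ξ x y))
    rw [abs_mul, abs_of_nonneg hA, mul_comm A]
    refine mul_le_mul_of_nonneg_right (hc.trans (le_trans ?_ (le_abs_self _))) hA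
    have h4 := abs_le.1 (T.gf_sub_bd r hw l x)
    have h5 := abs_le.1 (T.gf_sub_bd r hw l y)
    simp only [cc] at *
    linarith [h4.1, h5.2]
  · left
    have h4 := (T.glue r hw).near x
    have h5 := (T.glue r hw).near y
    have h6 : |D.X x - D.X y| ≤ |(T.glue r hw).Xf x - (T.glue r hw).Xf y| +
        |(T.glue r hw).Xf x - D.X x| + |(T.glue r hw).Xf y - D.X y| := by
      have e : D.X x - D.X y = ((T.glue r hw).Xf x - (T.glue r hw).Xf y) -
        ((T.glue r hw).Xf x - D.X x) + ((T.glue r hw).Xf y - D.X y) := by ring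
      rw [e]
      exact (abs_add_le _ _).trans (add_le_add (abs_sub _ _) le_rfl)
    simp only [cc] at *
    linarith

end Stage

theorem val_succ (k : ℕ) : val (k + 1) = val k - 1 / 16 * (1 / 2) ^ (k + 1) := by
  simp only [val]; ring

theorem val_le (k : ℕ) : val k ≤ 1 := by
  have : (1 / 2 : ℝ) ^ k ≤ 1 := pow_le_one₀ (by norm_num) (by norm_num)
  simp only [val]; linarith

theorem claim' (geom : GeomStmt) (n : ℕ) : ∀ (E : Env V) (w : ℝ) (D : Dom V),
    1000 * E.δ ≤ w / K0 ^ n → 1000 * w ≤ E.Λ → IsDom E w D →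
    ∀ (κ : Type) [Fintype κ] (x y : κ → V) (W : κ → ℝ) (idx : κ → ℕ), (∀ q, 0 ≤ W q) →
      (∀ q, D.OK E (x q) (y q) ∧ E.AtScale w (idx q) (x q) (y q) ∧ idx q < n) →
      ∃ r : Res E n w D,
        ∑ q, W q * val (idx q) ≤ ∑ q, W q * (if r.Good (x q) (y q) then 1 else 0) := by
  have hK : (1 : ℝ) ≤ K0 := by norm_num [K0]
  have hK0 : (0 : ℝ) < K0 := by linarith
  induction n with
  | zero =>
    intro E w D h1 _ hD κ _ x y W idx _ hq
    have hw : 0 ≤ w := by
      simp only [pow_zero, div_one] at h1; linarith [E.δ_pos]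
    have : IsEmpty κ := ⟨fun q => absurd (hq q).2.2 (Nat.not_lt_zero _)⟩
    exact ⟨Res.triv E 0 hw hD.lipX, by simp⟩
  | succ n ih =>
    intro E w D h1 h2 hD κ _ x y W idx hW hq
    have hw : 0 ≤ w := by
      have : 0 < w / K0 ^ (n + 1) := by linarith [E.δ_pos]
      exact ((div_pos_iff_of_pos_right (by positivity)).1 this).le
    have hmono : ∀ k, k ≤ n + 1 → 1000 * E.δ ≤ w / K0 ^ k := fun k hk =>
      h1.trans (div_le_div_of_nonneg_left hw (by positivity) (pow_le_pow_right₀ hK hk))
    obtain ⟨T, alive, win, ha, hwin, hsum⟩ := geom V E w D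
      (by simpa using hmono 1 (by omega)) h2 hD κ x y W idx hW
      (fun q => ⟨(hq q).1, (hq q).2.1, hmono _ (hq q).2.2.le⟩)
    have hdiv : ∀ k, w / K0 / K0 ^ k = w / K0 ^ (k + 1) := fun k => by
      rw [div_div, pow_succ, mul_comm]
    have hsub : ∀ i : T.ι, ∃ r : Res E n (w / K0) (T.sub i),
        ∑ q : {q // alive q = some i}, W q * val (idx q - 1) ≤
          ∑ q : {q // alive q = some i}, W q * (if r.Good (x q) (y q) then 1 else 0) := by
      intro i
      refine ih E (w / K0) (T.sub i) (by rw [hdiv]; exact h1)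
        (le_trans (by have := div_le_self hw hK; linarith) h2) (T.dom i)
        {q // alive q = some i} (fun q => x q) (fun q => y q) (fun q => W q)
        (fun q => idx q - 1) (fun q => hW q) fun q => ?_
      obtain ⟨a1, a2, -, -⟩ := ha q i q.2
      obtain ⟨-, b2, b3⟩ := hq q
      refine ⟨a2, ?_, by omega⟩
      unfold Env.AtScale at b2 ⊢
      rw [hdiv, Nat.sub_add_cancel a1]
      exact b2
    choose r hr using hsub
    refine ⟨T.glue r hw, ?_⟩
    -- the alive pairs
    have s1 : ∀ F : κ → T.ι → ℝ, ∑ i, ∑ q : {q // alive q = some i}, F q i =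
        ∑ q, match alive q with | some i => F q i | none => 0 := by
      intro F
      have : ∀ i, ∑ q : {q // alive q = some i}, F q i =
          ∑ q, if alive q = some i then F q i else 0 := by
        intro i
        rw [← Finset.sum_filter]
        exact (Finset.sum_subtype _ (by simp) (fun q => F q i)).symm
      simp only [this]
      rw [Finset.sum_comm]
      refine Finset.sum_congr rfl fun q _ => ?_
      cases alive q with
      | none => simp
      | some j => simp
    have s2 := Finset.sum_le_sum (s := Finset.univ) fun i _ => hr i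
    rw [s1 (fun q _ => W q * val (idx q - 1)),
      s1 (fun q i => W q * (if (r i).Good (x q) (y q) then 1 else 0))] at s2
    have s3 := add_le_add hsum s2
    rw [← Finset.sum_add_distrib, ← Finset.sum_add_distrib] at s3
    rw [← sub_nonneg, ← Finset.sum_sub_distrib] at s3 ⊢
    refine s3.trans (Finset.sum_le_sum fun q _ => ?_)
    have hWq := hW q
    have hg : (0 : ℝ) ≤ if (T.glue r hw).Good (x q) (y q) then 1 else 0 := by
      split_ifs <;> norm_num
    by_cases hwq : win q
    · obtain ⟨i0, hgain⟩ := hwin q hwq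
      have hG : (T.glue r hw).Good (x q) (y q) := by
        refine T.good_win r hw ?_ hgain
        have := (hq q).2.1.2.1
        rwa [i0, pow_zero, div_one] at this
      cases hal : alive q with
      | some i => have := (ha q i hal).1; omega
      | none =>
        simp only [if_pos hwq, if_pos hG, i0, val, if_true]
        linarith
    · rw [if_neg hwq]
      cases hal : alive q with
      | some i =>
        obtain ⟨a1, -, a3, a4⟩ := ha q i hal
        obtain ⟨k, hk⟩ : ∃ k, idx q = k + 1 := ⟨idx q - 1, by omega⟩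
        have hle : (if (r i).Good (x q) (y q) then (1 : ℝ) else 0) ≤
            if (T.glue r hw).Good (x q) (y q) then 1 else 0 := by
          split_ifs with c1 c2
          · exact le_rfl
          · exact absurd (T.good_sub r hw a3 a4 c1) c2
          · norm_num
          · exact le_rfl
        have := mul_le_mul_of_nonneg_left hle hWq
        simp only [hk, Nat.add_sub_cancel, val_succ, reduceCtorEq, and_false, if_false,
          Nat.succ_ne_zero]
        linarith
      | none =>
        have h0 := mul_nonneg hWq hg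
        rcases Nat.eq_zero_or_pos (idx q) with i0 | i0
        · simp only [i0, lt_irrefl, false_and, if_false, if_true, val]
          linarith
        · obtain ⟨k, hk⟩ : ∃ k, idx q = k + 1 := ⟨idx q - 1, by omega⟩
          have := mul_le_mul_of_nonneg_left (val_le k) hWq
          simp only [hk, val_succ, Nat.succ_pos, and_self, if_true, Nat.succ_ne_zero, if_false]
          linarith

theorem alg : AlgImp := by
  intro geom n V _ E w D h1 h2 hD κ _ x y W idx hW hq
  obtain ⟨r, hr⟩ := claim' geom n E w D h1 h2 hD κ x y W idx hW hq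
  exact ⟨r.Xf, r.u, r.αe, fun q => r.Good (x q) (y q), r.lip, r.off, r.near, r.uoff, r.ubd,
    r.umean, r.αbd, r.load, fun q h => h, hr⟩

end Crest.Agent.N206.TA
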