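import Crest.Agent.N206.TA.Defs

/-!
# Row 206, S0317, Theorem A: basic facts on `d`, `π`, `dR` (helper24)
-/

set_option autoImplicit false

noncomputable section

open scoped Classical

namespace Crest.Agent.N206.TA

open Crest.GeometryTopology.GraphMetric Crest.Agent.N206.PL Crest.Agent.R206.Iface534

variable {V : Type}

/-- a shortest walk exists -/
theorem exists_geo [Fintype V] {G : SimpleGraph V} (hG : G.Connected) {ℓ : Sym2 V → ℝ}
    (hℓ : ∀ e ∈ G.edgeSet, 0 < ℓ e) (x y : V) : ∃ p : G.Walk x y, wl ℓ p = wdist G ℓ x y := by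
  obtain ⟨p0⟩ := hG.preconnected x y
  have : Nonempty (G.Path x y) := ⟨p0.toPath⟩
  obtain ⟨p, hp⟩ := Finite.exists_min (fun p : G.Path x y => wl ℓ p.1)
  refine ⟨p.1, le_antisymm (le_wdist hG fun q => (hp q.toPath).trans ?_) (wdist_le_walk hℓ p.1)⟩
  refine List.Sublist.sum_le_sum ((q.edges_bypass_sublist_edges).map ℓ) fun a ha => ?_
  obtain ⟨e, he, rfl⟩ := List.mem_map.1 ha
  exact (hℓ e (q.edges_subset_edgeSet he)).le

theorem wl_nil {G : SimpleGraph V} (ℓ : Sym2 V → ℝ) (x : V) :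
    wl ℓ (SimpleGraph.Walk.nil : G.Walk x x) = 0 := by simp [wl]

theorem wl_cons {G : SimpleGraph V} (ℓ : Sym2 V → ℝ) {x y z : V} (h : G.Adj x y) (p : G.Walk y z) :
    wl ℓ (SimpleGraph.Walk.cons h p) = ℓ s(x, y) + wl ℓ p := by simp [wl]

theorem wl_append {G : SimpleGraph V} (ℓ : Sym2 V → ℝ) {x y z : V} (p : G.Walk x y)
    (q : G.Walk y z) : wl ℓ (p.append q) = wl ℓ p + wl ℓ q := by simp [wl]

theorem wl_reverse {G : SimpleGraph V} (ℓ : Sym2 V → ℝ) {x y : V} (p : G.Walk x y) :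
    wl ℓ p.reverse = wl ℓ p := by simp [wl, List.sum_reverse]

namespace Env

variable (E : Env V)

theorem ℓ_pos {u v : V} (h : E.G.Adj u v) : 0 < E.ℓ s(u, v) := E.wg.pos _ h
theorem ℓ_le {u v : V} (h : E.G.Adj u v) : E.ℓ s(u, v) ≤ E.δ := E.wg.small _ h

theorem wl_nonneg {x y : V} (p : E.G.Walk x y) : 0 ≤ wl E.ℓ p := edges_sum_nonneg E.wg.pos p

theorem d_self (x : V) : E.d x x = 0 := wdist_self E.wg.conn E.wg.pos x
theorem d_nonneg (x y : V) : 0 ≤ E.d x y := wdist_nonneg E.wg.conn E.wg.pos x y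
theorem d_comm (x y : V) : E.d x y = E.d y x := wdist_comm E.wg.conn E.wg.pos x y
theorem d_tri (x y z : V) : E.d x z ≤ E.d x y + E.d y z := wdist_triangle E.wg.conn E.wg.pos x y z
theorem d_edge {u v : V} (h : E.G.Adj u v) : E.d u v ≤ E.ℓ s(u, v) := wdist_edge_le E.wg.pos h
theorem d_le_wl {x y : V} (p : E.G.Walk x y) : E.d x y ≤ wl E.ℓ p := wdist_le_walk E.wg.pos p
theorem d_geo [Fintype V] (x y : V) : ∃ p : E.G.Walk x y, wl E.ℓ p = E.d x y :=
  exists_geo E.wg.conn E.wg.pos x y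

/-- a vertex of a walk splits its length -/
theorem d_add_le_wl {x y : V} (p : E.G.Walk x y) {v : V} (hv : v ∈ p.support) :
    E.d x v + E.d v y ≤ wl E.ℓ p := by
  rw [← p.take_spec hv, wl_append]
  exact add_le_add (E.d_le_wl _) (E.d_le_wl _)

theorem π_eq (x : V) : E.π x = E.d E.s x := rfl

theorem π_lip (x y : V) : |E.π x - E.π y| ≤ E.d x y := by
  have h1 := E.d_tri E.s x y
  have h2 := E.d_tri E.s y x
  rw [E.d_comm y x] at h2
  rw [abs_le, π_eq, π_eq]; constructor <;> linarith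

theorem π_edge {u v : V} (h : E.G.Adj u v) : |E.π u - E.π v| ≤ E.ℓ s(u, v) :=
  (E.π_lip u v).trans (E.d_edge h)

theorem mem_B {x v : V} {r : ℝ} : v ∈ E.B x r ↔ E.d x v ≤ r := Iff.rfl

variable (ok : Sym2 V → Prop)

theorem pen_pos : ∀ e ∈ E.G.edgeSet, 0 < (fun e => if ok e then E.ℓ e else E.ℓ e + E.Λ) e := by
  intro e he
  have := E.wg.pos e he
  have := E.Λ_nonneg
  dsimp only; split_ifs <;> linarith

theorem dR_self (x : V) : E.dR ok x x = 0 := wdist_self E.wg.conn (E.pen_pos ok) x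
theorem dR_nonneg (x y : V) : 0 ≤ E.dR ok x y := wdist_nonneg E.wg.conn (E.pen_pos ok) x y
theorem dR_comm (x y : V) : E.dR ok x y = E.dR ok y x := wdist_comm E.wg.conn (E.pen_pos ok) x y
theorem dR_tri (x y z : V) : E.dR ok x z ≤ E.dR ok x y + E.dR ok y z :=
  wdist_triangle E.wg.conn (E.pen_pos ok) x y z

theorem dR_edge {u v : V} (h : E.G.Adj u v) (ho : ok s(u, v)) : E.dR ok u v ≤ E.ℓ s(u, v) := by
  have := wdist_edge_le (E.pen_pos ok) h
  simpa [ho, dR] using this

theorem wl_pen_of_ok {x y : V} (p : E.G.Walk x y) (h : ∀ e ∈ p.edges, ok e) :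
    wl (fun e => if ok e then E.ℓ e else E.ℓ e + E.Λ) p = wl E.ℓ p := by
  unfold wl
  congr 1
  exact List.map_congr_left fun e he => by simp [h e he]

theorem dR_le_wl {x y : V} (p : E.G.Walk x y) (h : ∀ e ∈ p.edges, ok e) :
    E.dR ok x y ≤ wl E.ℓ p := by
  rw [← E.wl_pen_of_ok ok p h]; exact wdist_le_walk (E.pen_pos ok) p

theorem ok_of_wl_lt {x y : V} (p : E.G.Walk x y)
    (h : wl (fun e => if ok e then E.ℓ e else E.ℓ e + E.Λ) p < E.Λ) : ∀ e ∈ p.edges, ok e := by
  intro e he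
  by_contra hn
  have h1 : (fun e => if ok e then E.ℓ e else E.ℓ e + E.Λ) e ≤
      wl (fun e => if ok e then E.ℓ e else E.ℓ e + E.Λ) p := by
    refine List.single_le_sum (fun a ha => ?_) _ (List.mem_map_of_mem he)
    obtain ⟨e', he', rfl⟩ := List.mem_map.1 ha
    exact (E.pen_pos ok e' (p.edges_subset_edgeSet he')).le
  have h2 := E.wg.pos e (p.edges_subset_edgeSet he)
  simp only [hn, if_false] at h1
  linarith

/-- below the penalty the restricted distance is the length of a walk with allowed edges -/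
theorem dR_walk [Fintype V] {x y : V} (h : E.dR ok x y < E.Λ) :
    ∃ p : E.G.Walk x y, wl E.ℓ p = E.dR ok x y ∧ ∀ e ∈ p.edges, ok e := by
  obtain ⟨p, hp⟩ := exists_geo E.wg.conn (E.pen_pos ok) x y
  have ho := E.ok_of_wl_lt ok p (by rw [hp]; exact h)
  exact ⟨p, by rw [← E.wl_pen_of_ok ok p ho, hp]; rfl, ho⟩

theorem dR_mono {ok ok' : Sym2 V → Prop} (h : ∀ e ∈ E.G.edgeSet, ok' e → ok e) (x y : V) :
    E.dR ok x y ≤ E.dR ok' x y := by
  refine le_wdist E.wg.conn fun p => (wdist_le_walk (E.pen_pos ok) p).trans ?_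
  refine List.sum_le_sum fun e he => ?_
  have := h e (p.edges_subset_edgeSet he)
  have := E.Λ_nonneg
  split_ifs <;> first | linarith | tauto

theorem d_le_dR (x y : V) : E.d x y ≤ E.dR ok x y := by
  refine le_wdist E.wg.conn fun p => (wdist_le_walk E.wg.pos p).trans ?_
  refine List.sum_le_sum fun e _ => ?_
  have := E.Λ_nonneg
  split_ifs <;> linarith

/-- a function which is Lipschitz along the edges of a walk -/
theorem lip_walk {L : ℝ} {g : V → ℝ} {x y : V} (p : E.G.Walk x y)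
    (h : ∀ u v, E.G.Adj u v → s(u, v) ∈ p.edges → |g u - g v| ≤ L * E.ℓ s(u, v)) :
    |g x - g y| ≤ L * wl E.ℓ p := by
  induction p with
  | nil => simp [wl]
  | cons ha p ih =>
    rw [wl_cons, mul_add]
    have h1 := h _ _ ha (by simp)
    have h2 := ih fun u v huv he => h u v huv (by simp [he])
    exact (abs_sub_le _ _ _).trans (add_le_add h1 h2)

/-- a function which is Lipschitz along the allowed edges -/
theorem lip_dR [Fintype V] {L : ℝ} {g : V → ℝ}
    (h : ∀ u v, E.G.Adj u v → ok s(u, v) → |g u - g v| ≤ L * E.ℓ s(u, v)) {x y : V}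
    (hxy : E.dR ok x y < E.Λ) : |g x - g y| ≤ L * E.dR ok x y := by
  obtain ⟨p, hp, ho⟩ := E.dR_walk ok hxy
  rw [← hp]
  exact E.lip_walk p fun u v huv he => h u v huv (ho _ he)

/-- a function which is Lipschitz inside a ball -/
theorem lip_ball [Fintype V] {L r : ℝ} {g : V → ℝ} {x y : V} (h : E.LipOn L (E.B x r) g)
    (hy : E.d x y ≤ r) : |g x - g y| ≤ L * E.d x y := by
  obtain ⟨p, hp⟩ := E.d_geo x y
  have hs : ∀ v ∈ p.support, v ∈ E.B x r := fun v hv => by
    have := E.d_add_le_wl p hv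
    have := E.d_nonneg v y
    rw [mem_B]; linarith
  rw [← hp]
  exact E.lip_walk p fun u v huv he =>
    h u (hs u (p.fst_mem_support_of_mem_edges he)) v (hs v (p.snd_mem_support_of_mem_edges he)) huv

/-- if all edges of a ball are allowed then `dR = d` from the centre -/
theorem dR_le_d [Fintype V] {r : ℝ} {x y : V}
    (h : ∀ u v, E.G.Adj u v → E.d x u ≤ r → E.d x v ≤ r → ok s(u, v)) (hy : E.d x y ≤ r) :
    E.dR ok x y ≤ E.d x y := by
  obtain ⟨p, hp⟩ := E.d_geo x y
  have hs : ∀ v ∈ p.support, E.d x v ≤ r := fun v hv => by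
    have := E.d_add_le_wl p hv
    have := E.d_nonneg v y
    linarith
  rw [← hp]
  refine E.dR_le_wl ok p fun e he => ?_
  induction e using Sym2.ind with
  | h u v =>
    exact h u v (p.adj_of_mem_edges he) (hs u (p.fst_mem_support_of_mem_edges he))
      (hs v (p.snd_mem_support_of_mem_edges he))

theorem dR_lip {u v : V} (h : E.G.Adj u v) (ho : ok s(u, v)) (z : V) :
    |E.dR ok z u - E.dR ok z v| ≤ E.ℓ s(u, v) := by
  have h1 := E.dR_tri ok z u v
  have h2 := E.dR_tri ok z v u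
  have h3 := E.dR_edge ok h ho
  rw [E.dR_comm ok v u] at h2
  rw [abs_le]; constructor <;> linarith

/-- a set which is closed under the allowed edges contains the small `dR`-balls -/
theorem mem_of_dR [Fintype V] {A : Set V}
    (hA : ∀ u ∈ A, ∀ v, E.G.Adj u v → ok s(u, v) → v ∈ A) {x y : V} (hx : x ∈ A)
    (h : E.dR ok x y < E.Λ) : y ∈ A := by
  obtain ⟨p, -, ho⟩ := E.dR_walk ok h
  clear h
  induction p with
  | nil => exact hx
  | cons ha p ih => exact ih (hA _ hx _ ha (ho _ (by simp))) fun e he => ho e (by simp [he])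

end Env

end Crest.Agent.N206.TA
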