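import Crest.Agent.N206.PL.Defs

/-!
# Row 206, S0317: Theorem A by the domain recursion (helper24, note 161)

Constants: `κ = 1/2`, `cc = 1/5000`, `h = 130 cc w`, `N = 10^4`, `K₀ = 2^40`.
The height is `wdist G ℓ s`.  Every point of `Sg` lies on a geodesic from `s` to `T`.
-/

set_option autoImplicit false

noncomputable section

open scoped Classical

namespace Crest.Agent.N206.TA

open Crest.GeometryTopology.GraphMetric Crest.Agent.N206.PL

/-- slope of the irregular functions -/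
def cc : ℝ := 1 / 5000
/-- ratio of consecutive scales -/
def K0 : ℝ := 2 ^ 40
/-- guaranteed fraction of successful pairs, `k` stages before the decisive one -/
def val (k : ℕ) : ℝ := 1 / 16 + 1 / 16 * (1 / 2) ^ k
/-- the gain constant -/
def c2 : ℝ := cc / (64 * 10 ^ 4)

/-- the fixed data; `Λ` is the penalty of the forbidden edges -/
structure Env (V : Type) where
  G : SimpleGraph V
  ℓ : Sym2 V → ℝ
  δ : ℝ
  s : V
  T : Set V
  lam : ℝ
  R : ℝ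
  Sg : Set V
  Λ : ℝ
  wg : WG G ℓ δ
  mf : MF G
  st : StSet G ℓ s T lam R Sg
  δ_pos : 0 < δ
  Λ_nonneg : 0 ≤ Λ

variable {V : Type}

namespace Env

variable (E : Env V)

/-- the metric -/
def d (x y : V) : ℝ := wdist E.G E.ℓ x y

/-- the height -/
def π (x : V) : ℝ := wdist E.G E.ℓ E.s x

/-- closed ball -/
def B (x : V) (r : ℝ) : Set V := bl E.G E.ℓ x r

/-- the metric in which the edges `e` with `¬ ok e` are longer by `Λ` -/
def dR (ok : Sym2 V → Prop) (x y : V) : ℝ :=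
  wdist E.G (fun e => if ok e then E.ℓ e else E.ℓ e + E.Λ) x y

/-- heights in `[a, b)` -/
def slab (a b : ℝ) : Set V := {v | a ≤ E.π v ∧ E.π v < b}

/-- `g` is `L`-Lipschitz along the edges inside `A` -/
def LipOn (L : ℝ) (A : Set V) (g : V → ℝ) : Prop :=
  ∀ u ∈ A, ∀ v ∈ A, E.G.Adj u v → |g u - g v| ≤ L * E.ℓ s(u, v)

/-- `g` is an affine function of the height on `A`, slope at most `1/2` -/
def AffOn (A : Set V) (g : V → ℝ) : Prop :=
  ∃ α β : ℝ, |α| ≤ 1 / 2 ∧ ∀ v ∈ A, g v = α * E.π v + β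

/-- the part of the `dR ok`-ball of radius `ρ` which is close to `S` -/
def BB (ok : Sym2 V → Prop) (S : Set V) (w ρ : ℝ) (z : V) : Set V :=
  {p | E.dR ok z p ≤ ρ ∧ ∃ s ∈ S, E.dR ok s p ≤ w}

/-- the pair `(x, y)` belongs to the scale `w / K₀ ^ k` -/
def AtScale (w : ℝ) (k : ℕ) (x y : V) : Prop :=
  10 ^ 4 * (w / K0 ^ k) ≤ E.d x y ∧ E.d x y < 2 * 10 ^ 4 * (w / K0 ^ k) ∧ 10 * E.d x y ≤ E.R

end Env

/-- a domain -/
structure Dom (V : Type) where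
  /-- points of `Sg` -/
  S : Set V
  /-- lower height -/
  j0 : ℝ
  /-- upper height -/
  j1 : ℝ
  /-- the exceptional function -/
  X : V → ℝ
  /-- distance to the clean boundary -/
  b : V → ℝ

namespace Dom

variable (E : Env V) (D : Dom V)

/-- the slab of the domain -/
def J : Set V := E.slab D.j0 D.j1

/-- the distance inside the slab -/
def dJ (u v : V) : ℝ := E.dR (fun e => ∀ x ∈ e, x ∈ D.J E) u v

/-- the zone in which the exceptional function is locally affine -/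
def Zone (w : ℝ) : Set V :=
  {p | p ∈ D.J E ∧ (∃ z ∈ D.S, D.dJ E z p ≤ 2 * w) ∧ D.b p < 13 * w}

/-- the territory -/
def Terr (w : ℝ) : Set V :=
  {p | D.j0 + 2 * E.δ ≤ E.π p ∧ E.π p + 2 * E.δ ≤ D.j1 ∧
    ∃ z ∈ D.S, D.dJ E z p ≤ 200 * w ∧ D.dJ E z p + 2 * E.δ ≤ D.b z}

/-- the pair `(x, y)` is still good in the domain -/
def OK (x y : V) : Prop :=
  x ∈ D.S ∧ y ∈ E.Sg ∧ 30 * E.d x y ≤ D.b x ∧ D.j0 + 70 * E.d x y ≤ E.π x ∧
    E.π x + 70 * E.d x y ≤ D.j1 ∧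
    (E.LipOn cc (E.B x (30 * E.d x y)) D.X ∨ E.AffOn (E.B x (30 * E.d x y)) D.X)

end Dom

/-- the invariants of a domain at the scale `w` -/
structure IsDom (E : Env V) (w : ℝ) (D : Dom V) : Prop where
  sub : D.S ⊆ E.Sg
  subJ : D.S ⊆ D.J E
  pos : 0 < D.j0
  le : D.j1 ≤ E.lam
  lipX : E.LipOn 1 Set.univ D.X
  lipb : E.LipOn 1 (D.J E) D.b
  sep : ∀ z ∈ D.S, ∀ z' ∈ E.Sg, z' ∈ D.J E → z' ∉ D.S → D.b z ≤ D.dJ E z z'
  cb : ∃ α β : V → ℝ, (∀ p ∈ D.Zone E w, |α p| ≤ 1 / 2 ∧ D.X p = α p * E.π p + β p) ∧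
    ∀ p ∈ D.Zone E w, ∀ q ∈ D.Zone E w, D.dJ E p q ≤ w → α p = α q ∧ β p = β q

/-- (Gain) the two `K₃₃` arguments (TL, RL) and the walk up / walk down. -/
def GainStmt : Prop :=
  ∀ (V : Type) [Fintype V] (E : Env V) (w β ϱ : ℝ) (ok : Sym2 V → Prop) (S Qc Z : Set V)
    (X : V → ℝ) (x y : V), 1000 * E.δ ≤ w → 1000 * w ≤ E.Λ → 0 < β → β + w ≤ E.lam →
      (∀ u ∈ E.slab β (β + w), ∀ v, E.G.Adj u v → (ok s(u, v) ↔ v ∈ E.slab β (β + w))) →
      S ⊆ E.Sg → Qc ⊆ S → Qc ⊆ E.slab β (β + w) → Z ⊆ E.Sg → x ∈ Qc → y ∈ Qc →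
      10 ^ 4 * w ≤ E.d x y → 70 * E.d x y ≤ E.π x → E.π x + 70 * E.d x y ≤ E.lam →
      10 * E.d x y ≤ E.R → (∀ v ∈ E.Sg, E.d x v ≤ 20 * E.d x y → v ∈ S) →
      Relation.ReflTransGen (fun a b => a ∈ Qc ∧ b ∈ Qc ∧ E.dR ok a b ≤ 4 * w) x y →
      20 * w ≤ ϱ → ϱ ≤ 40 * w → (∀ a ∈ Qc, ∀ z ∈ Z, 6 * w < |E.dR ok z a - ϱ|) →
      E.LipOn cc (E.B x (30 * E.d x y)) X →
      (∀ z ∈ S, z ∈ E.slab β (β + w) → E.d x z ≤ 11 * E.d x y →
        (∃ z' ∈ Z, E.dR ok z' z ≤ 500 * w) ∨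
        ((∃ p ∈ E.BB ok S w (200 * w) z, ∃ p' ∈ E.BB ok S w (60 * w) z,
            130 * cc * w < X p - X p') ∧
          ∃ p ∈ E.BB ok S w (60 * w) z, ∃ p' ∈ E.BB ok S w (200 * w) z,
            130 * cc * w < X p - X p')) →
      5 * (130 * cc * w) ≤ |X x - X y|

/-- the three kinds of subdomains -/
inductive Kind
  | plain
  | tent
  | ramp

/-- one stage of the geometric construction -/
structure Stage (E : Env V) (w : ℝ) (D : Dom V) : Type 1 where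
  /-- index type of the subdomains -/
  ι : Type
  /-- finiteness -/
  fin : Fintype ι
  /-- the subdomains -/
  sub : ι → Dom V
  /-- their kinds -/
  kind : ι → Kind
  /-- their cells -/
  cell : ι → V
  /-- released slope -/
  a : ι → ℝ
  /-- released intercept -/
  a0 : ι → ℝ
  /-- the clamped exceptional function -/
  X' : V → ℝ
  /-- the bumps of the cells -/
  g : V → V → ℝ
  dom : ∀ i, IsDom E (w / K0) (sub i)
  terr : ∀ i, (sub i).Terr E (w / K0) ⊆ D.Terr E w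
  apart : ∀ i j p q, p ∈ (sub i).Terr E (w / K0) → q ∈ (sub j).Terr E (w / K0) →
    (p = q ∨ E.G.Adj p q) → i = j
  lipX : E.LipOn 1 Set.univ X'
  suppX : ∀ p, p ∉ D.Terr E w → X' p = D.X p
  nearX : ∀ p, |X' p - D.X p| ≤ 130 * cc * w
  lipg : ∀ l, E.LipOn cc Set.univ (g l)
  bdg : ∀ l p, |g l p| ≤ cc * w
  suppg : ∀ l p, p ∉ D.Terr E w → g l p = 0
  oneg : ∀ l l' p q, (p = q ∨ E.G.Adj p q) → g l p ≠ 0 → g l' q ≠ 0 → l = l'
  slope : ∀ i, |a i| ≤ 1 / 2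
  subX : ∀ i, (kind i = Kind.ramp → (sub i).X = g (cell i)) ∧ (kind i ≠ Kind.ramp → (sub i).X = X')
  loc : ∀ i p q, q ∈ (sub i).Terr E (w / K0) → (p = q ∨ E.G.Adj p q) →
    (∀ l, l ≠ cell i → g l p = 0) ∧ (kind i = Kind.plain → g (cell i) p = 0) ∧
      (kind i = Kind.tent → g (cell i) p = a i * E.π p + a0 i) ∧
      (kind i = Kind.ramp → X' p = a i * E.π p + a0 i)

/-- (Geom) existence of a good stage. -/
def GeomStmt : Prop :=
  ∀ (V : Type) [Fintype V] (E : Env V) (w : ℝ) (D : Dom V), 1000 * E.δ ≤ w / K0 →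
    1000 * w ≤ E.Λ → IsDom E w D →
    ∀ (κ : Type) [Fintype κ] (x y : κ → V) (W : κ → ℝ) (idx : κ → ℕ), (∀ q, 0 ≤ W q) →
      (∀ q, D.OK E (x q) (y q) ∧ E.AtScale w (idx q) (x q) (y q) ∧
        1000 * E.δ ≤ w / K0 ^ idx q) →
      ∃ (T : Stage E w D) (alive : κ → Option T.ι) (win : κ → Prop),
        (∀ q i, alive q = some i → 0 < idx q ∧ (T.sub i).OK E (x q) (y q) ∧
          x q ∈ (T.sub i).Terr E (w / K0) ∧ y q ∈ (T.sub i).Terr E (w / K0)) ∧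
        (∀ q, win q → idx q = 0 ∧ ((∃ l, cc * w / 16 ≤ T.g l (x q) ∧ T.g l (y q) = 0) ∨
          5 * (130 * cc * w) ≤ |D.X (x q) - D.X (y q)|)) ∧
        ∑ q, W q * (if idx q = 0 then 1 / 8 else -(1 / 16 * (1 / 2) ^ idx q)) ≤
          ∑ q, W q * (if win q then 1 else if 0 < idx q ∧ alive q = none then -1 else 0)

/-- sign patterns of `n` stages -/
abbrev Om (V : Type) (n : ℕ) : Type := Fin n → V → Bool

/-- the mean over the sign patterns -/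
def avg [Fintype V] {n : ℕ} (F : Om V n → ℝ) : ℝ :=
  (∑ ω, F ω) / (Fintype.card (Om V n) : ℝ)

/-- increment of `F = M π + ξ Xf + u`, `M = A + |ξ| / 2` -/
def inc (E : Env V) (A ξ : ℝ) (Xf u : V → ℝ) (p q : V) : ℝ :=
  (A + |ξ| / 2) * (E.π p - E.π q) + ξ * (Xf p - Xf q) + (u p - u q)

/-- the inductive claim for `n` remaining stages -/
def Claim (n : ℕ) : Prop :=
  ∀ (V : Type) [Fintype V] (E : Env V) (w : ℝ) (D : Dom V), 1000 * E.δ ≤ w / K0 ^ n →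
    1000 * w ≤ E.Λ → IsDom E w D →
    ∀ (κ : Type) [Fintype κ] (x y : κ → V) (W : κ → ℝ) (idx : κ → ℕ), (∀ q, 0 ≤ W q) →
      (∀ q, D.OK E (x q) (y q) ∧ E.AtScale w (idx q) (x q) (y q) ∧ idx q < n) →
      ∃ (Xf : V → ℝ) (u : ℝ → ℝ → Om V n → V → ℝ) (αe : V → V → ℝ) (good : κ → Prop),
        E.LipOn 1 Set.univ Xf ∧ (∀ p, p ∉ D.Terr E w → Xf p = D.X p) ∧
        (∀ p, |Xf p - D.X p| ≤ 2 * (130 * cc * w)) ∧
        (∀ A ξ ω p, p ∉ D.Terr E w → u A ξ ω p = 0) ∧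
        (∀ A ξ, 0 ≤ A → ∀ ω p, |u A ξ ω p| ≤ (A + |ξ|) * w) ∧
        (∀ A ξ p, avg (fun ω => u A ξ ω p) = 0) ∧ (∀ p q, |αe p q| ≤ 1 / 2) ∧
        (∀ A ξ, 0 ≤ A → ∀ p q, E.G.Adj p q →
          avg (fun ω => |inc E A ξ Xf (u A ξ ω) p q|) ≤
            5 * (A + |ξ| / 2 + ξ * αe p q) * E.ℓ s(p, q)) ∧
        (∀ q, good q → c2 * E.d (x q) (y q) ≤ |Xf (x q) - Xf (y q)| ∨
          (∀ A ξ, 0 ≤ A → c2 * E.d (x q) (y q) * A ≤
            avg (fun ω => |inc E A ξ Xf (u A ξ ω) (x q) (y q)|)) ∨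
          ∃ α : ℝ, |α| ≤ 1 / 2 ∧ ∀ A ξ, 0 ≤ A →
            c2 * E.d (x q) (y q) * ((A + |ξ| / 2 + ξ * α) / 2) ≤
              avg (fun ω => |inc E A ξ Xf (u A ξ ω) (x q) (y q)|)) ∧
        ∑ q, W q * val (idx q) ≤ ∑ q, W q * (if good q then 1 else 0)

/-- leaf: the geometric stage -/
def GeomImp : Prop := GainStmt → SelStmt → GeomStmt
/-- leaf: the algebra of one stage (and the trivial case `n = 0`) -/
def AlgImp : Prop := GeomStmt → ∀ n, Claim n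
/-- leaf: the root domain, the forty shifts, the localisation -/
def RootImp : Prop := (∀ n, Claim n) → A2Stmt

theorem a2_of (gain : GainStmt) (sel : SelStmt) (geom : GeomImp) (alg : AlgImp) (root : RootImp) :
    A2Stmt := root (alg (geom gain sel))

end Crest.Agent.N206.TA
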