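import Crest.Agent.N206.TA.Basic

/-!
# Row 206, S0317, Theorem A, geometric stage: bands (helper24)
-/

set_option autoImplicit false

noncomputable section

open scoped Classical

namespace Crest.Agent.N206.TA

open Crest.GeometryTopology.GraphMetric Crest.Agent.N206.PL

variable {V : Type}

/-! ### capped minima, representatives, separated sets -/

/-- the minimum of `c` and of the values of `f` on `A` -/
def inf2 (c : ℝ) (A : Set V) (f : V → ℝ) : ℝ := sInf (insert c (f '' A))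

section inf2

variable [Fintype V] {c c' L : ℝ} {A : Set V} {f f' : V → ℝ}

theorem inf2_fin : (insert c (f '' A)).Finite := ((Set.toFinite A).image f).insert c

theorem inf2_le_c : inf2 c A f ≤ c := csInf_le inf2_fin.bddBelow (Set.mem_insert _ _)

theorem inf2_le {a : V} (ha : a ∈ A) : inf2 c A f ≤ f a :=
  csInf_le inf2_fin.bddBelow (Set.mem_insert_of_mem _ ⟨a, ha, rfl⟩)

theorem inf2_eq : inf2 c A f = c ∨ ∃ a ∈ A, inf2 c A f = f a := by
  rcases (Set.insert_nonempty c (f '' A)).csInf_mem inf2_fin with h | ⟨a, ha, h⟩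
  · exact Or.inl h
  · exact Or.inr ⟨a, ha, h.symm⟩

theorem le_inf2 (h1 : L ≤ c) (h2 : ∀ a ∈ A, L ≤ f a) : L ≤ inf2 c A f := by
  rcases inf2_eq (c := c) (A := A) (f := f) with h | ⟨a, ha, h⟩
  · rw [h]; exact h1
  · rw [h]; exact h2 a ha

theorem inf2_lt (h : inf2 c A f < L) : c < L ∨ ∃ a ∈ A, f a < L := by
  rcases inf2_eq (c := c) (A := A) (f := f) with h' | ⟨a, ha, h'⟩
  · exact Or.inl (h' ▸ h)
  · exact Or.inr ⟨a, ha, h' ▸ h⟩

theorem inf2_le_add (h1 : c ≤ c' + L) (h2 : ∀ a ∈ A, f a ≤ f' a + L) :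
    inf2 c A f ≤ inf2 c' A f' + L := by
  rcases inf2_eq (c := c') (A := A) (f := f') with h | ⟨a, ha, h⟩
  · rw [h]; exact inf2_le_c.trans h1
  · rw [h]; exact (inf2_le ha).trans (h2 a ha)

theorem inf2_lip (h1 : |c - c'| ≤ L) (h2 : ∀ a ∈ A, |f a - f' a| ≤ L) :
    |inf2 c A f - inf2 c' A f'| ≤ L := by
  have a1 : inf2 c A f ≤ inf2 c' A f' + L :=
    inf2_le_add (by linarith [(abs_le.1 h1).2]) fun a ha => by linarith [(abs_le.1 (h2 a ha)).2]
  have a2 : inf2 c' A f' ≤ inf2 c A f + L :=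
    inf2_le_add (by linarith [(abs_le.1 h1).1]) fun a ha => by linarith [(abs_le.1 (h2 a ha)).1]
  rw [abs_le]; constructor <;> linarith

end inf2

/-- the representative of the class of `a` -/
def qrep (r : V → V → Prop) (a : V) : V := (Quot.mk r a).out

theorem qrep_eq_iff {r : V → V → Prop} (hr : ∀ a b, r a b → r b a) {a b : V} :
    qrep r a = qrep r b ↔ Relation.ReflTransGen r a b := by
  have e : qrep r a = qrep r b ↔ Quot.mk r a = Quot.mk r b := by
    constructor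
    · intro h
      rw [← Quot.out_eq (Quot.mk r a), ← Quot.out_eq (Quot.mk r b)]
      exact congrArg _ h
    · intro h; unfold qrep; rw [h]
  rw [e]
  constructor
  · intro h
    have h' := Quot.eqvGen_exact h
    clear e h
    induction h' with
    | rel x y h => exact Relation.ReflTransGen.single h
    | refl x => exact Relation.ReflTransGen.refl
    | symm x y h0 ih =>
      clear h0
      induction ih with
      | refl => exact Relation.ReflTransGen.refl
      | tail _ h ih => exact Relation.ReflTransGen.head (hr _ _ h) ih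
    | trans x y z _ _ i1 i2 => exact i1.trans i2
  · intro h
    clear e
    induction h with
    | refl => rfl
    | tail _ h ih => exact ih.trans (Quot.sound h)

theorem qrep_idem (r : V → V → Prop) (a : V) : qrep r (qrep r a) = qrep r a := by
  unfold qrep; rw [Quot.out_eq]

theorem qrep_rel {r : V → V → Prop} {a b : V} (h : r a b) : qrep r a = qrep r b := by
  unfold qrep; rw [Quot.sound h]

/-- a maximal separated subset -/
theorem exists_net [Fintype V] (P : V → Prop) (ρ : V → V → ℝ) (r : ℝ) (hr : 0 ≤ r)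
    (h0 : ∀ a, ρ a a = 0) (hs : ∀ a b, ρ a b = ρ b a) :
    ∃ Z : Set V, (∀ z ∈ Z, P z) ∧ (∀ z ∈ Z, ∀ z' ∈ Z, ρ z z' ≤ r → z = z') ∧
      ∀ a, P a → ∃ z ∈ Z, ρ z a ≤ r := by
  obtain ⟨Z, hZ, hmax⟩ := Set.Finite.exists_maximal
    (s := {Z : Set V | (∀ z ∈ Z, P z) ∧ ∀ z ∈ Z, ∀ z' ∈ Z, ρ z z' ≤ r → z = z'})
    (Set.toFinite _) ⟨∅, by simp⟩
  refine ⟨Z, hZ.1, hZ.2, fun a ha => ?_⟩
  by_contra hn
  push Not at hn
  have hin : insert a Z ∈
      {Z : Set V | (∀ z ∈ Z, P z) ∧ ∀ z ∈ Z, ∀ z' ∈ Z, ρ z z' ≤ r → z = z'} := by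
    refine ⟨?_, ?_⟩
    · rintro z (rfl | hz)
      · exact ha
      · exact hZ.1 z hz
    · rintro z (rfl | hz) z' (rfl | hz') h
      · rfl
      · rw [hs] at h; exact absurd h (not_le.2 (hn _ hz'))
      · exact absurd h (not_le.2 (hn _ hz))
      · exact hZ.2 z hz z' hz' h
  have := hmax hin (Set.subset_insert a Z) (Set.mem_insert a Z)
  have := hn a this
  rw [h0] at this
  linarith

/-! ### bands -/

/-- a domain and an offset of the bands -/
structure C0 (V : Type) where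
  E : Env V
  w : ℝ
  D : Dom V
  β : ℝ
  hδ : 1000 * E.δ ≤ w / K0
  hΛ : 1000 * w ≤ E.Λ
  dom : IsDom E w D

namespace C0

variable (c : C0 V)

/-- index of the band -/
def bk (p : V) : ℤ := ⌊(c.E.π p - c.β) / c.w⌋
/-- lower end of the band -/
def blo (p : V) : ℝ := c.β + c.bk p * c.w
/-- edges inside one band -/
def ok (e : Sym2 V) : Prop := ∀ x ∈ e, ∀ y ∈ e, c.bk x = c.bk y
/-- distance inside the band -/
def dK (p q : V) : ℝ := c.E.dR c.ok p q
/-- height distance to the ends of the band -/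
def t0 (p : V) : ℝ := min (c.E.π p - c.blo p) (c.blo p + c.w - c.E.π p)
/-- the band lies inside `J` -/
def alive (p : V) : Prop := c.D.j0 ≤ c.blo p ∧ c.blo p + c.w ≤ c.D.j1
/-- capped distance to `A` -/
def dS (A : Set V) (p : V) : ℝ := inf2 c.w A fun a => c.dK a p
/-- big neighbourhood -/
def BB (z : V) : Set V := c.E.BB c.ok c.D.S c.w (200 * c.w) z
/-- small neighbourhood -/
def BB1 (z : V) : Set V := c.E.BB c.ok c.D.S c.w (60 * c.w) z
/-- `X` can be clamped around `z` -/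
def Clamp (z : V) (σ v : ℝ) : Prop :=
  c.E.LipOn cc (c.BB z) c.D.X ∧ (σ = 1 ∨ σ = -1) ∧
    (∀ p ∈ c.BB z, σ * c.D.X p ≤ v + 130 * cc * c.w) ∧ ∀ p ∈ c.BB1 z, v ≤ σ * c.D.X p
/-- capturable points -/
def Capt (z : V) : Prop :=
  z ∈ c.D.S ∧ c.alive z ∧ 500 * c.w ≤ c.D.b z ∧
    (c.E.AffOn (c.BB z) c.D.X ∨ ∃ σ v, c.Clamp z σ v)

theorem w'_pos : 0 < c.w / K0 := by have := c.hδ; have := c.E.δ_pos; linarith

theorem w_pos : 0 < c.w := by
  have h := c.w'_pos
  have : (0 : ℝ) < K0 := by norm_num [K0]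
  exact (div_pos_iff_of_pos_right this).1 h

theorem w'_le : 10 ^ 9 * (c.w / K0) ≤ c.w := by
  have := c.w_pos
  rw [mul_div_assoc', div_le_iff₀ (by norm_num [K0])]
  have : (10 : ℝ) ^ 9 ≤ K0 := by norm_num [K0]
  nlinarith

theorem δ_le : 1000 * c.E.δ ≤ c.w := by have := c.hδ; have := c.w'_le; have := c.w'_pos; linarith

theorem blo_le (p : V) : c.blo p ≤ c.E.π p := by
  have h := Int.floor_le ((c.E.π p - c.β) / c.w)
  rw [le_div_iff₀ c.w_pos] at h
  unfold blo bk; linarith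

theorem lt_bhi (p : V) : c.E.π p < c.blo p + c.w := by
  have h := Int.lt_floor_add_one ((c.E.π p - c.β) / c.w)
  rw [div_lt_iff₀ c.w_pos] at h
  unfold blo bk; linarith

theorem bk_eq {p q : V} (h1 : c.blo p ≤ c.E.π q) (h2 : c.E.π q < c.blo p + c.w) :
    c.bk q = c.bk p := by
  unfold blo at h1 h2
  rw [bk, Int.floor_eq_iff, le_div_iff₀ c.w_pos, div_lt_iff₀ c.w_pos]
  constructor <;> linarith

theorem blo_eq {p q : V} (h : c.bk p = c.bk q) : c.blo p = c.blo q := by unfold blo; rw [h]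

theorem alive_of {p q : V} (h : c.bk p = c.bk q) (hp : c.alive p) : c.alive q := by
  unfold alive at *; rwa [← c.blo_eq h]

theorem ok_iff {u v : V} : c.ok s(u, v) ↔ c.bk u = c.bk v := by
  constructor
  · intro h; exact h u (by simp) v (by simp)
  · intro h x hx y hy
    rw [Sym2.mem_iff] at hx hy
    rcases hx with rfl | rfl <;> rcases hy with rfl | rfl <;> simp [h]

theorem dK_self (p : V) : c.dK p p = 0 := c.E.dR_self _ p
theorem dK_nonneg (p q : V) : 0 ≤ c.dK p q := c.E.dR_nonneg _ p q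
theorem dK_comm (p q : V) : c.dK p q = c.dK q p := c.E.dR_comm _ p q
theorem dK_tri (p q r : V) : c.dK p r ≤ c.dK p q + c.dK q r := c.E.dR_tri _ p q r
theorem dK_edge {u v : V} (h : c.E.G.Adj u v) (hb : c.bk u = c.bk v) :
    c.dK u v ≤ c.E.ℓ s(u, v) := c.E.dR_edge _ h (c.ok_iff.2 hb)
theorem dK_lip {u v : V} (h : c.E.G.Adj u v) (hb : c.bk u = c.bk v) (z : V) :
    |c.dK z u - c.dK z v| ≤ c.E.ℓ s(u, v) := c.E.dR_lip _ h (c.ok_iff.2 hb) z
theorem π_dK (p q : V) : |c.E.π p - c.E.π q| ≤ c.dK p q :=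
  (c.E.π_lip p q).trans (c.E.d_le_dR _ p q)

theorem dK_near {u v : V} (h : u = v ∨ c.E.G.Adj u v) (hb : c.bk u = c.bk v) :
    c.dK u v ≤ c.E.δ := by
  rcases h with rfl | h
  · rw [dK_self]; exact c.E.δ_pos.le
  · exact (c.dK_edge h hb).trans (c.E.ℓ_le h)

theorem π_near {u v : V} (h : u = v ∨ c.E.G.Adj u v) : |c.E.π u - c.E.π v| ≤ c.E.δ := by
  rcases h with rfl | h
  · simpa using c.E.δ_pos.le
  · exact (c.E.π_edge h).trans (c.E.ℓ_le h)

theorem mem_J {p : V} (h : c.alive p) : p ∈ c.D.J c.E :=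
  ⟨h.1.trans (c.blo_le p), (c.lt_bhi p).trans_le h.2⟩

theorem t0_nonneg (p : V) : 0 ≤ c.t0 p :=
  le_min (by linarith [c.blo_le p]) (by linarith [c.lt_bhi p])

theorem t0_le (p : V) : c.t0 p ≤ c.w / 2 := by
  have h1 : c.t0 p ≤ c.E.π p - c.blo p := min_le_left _ _
  have h2 : c.t0 p ≤ c.blo p + c.w - c.E.π p := min_le_right _ _
  linarith

theorem t0_lip {p q : V} (h : c.bk p = c.bk q) : |c.t0 p - c.t0 q| ≤ |c.E.π p - c.E.π q| := by
  unfold t0
  rw [c.blo_eq h]
  refine (abs_min_sub_min_le_max _ _ _ _).trans (max_le (le_of_eq ?_) (le_of_eq ?_))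
  · congr 1; ring
  · rw [abs_sub_comm]; congr 1; ring

theorem bk_of_t0 {p q : V} (h : |c.E.π p - c.E.π q| < c.t0 p) : c.bk q = c.bk p := by
  have h1 : c.t0 p ≤ c.E.π p - c.blo p := min_le_left _ _
  have h2 : c.t0 p ≤ c.blo p + c.w - c.E.π p := min_le_right _ _
  rw [abs_lt] at h
  exact c.bk_eq (by linarith) (by linarith)

theorem margin {p : V} (h : c.alive p) :
    c.D.j0 + c.t0 p ≤ c.E.π p ∧ c.E.π p + c.t0 p ≤ c.D.j1 := by
  have h1 : c.t0 p ≤ c.E.π p - c.blo p := min_le_left _ _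
  have h2 : c.t0 p ≤ c.blo p + c.w - c.E.π p := min_le_right _ _
  constructor <;> linarith [h.1, h.2]

variable [Fintype V]

theorem bk_of_dK {p q : V} (h : c.dK p q ≤ 999 * c.w) : c.bk p = c.bk q := by
  have := c.w_pos
  have : q ∈ {v | c.bk p = c.bk v} :=
    c.E.mem_of_dR c.ok (A := {v | c.bk p = c.bk v})
      (fun u hu v _ ho => hu.trans (c.ok_iff.1 ho)) (x := p) rfl
      (by have := c.hΛ; unfold dK at h; linarith)
  exact this

theorem dJ_le_dK {p q : V} (hp : c.alive p) (h : c.dK p q ≤ 999 * c.w) :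
    c.D.dJ c.E p q ≤ c.dK p q := by
  have hw := c.w_pos
  obtain ⟨γ, hγ, ho⟩ := c.E.dR_walk c.ok (x := p) (y := q)
    (by have := c.hΛ; unfold dK at h; linarith)
  unfold dK
  rw [← hγ]
  refine c.E.dR_le_wl _ γ ?_
  clear hγ h
  induction γ with
  | nil => simp
  | @cons u v _ ha γ ih =>
    have hb : c.bk u = c.bk v := c.ok_iff.1 (ho s(u, v) (by simp))
    intro e he
    rw [SimpleGraph.Walk.edges_cons, List.mem_cons] at he
    rcases he with rfl | he
    · intro x hx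
      rcases Sym2.mem_iff.1 hx with rfl | rfl
      · exact c.mem_J hp
      · exact c.mem_J (c.alive_of hb hp)
    · exact ih (c.alive_of hb hp) (fun e he => ho e (by simp [he])) e he

theorem b_dJ {p q : V} (h : c.D.dJ c.E p q ≤ 999 * c.w) : |c.D.b p - c.D.b q| ≤ c.D.dJ c.E p q := by
  have hw := c.w_pos
  have := c.E.lip_dR (fun e => ∀ x ∈ e, x ∈ c.D.J c.E) (L := 1) (g := c.D.b)
    (fun u v huv ho => c.dom.lipb u (ho u (by simp)) v (ho v (by simp)) huv) (x := p) (y := q)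
    (by have := c.hΛ; unfold Dom.dJ at h; linarith)
  simpa [Dom.dJ] using this

theorem b_dK {p q : V} (hp : c.alive p) (h : c.dK p q ≤ 999 * c.w) :
    |c.D.b p - c.D.b q| ≤ c.dK p q :=
  (c.b_dJ ((c.dJ_le_dK hp h).trans h)).trans (c.dJ_le_dK hp h)

/-- small balls around a point far from the ends of its band -/
theorem ball {x p : V} {r : ℝ} (hr : r < c.t0 x) (hp : c.E.d x p ≤ r) :
    c.bk p = c.bk x ∧ c.dK x p ≤ c.E.d x p := by
  have key : ∀ u, c.E.d x u ≤ r → c.bk u = c.bk x := fun u hu =>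
    c.bk_of_t0 (((c.E.π_lip x u).trans hu).trans_lt hr)
  exact ⟨key p hp, c.E.dR_le_d c.ok (r := r)
    (fun u v _ hu hv => c.ok_iff.2 ((key u hu).trans (key v hv).symm)) hp⟩

theorem dS_le_w (A : Set V) (p : V) : c.dS A p ≤ c.w := inf2_le_c
theorem dS_le {A : Set V} {a : V} (ha : a ∈ A) (p : V) : c.dS A p ≤ c.dK a p := inf2_le ha
theorem dS_nonneg (A : Set V) (p : V) : 0 ≤ c.dS A p :=
  le_inf2 c.w_pos.le fun a _ => c.dK_nonneg a p
theorem dS_lt {A : Set V} {p : V} {r : ℝ} (hr : r ≤ c.w) (h : c.dS A p < r) :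
    ∃ a ∈ A, c.dK a p < r := by
  rcases inf2_lt h with h | h
  · linarith
  · exact h
theorem dS_lip (A : Set V) {u v : V} (h : c.E.G.Adj u v) (hb : c.bk u = c.bk v) :
    |c.dS A u - c.dS A v| ≤ c.E.ℓ s(u, v) :=
  inf2_lip (by simpa using (c.E.ℓ_pos h).le) fun a _ => c.dK_lip h hb a

end C0

end Crest.Agent.N206.TA
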