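import Crest.Agent.N206.TA.G0

/-!
# Row 206, S0317, Theorem A, geometric stage: centres and the clamp (helper24)
-/

set_option autoImplicit false

noncomputable section

open scoped Classical

namespace Crest.Agent.N206.TA

open Crest.GeometryTopology.GraphMetric Crest.Agent.N206.PL

variable {V : Type}

/-- centres -/
structure C1 (V : Type) extends C0 V where
  Z : Set V
  Zc : Set V
  σ : V → ℝ
  v : V → ℝ
  za : V → ℝ
  zb : V → ℝ
  α : V → ℝ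
  α0 : V → ℝ
  Z_S : ∀ z ∈ Z, z ∈ D.S
  Z_alive : ∀ z ∈ Z, toC0.alive z
  Z_b : ∀ z ∈ Z, 500 * w ≤ D.b z
  Z_sep : ∀ z ∈ Z, ∀ z' ∈ Z, toC0.dK z z' ≤ 500 * w → z = z'
  Z_max : ∀ a, toC0.Capt a → ∃ z ∈ Z, toC0.dK z a ≤ 500 * w
  Zc_sub : ∀ z ∈ Zc, z ∈ Z
  Zc_clamp : ∀ z ∈ Zc, toC0.Clamp z (σ z) (v z)
  Z_aff : ∀ z ∈ Z, z ∉ Zc → |za z| ≤ 1 / 2 ∧ ∀ p ∈ toC0.BB z, D.X p = za z * E.π p + zb z
  cb1 : ∀ p ∈ D.Zone E w, |α p| ≤ 1 / 2 ∧ D.X p = α p * E.π p + α0 p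
  cb2 : ∀ p ∈ D.Zone E w, ∀ q ∈ D.Zone E w, D.dJ E p q ≤ w → α p = α q ∧ α0 p = α0 q

theorem exists_C1 [Fintype V] (c : C0 V) : ∃ c1 : C1 V, c1.toC0 = c := by
  obtain ⟨Z, h1, h2, h3⟩ := exists_net c.Capt c.dK (500 * c.w) (by linarith [c.w_pos])
    c.dK_self c.dK_comm
  have e1 : ∀ z, ∃ σ v : ℝ, z ∈ Z → ¬ c.E.AffOn (c.BB z) c.D.X → c.Clamp z σ v := fun z => by
    by_cases hz : z ∈ Z
    · rcases (h1 z hz).2.2.2 with h | ⟨σ, v, h⟩
      · exact ⟨0, 0, fun _ h' => absurd h h'⟩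
      · exact ⟨σ, v, fun _ _ => h⟩
    · exact ⟨0, 0, fun h => absurd h hz⟩
  have e2 : ∀ z, ∃ a b : ℝ, c.E.AffOn (c.BB z) c.D.X →
      |a| ≤ 1 / 2 ∧ ∀ p ∈ c.BB z, c.D.X p = a * c.E.π p + b := fun z => by
    by_cases hz : c.E.AffOn (c.BB z) c.D.X
    · obtain ⟨a, b, h⟩ := hz
      exact ⟨a, b, fun _ => h⟩
    · exact ⟨0, 0, fun h => absurd h hz⟩
  choose σ v hσ using e1
  choose za zb hz using e2
  obtain ⟨α, α0, c1, c2⟩ := c.dom.cb
  refine ⟨⟨c, Z, {z | z ∈ Z ∧ ¬ c.E.AffOn (c.BB z) c.D.X}, σ, v, za, zb, α, α0,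
    fun z h => (h1 z h).1, fun z h => (h1 z h).2.1, fun z h => (h1 z h).2.2.1, h2, h3,
    fun z h => h.1, fun z h => hσ z h.1 h.2, fun z h h' => hz z ?_, c1, c2⟩, rfl⟩
  by_contra hn
  exact h' ⟨h, hn⟩

namespace C1

variable (c : C1 V)

/-- distance to the clean boundary and to the spheres around the centres -/
def ψ (ϱ : ℝ) (p : V) : ℝ := inf2 (c.D.b p) c.Z fun z => |c.dK z p - ϱ|

/-- the centre near `x`, if there is one -/
def ctr (x : V) : V := if h : ∃ z ∈ c.Z, c.dK z x ≤ 250 * c.w then h.choose else x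

theorem ctr_eq {x z : V} (hz : z ∈ c.Z) (h : c.dK z x ≤ 250 * c.w) : c.ctr x = z := by
  have hex : ∃ z ∈ c.Z, c.dK z x ≤ 250 * c.w := ⟨z, hz, h⟩
  rw [ctr, dif_pos hex]
  refine c.Z_sep _ hex.choose_spec.1 _ hz ?_
  have h1 := c.dK_tri hex.choose x z
  rw [c.dK_comm x z] at h1
  linarith [hex.choose_spec.2]

/-- the clamp without the collar term -/
def Y2 (z p : V) : ℝ := min (c.σ z * c.D.X p) (c.v z + max (cc * (c.dK z p - 60 * c.w)) 0)

variable [Fintype V]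

theorem ψ_le_b (ϱ : ℝ) (p : V) : c.ψ ϱ p ≤ c.D.b p := inf2_le_c

theorem ψ_lip (ϱ : ℝ) {u v : V} (h : c.E.G.Adj u v) (hb : c.bk u = c.bk v)
    (hu : u ∈ c.D.J c.E) (hv : v ∈ c.D.J c.E) : |c.ψ ϱ u - c.ψ ϱ v| ≤ c.E.ℓ s(u, v) :=
  inf2_lip (by simpa using c.dom.lipb u hu v hv h) fun z _ =>
    (abs_abs_sub_abs_le_abs_sub _ _).trans (by simpa using c.dK_lip h hb z)

theorem ψ_dK (ϱ : ℝ) {p q : V} (hp : c.alive p) (h : c.dK p q ≤ 999 * c.w) :
    |c.ψ ϱ p - c.ψ ϱ q| ≤ c.dK p q := by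
  refine inf2_lip (c.b_dK hp h) fun z _ => (abs_abs_sub_abs_le_abs_sub _ _).trans ?_
  have h1 := c.dK_tri z p q
  have h2 := c.dK_tri z q p
  rw [c.dK_comm q p] at h2
  rw [abs_le]; constructor <;> linarith

theorem b_big {z p : V} (hz : z ∈ c.Z) (h : c.dK z p ≤ 200 * c.w) : 300 * c.w ≤ c.D.b p := by
  have := c.w_pos
  have h1 := c.b_dK (c.Z_alive z hz) (q := p) (by linarith)
  have := c.Z_b z hz
  linarith [(abs_le.1 h1).2]

end C1

/-- the remaining parameters -/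
structure C2 (V : Type) extends C1 V where
  t : ℝ
  s : ℝ
  ϱ : ℝ
  t1 : w / 8 ≤ t
  t2 : t ≤ 3 / 16 * w
  s1 : 0 ≤ s
  s2 : s ≤ w
  ϱ1 : 20 * w ≤ ϱ
  ϱ2 : ϱ ≤ 40 * w

namespace C2

variable (c : C2 V)

/-- the profile of the clamp -/
def Hh (z p : V) : ℝ :=
  max (max ((c.t - c.t0 p) / 2) ((c.dS c.D.S p - c.w / 2) / 2))
    (max (cc * (c.dK z p - 60 * c.w)) 0)

/-- the clamp around `z` -/
def cl (z p : V) : ℝ := c.σ z * min (c.σ z * c.D.X p) (c.v z + c.Hh z p)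

/-- the clamp around `z` is active at `p` -/
def Act (z p : V) : Prop := z ∈ c.Zc ∧ c.Hh z p < 130 * cc * c.w

/-- the clamped function -/
def X' (p : V) : ℝ := if h : ∃ z, c.Act z p then c.cl h.choose p else c.D.X p

/-- the zone in which `X'` is locally affine -/
def Zs : Set V :=
  {p | c.alive p ∧ c.t ≤ c.t0 p ∧ (∃ a ∈ c.D.S, c.dK a p ≤ c.w / 2) ∧ c.ψ c.ϱ p < 12 * c.w}

/-- slope of `X'` -/
def α' (p : V) : ℝ :=
  if c.D.b p < 100 * c.w then c.α p else if c.ctr p ∈ c.Zc then 0 else c.za (c.ctr p)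

/-- intercept of `X'` -/
def α0' (p : V) : ℝ :=
  if c.D.b p < 100 * c.w then c.α0 p
  else if c.ctr p ∈ c.Zc then c.σ (c.ctr p) * c.v (c.ctr p) else c.zb (c.ctr p)

theorem Hh_nonneg (z p : V) : 0 ≤ c.Hh z p := le_max_of_le_right (le_max_right _ _)

theorem σσ {z : V} (hz : z ∈ c.Zc) : c.σ z * c.σ z = 1 := by
  rcases (c.Zc_clamp z hz).2.1 with h | h <;> rw [h] <;> norm_num

theorem abs_σ {z : V} (hz : z ∈ c.Zc) (a : ℝ) : |c.σ z * a| = |a| := by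
  rcases (c.Zc_clamp z hz).2.1 with h | h <;> rw [h] <;> simp

theorem act_spec {z p : V} (h : c.Act z p) :
    c.w / 16 < c.t0 p ∧ c.dS c.D.S p < 3 / 5 * c.w ∧ c.dK z p < 190 * c.w := by
  have hw := c.w_pos
  have h0 := h.2
  have t1 := c.t1
  unfold Hh at h0
  rw [max_lt_iff, max_lt_iff, max_lt_iff] at h0
  obtain ⟨⟨a, b⟩, d, -⟩ := h0
  unfold cc at a b d
  refine ⟨by linarith, by linarith, by linarith⟩

variable [Fintype V]

theorem act_BB {z p q : V} (h : c.Act z p) (hq : c.dK p q ≤ c.w / 4) : q ∈ c.BB z := by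
  have hw := c.w_pos
  obtain ⟨-, a, b⟩ := c.act_spec h
  obtain ⟨u, hu, hu'⟩ := c.dS_lt (by linarith) a
  have h1 := c.dK_tri z p q
  have h2 := c.dK_tri u p q
  exact ⟨show c.dK z q ≤ _ by linarith, u, hu, show c.dK u q ≤ _ by linarith⟩

theorem X'_of_not {p : V} (h : ∀ z, ¬ c.Act z p) : c.X' p = c.D.X p := by
  rw [X', dif_neg (not_exists.2 h)]

/-- on the neighbourhood of a clamped centre `X'` is the clamp -/
theorem X'_BB {z p : V} (hz : z ∈ c.Zc) (hp : p ∈ c.BB z) : c.X' p = c.cl z p := by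
  have hw := c.w_pos
  by_cases h : ∃ z, c.Act z p
  · rw [X', dif_pos h]
    have h1 := (c.act_spec h.choose_spec).2.2
    have h2 : c.dK z p ≤ 200 * c.w := hp.1
    have h3 := c.dK_tri h.choose p z
    rw [c.dK_comm p z] at h3
    rw [c.Z_sep _ (c.Zc_sub _ h.choose_spec.1) _ (c.Zc_sub _ hz) (by linarith)]
  · rw [X', dif_neg h, cl, min_eq_left, ← mul_assoc, c.σσ hz, one_mul]
    have h1 : 130 * cc * c.w ≤ c.Hh z p := not_lt.1 fun h' => h ⟨z, hz, h'⟩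
    linarith [(c.Zc_clamp z hz).2.2.1 p hp]

theorem X'_small {p : V} (h : c.D.b p < 300 * c.w) : c.X' p = c.D.X p :=
  c.X'_of_not fun z hz => by
    have := c.b_big (c.Zc_sub z hz.1) (p := p) (by linarith [(c.act_spec hz).2.2, c.w_pos])
    linarith

theorem nearX (p : V) : |c.X' p - c.D.X p| ≤ 130 * cc * c.w := by
  have hw := c.w_pos
  have hh : 0 ≤ 130 * cc * c.w := by unfold cc; positivity
  by_cases h : ∃ z, c.Act z p
  · obtain ⟨z, hz⟩ := h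
    have hp : p ∈ c.BB z := c.act_BB hz (by rw [c.dK_self]; linarith)
    rw [c.X'_BB hz.1 hp, ← c.abs_σ hz.1, mul_sub, cl, ← mul_assoc, c.σσ hz.1, one_mul, abs_le]
    have h1 := (c.Zc_clamp z hz.1).2.2.1 p hp
    have h2 := c.Hh_nonneg z p
    have h3 := min_le_left (c.σ z * c.D.X p) (c.v z + c.Hh z p)
    refine ⟨?_, by linarith⟩
    rcases min_choice (c.σ z * c.D.X p) (c.v z + c.Hh z p) with e | e <;> rw [e] <;> linarith
  · rw [c.X'_of_not (not_exists.1 h)]; simpa using hh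

theorem suppX (p : V) (h : p ∉ c.D.Terr c.E c.w) : c.X' p = c.D.X p := by
  refine c.X'_of_not fun z hz => h ?_
  have hw := c.w_pos
  have hδ := c.δ_le
  obtain ⟨a, -, b⟩ := c.act_spec hz
  have hZ := c.Zc_sub z hz.1
  have hal := c.Z_alive z hZ
  have hm := c.margin (c.alive_of (c.bk_of_dK (p := z) (q := p) (by linarith)) hal)
  have h1 := c.dJ_le_dK hal (q := p) (by linarith)
  have := c.Z_b z hZ
  exact ⟨by linarith [hm.1], by linarith [hm.2], z, c.Z_S z hZ, by linarith, by linarith⟩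

theorem Hh_lip (z : V) {p q : V} (h : c.E.G.Adj p q) (hb : c.bk p = c.bk q) :
    |c.Hh z p - c.Hh z q| ≤ c.E.ℓ s(p, q) := by
  have l := c.E.ℓ_pos h
  have h1 := abs_le.1 ((c.t0_lip hb).trans (c.E.π_edge h))
  have h2 := abs_le.1 (c.dS_lip c.D.S h hb)
  have h3 := abs_le.1 (c.dK_lip h hb z)
  unfold Hh cc
  refine (abs_max_sub_max_le_max _ _ _ _).trans (max_le
    ((abs_max_sub_max_le_max _ _ _ _).trans (max_le ?_ ?_))
    ((abs_max_sub_max_le_max _ _ _ _).trans (max_le ?_ ?_))) <;>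
  rw [abs_le] <;> constructor <;> linarith [h1.1, h1.2, h2.1, h2.2, h3.1, h3.2]

theorem lipX_act {z p q : V} (hz : c.Act z p) (h : c.E.G.Adj p q) :
    |c.X' p - c.X' q| ≤ 1 * c.E.ℓ s(p, q) := by
  have hw := c.w_pos
  have hδ := c.δ_le
  have hb : c.bk q = c.bk p :=
    c.bk_of_t0 ((c.π_near (Or.inr h)).trans_lt (by linarith [(c.act_spec hz).1]))
  have hp : p ∈ c.BB z := c.act_BB hz (by rw [c.dK_self]; linarith)
  have hq : q ∈ c.BB z := c.act_BB hz ((c.dK_near (Or.inr h) hb.symm).trans (by linarith))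
  rw [c.X'_BB hz.1 hp, c.X'_BB hz.1 hq, cl, cl, ← mul_sub, c.abs_σ hz.1]
  refine (abs_min_sub_min_le_max _ _ _ _).trans (max_le ?_ ?_)
  · rw [← mul_sub, c.abs_σ hz.1]
    exact c.dom.lipX p trivial q trivial h
  · simpa using c.Hh_lip z h hb.symm

theorem lipX : c.E.LipOn 1 Set.univ c.X' := by
  intro p _ q _ h
  by_cases hp : ∃ z, c.Act z p
  · exact c.lipX_act hp.choose_spec h
  by_cases hq : ∃ z, c.Act z q
  · rw [abs_sub_comm, Sym2.eq_swap]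
    exact c.lipX_act hq.choose_spec h.symm
  rw [c.X'_of_not (not_exists.1 hp), c.X'_of_not (not_exists.1 hq)]
  exact c.dom.lipX p trivial q trivial h

theorem zs_cases {p : V} (hp : p ∈ c.Zs) :
    (c.D.b p < 12 * c.w ∧ p ∈ c.D.Zone c.E c.w) ∨
      (300 * c.w ≤ c.D.b p ∧ c.ctr p ∈ c.Z ∧ c.dK (c.ctr p) p < 52 * c.w) := by
  have hw := c.w_pos
  obtain ⟨h1, -, ⟨a, ha, ha'⟩, h4⟩ := hp
  rcases inf2_lt h4 with h | ⟨z, hz, h⟩
  · refine Or.inl ⟨h, c.mem_J h1, ⟨a, ha, ?_⟩, by linarith⟩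
    have hb := c.bk_of_dK (p := a) (q := p) (by linarith)
    linarith [c.dJ_le_dK (c.alive_of hb.symm h1) (q := p) (by linarith)]
  · have h5 : c.dK z p < 52 * c.w := by linarith [(abs_lt.1 h).2, c.ϱ2]
    rw [c.ctr_eq hz (by linarith)]
    exact Or.inr ⟨c.b_big hz (by linarith), hz, h5⟩

/-- (Z), first half -/
theorem zs_aff {p : V} (hp : p ∈ c.Zs) : |c.α' p| ≤ 1 / 2 ∧ c.X' p = c.α' p * c.E.π p + c.α0' p := by
  have hw := c.w_pos
  rcases c.zs_cases hp with ⟨h1, h2⟩ | ⟨h1, h2, h3⟩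
  · have e : c.D.b p < 100 * c.w := by linarith
    rw [α', α0', if_pos e, if_pos e, c.X'_small (by linarith)]
    exact c.cb1 p h2
  · obtain ⟨-, h5, ⟨a, ha, ha'⟩, -⟩ := hp
    have hB : p ∈ c.BB (c.ctr p) :=
      ⟨show c.dK _ p ≤ _ by linarith, a, ha, show c.dK a p ≤ _ by linarith⟩
    have hB1 : p ∈ c.BB1 (c.ctr p) :=
      ⟨show c.dK _ p ≤ _ by linarith, a, ha, show c.dK a p ≤ _ by linarith⟩
    have e : ¬ c.D.b p < 100 * c.w := by linarith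
    rw [α', α0', if_neg e, if_neg e]
    by_cases hc : c.ctr p ∈ c.Zc
    · rw [if_pos hc, if_pos hc, c.X'_BB hc hB, cl]
      have h0 : c.Hh (c.ctr p) p = 0 := by
        refine le_antisymm (max_le (max_le (by linarith) ?_) (max_le ?_ le_rfl)) (c.Hh_nonneg _ _)
        · linarith [c.dS_le ha p]
        · unfold cc; linarith
      rw [h0, add_zero, min_eq_right ((c.Zc_clamp _ hc).2.2.2 p hB1)]
      simp
    · rw [if_neg hc, if_neg hc, c.X'_of_not]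
      · exact ⟨(c.Z_aff _ h2 hc).1, (c.Z_aff _ h2 hc).2 p hB⟩
      · intro z hz
        have := c.ctr_eq (c.Zc_sub z hz.1) (x := p) (by linarith [(c.act_spec hz).2.2])
        exact hc (this ▸ hz.1)

/-- (Z), second half -/
theorem zs_loc {p q : V} (hp : p ∈ c.Zs) (hq : q ∈ c.Zs) (h : c.dK p q ≤ c.w) :
    c.α' p = c.α' q ∧ c.α0' p = c.α0' q := by
  have hw := c.w_pos
  have hb := abs_le.1 (c.b_dK hp.1 (q := q) (by linarith))
  rcases c.zs_cases hp with ⟨h1, h2⟩ | ⟨h1, h2, h3⟩ <;>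
    rcases c.zs_cases hq with ⟨k1, k2⟩ | ⟨k1, k2, k3⟩
  · have e1 : c.D.b p < 100 * c.w := by linarith
    have e2 : c.D.b q < 100 * c.w := by linarith
    simp only [α', α0', if_pos e1, if_pos e2]
    exact c.cb2 p h2 q k2 ((c.dJ_le_dK hp.1 (by linarith)).trans h)
  · linarith [hb.1]
  · linarith [hb.2]
  · have e : c.ctr q = c.ctr p := c.ctr_eq h2 (by linarith [c.dK_tri (c.ctr p) p q])
    have e1 : ¬ c.D.b p < 100 * c.w := by linarith
    have e2 : ¬ c.D.b q < 100 * c.w := by linarith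
    simp only [α', α0', if_neg e1, if_neg e2, e, and_self]

end C2

end Crest.Agent.N206.TA
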