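import Crest.Agent.N206.TA.G1

/-!
# Row 206, S0317, Theorem A, geometric stage: regularity of the clamp, cells (helper24)
-/

set_option autoImplicit false

noncomputable section

open scoped Classical

namespace Crest.Agent.N206.TA

open Crest.GeometryTopology.GraphMetric Crest.Agent.N206.PL

variable {V : Type}

namespace C2

variable (c : C2 V)

/-- lower level -/
def L0 : ℝ := 6 * c.w + c.s
/-- upper level -/
def La : ℝ := 10 * c.w + c.s
/-- the points which belong to cells -/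
def Sp : Set V := {a | a ∈ c.D.S ∧ c.alive a ∧ c.L0 < c.ψ c.ϱ a}
/-- links of cells -/
def rc (a b : V) : Prop := a ∈ c.Sp ∧ b ∈ c.Sp ∧ c.dK a b ≤ 4 * c.w
/-- name of the cell -/
def crep (a : V) : V := qrep c.rc a
/-- the cell with name `l` -/
def cell (l : V) : Set V := {a | a ∈ c.Sp ∧ c.crep a = l}
/-- the bump of a cell -/
def g (l p : V) : ℝ :=
  cc * max (min (min (c.t0 p - c.t) (c.ψ c.ϱ p - 8 * c.w)) (c.w - c.dS (c.cell l) p)) 0

theorem rc_symm (a b : V) (h : c.rc a b) : c.rc b a := ⟨h.2.1, h.1, by rw [c.dK_comm]; exact h.2.2⟩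

theorem g_nonneg (l p : V) : 0 ≤ c.g l p := mul_nonneg (by norm_num [cc]) (le_max_right _ _)

theorem g_le_t0 (l p : V) : c.g l p ≤ cc * max (c.t0 p - c.t) 0 :=
  mul_le_mul_of_nonneg_left (max_le_max ((min_le_left _ _).trans (min_le_left _ _)) le_rfl)
    (by norm_num [cc])

theorem bdg (l p : V) : |c.g l p| ≤ cc * c.w := by
  have hw := c.w_pos
  rw [abs_of_nonneg (c.g_nonneg l p)]
  refine (c.g_le_t0 l p).trans (mul_le_mul_of_nonneg_left (max_le ?_ hw.le) (by norm_num [cc]))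
  linarith [c.t0_le p, c.t1]

theorem g_zero_t {l p : V} (h : c.t0 p ≤ c.t) : c.g l p = 0 := by
  refine le_antisymm ((c.g_le_t0 l p).trans ?_) (c.g_nonneg l p)
  rw [max_eq_right (by linarith), mul_zero]

theorem g_zero_ψ {l p : V} (h : c.ψ c.ϱ p ≤ 8 * c.w) : c.g l p = 0 := by
  rw [g, max_eq_right (((min_le_left _ _).trans (min_le_right _ _)).trans (by linarith)), mul_zero]

variable [Fintype V]

theorem g_ne {l p : V} (h : c.g l p ≠ 0) :
    c.t < c.t0 p ∧ c.alive p ∧ ∃ a ∈ c.cell l, c.dK a p < c.w := by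
  have hw := c.w_pos
  have h1 : c.dS (c.cell l) p < c.w := by
    by_contra hn
    refine h ?_
    rw [g, max_eq_right ((min_le_right _ _).trans (by linarith)), mul_zero]
  obtain ⟨a, ha, ha'⟩ := c.dS_lt le_rfl h1
  exact ⟨not_le.1 fun h' => h (c.g_zero_t h'),
    c.alive_of (c.bk_of_dK (by linarith)) ha.1.2.1, a, ha, ha'⟩

theorem lipg_ne {l p q : V} (hp : c.g l p ≠ 0) (h : c.E.G.Adj p q) :
    |c.g l p - c.g l q| ≤ cc * c.E.ℓ s(p, q) := by
  have hw := c.w_pos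
  have hδ := c.δ_le
  obtain ⟨h1, h2, -⟩ := c.g_ne hp
  have hb : c.bk q = c.bk p :=
    c.bk_of_t0 ((c.π_near (Or.inr h)).trans_lt (by linarith [c.t1]))
  have a1 := (c.t0_lip hb.symm).trans (c.E.π_edge h)
  have a2 := c.dS_lip (c.cell l) h hb.symm
  have a3 := c.ψ_lip c.ϱ h hb.symm (c.mem_J h2) (c.mem_J (c.alive_of hb.symm h2))
  rw [g, g, ← mul_sub, abs_mul, abs_of_nonneg (by norm_num [cc] : (0 : ℝ) ≤ cc)]
  refine mul_le_mul_of_nonneg_left ?_ (by norm_num [cc])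
  refine (abs_max_sub_max_le_abs _ _ _).trans ((abs_min_sub_min_le_max _ _ _ _).trans (max_le
    ((abs_min_sub_min_le_max _ _ _ _).trans (max_le ?_ ?_)) ?_))
  · simpa using a1
  · simpa using a3
  · rw [abs_sub_comm] at a2; simpa using a2

theorem lipg (l : V) : c.E.LipOn cc Set.univ (c.g l) := by
  intro p _ q _ h
  by_cases hp : c.g l p = 0
  · by_cases hq : c.g l q = 0
    · rw [hp, hq, sub_zero, abs_zero]
      exact mul_nonneg (by norm_num [cc]) (c.E.ℓ_pos h).le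
    · rw [abs_sub_comm, Sym2.eq_swap]; exact c.lipg_ne hq h.symm
  · exact c.lipg_ne hp h

theorem suppg (l p : V) (h : p ∉ c.D.Terr c.E c.w) : c.g l p = 0 := by
  by_contra hn
  refine h ?_
  have hw := c.w_pos
  have hδ := c.δ_le
  obtain ⟨h1, h2, a, ha, ha'⟩ := c.g_ne hn
  have hm := c.margin h2
  have h3 := c.dJ_le_dK ha.1.2.1 (q := p) (by linarith)
  have h4 := c.ψ_le_b c.ϱ a
  have h5 : c.L0 < c.ψ c.ϱ a := ha.1.2.2
  have := c.t1
  have := c.s1
  unfold L0 at h5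
  exact ⟨by linarith [hm.1], by linarith [hm.2], a, ha.1.1, by linarith, by linarith⟩

theorem oneg (l l' p q : V) (h : p = q ∨ c.E.G.Adj p q) (hp : c.g l p ≠ 0) (hq : c.g l' q ≠ 0) :
    l = l' := by
  have hw := c.w_pos
  have hδ := c.δ_le
  obtain ⟨h1, -, a, ha, ha'⟩ := c.g_ne hp
  obtain ⟨-, -, b, hb, hb'⟩ := c.g_ne hq
  have hk : c.bk q = c.bk p := c.bk_of_t0 ((c.π_near h).trans_lt (by linarith [c.t1]))
  have h2 := c.dK_near h hk.symm
  have h3 := c.dK_tri a p b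
  have h4 := c.dK_tri p q b
  rw [c.dK_comm q b] at h4
  rw [← ha.2, ← hb.2]
  exact qrep_rel ⟨ha.1, hb.1, by linarith⟩

theorem g_other {z l p : V} (hz : z ∈ c.Sp) (h : c.dK z p ≤ c.w) (hl : l ≠ c.crep z) :
    c.g l p = 0 := by
  by_contra hn
  obtain ⟨-, -, a, ha, ha'⟩ := c.g_ne hn
  have h3 := c.dK_tri a p z
  rw [c.dK_comm p z] at h3
  refine hl ?_
  rw [← ha.2]
  exact qrep_rel ⟨ha.1, hz, by linarith [c.w_pos]⟩

theorem g_tent {z p : V} (hz : z ∈ c.Sp) (h : c.dK z p ≤ c.w / 2) (ht : c.t ≤ c.t0 p)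
    (hψ : 9 * c.w ≤ c.ψ c.ϱ p) : c.g (c.crep z) p = cc * (c.t0 p - c.t) := by
  have hw := c.w_pos
  have h1 := c.dS_le (A := c.cell (c.crep z)) (a := z) ⟨hz, rfl⟩ p
  have h2 := c.t0_le p
  have h3 := c.t1
  rw [g, min_eq_left (a := c.t0 p - c.t) (by linarith), min_eq_left (by linarith),
    max_eq_left (by linarith)]

/-- `t0` is affine on a ball inside a half band -/
theorem t0_aff {x : V} {r : ℝ} (h1 : r < c.t0 x) (h2 : r < |c.E.π x - c.blo x - c.w / 2|) :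
    ∃ ε e : ℝ, |ε| = 1 ∧ ∀ p ∈ c.E.B x r, c.t0 p = ε * c.E.π p + e := by
  rcases lt_abs.1 h2 with h | h
  · refine ⟨-1, c.blo x + c.w, by simp, fun p hp => ?_⟩
    have a := abs_le.1 ((c.E.π_lip x p).trans hp)
    rw [C0.t0, c.blo_eq (c.ball h1 hp).1, min_eq_right (by linarith [a.2])]; ring
  · refine ⟨1, -c.blo x, by simp, fun p hp => ?_⟩
    have a := abs_le.1 ((c.E.π_lip x p).trans hp)
    rw [C0.t0, c.blo_eq (c.ball h1 hp).1, min_eq_left (by linarith [a.1])]; ring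

/-- away from the kinks the clamped function is regular on a small ball -/
theorem reg {x : V} {r : ℝ} (hx : x ∈ c.D.S) (hr : r ≤ c.w / 8) (h1 : r < c.t0 x)
    (h2 : r < |c.E.π x - c.blo x - c.w / 2|)
    (h3 : 2 * r < |c.t0 x + 2 * (c.σ (c.ctr x) * c.D.X x - c.v (c.ctr x)) - c.t|)
    (h4 : 2 * r < |c.t0 x + 2 * (c.Y2 (c.ctr x) x - c.v (c.ctr x)) - c.t|)
    (h : c.E.LipOn cc (c.E.B x r) c.D.X ∨ c.E.AffOn (c.E.B x r) c.D.X) :
    c.E.LipOn cc (c.E.B x r) c.X' ∨ c.E.AffOn (c.E.B x r) c.X' := by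
  have hw := c.w_pos
  have hK : ∀ p ∈ c.E.B x r, c.dK x p ≤ r := fun p hp => (c.ball h1 hp).2.trans hp
  by_cases ha : ∃ p ∈ c.E.B x r, ∃ z, c.Act z p
  swap
  · push Not at ha
    rcases h with h | ⟨a, b, h, h'⟩
    · refine Or.inl fun u hu v hv huv => ?_
      rw [c.X'_of_not (ha u hu), c.X'_of_not (ha v hv)]
      exact h u hu v hv huv
    · exact Or.inr ⟨a, b, h, fun v hv => by rw [c.X'_of_not (ha v hv)]; exact h' v hv⟩
  obtain ⟨p0, hp0, z, hz⟩ := ha
  have r0 : 0 ≤ r := (c.E.d_nonneg x p0).trans hp0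
  have hB : ∀ p ∈ c.E.B x r, p ∈ c.BB z := fun p hp => c.act_BB hz (by
    have := c.dK_tri p0 x p
    rw [c.dK_comm p0 x] at this
    linarith [hK p hp, hK p0 hp0])
  have hc : c.ctr x = z := c.ctr_eq (c.Zc_sub z hz.1) (by
    have := c.dK_tri z p0 x
    rw [c.dK_comm p0 x] at this
    linarith [hK p0 hp0, (c.act_spec hz).2.2])
  rw [hc] at h3 h4
  have lY : c.E.LipOn cc (c.E.B x r) fun p => c.σ z * c.D.X p := fun u hu v hv huv => by
    rw [← mul_sub, c.abs_σ hz.1]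
    exact (c.Zc_clamp z hz.1).1 u (hB u hu) v (hB v hv) huv
  have lY2 : c.E.LipOn cc (c.E.B x r) (c.Y2 z) := fun u hu v hv huv => by
    refine (abs_min_sub_min_le_max _ _ _ _).trans (max_le (lY u hu v hv huv) ?_)
    rw [add_sub_add_left_eq_sub]
    refine (abs_max_sub_max_le_abs _ _ _).trans ?_
    rw [← mul_sub, abs_mul, abs_of_nonneg (by norm_num [cc] : (0 : ℝ) ≤ cc),
      sub_sub_sub_cancel_right]
    exact mul_le_mul_of_nonneg_left
      (c.dK_lip huv ((c.ball h1 hu).1.trans (c.ball h1 hv).1.symm) z) (by norm_num [cc])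
  have hcl : ∀ p ∈ c.E.B x r, c.X' p = c.σ z * min (c.σ z * c.D.X p)
      (max (c.v z + (c.t - c.t0 p) / 2) (c.v z + max (cc * (c.dK z p - 60 * c.w)) 0)) := by
    intro p hp
    rw [c.X'_BB hz.1 (hB p hp), cl, Hh, max_add_add_left, max_assoc,
      max_eq_right (a := (c.dS c.D.S p - c.w / 2) / 2)]
    refine le_max_of_le_right ?_
    linarith [c.dS_le hx p, hK p hp]
  have near : ∀ p ∈ c.E.B x r, |c.σ z * c.D.X x - c.σ z * c.D.X p| ≤ r / 4 ∧
      |c.Y2 z x - c.Y2 z p| ≤ r / 4 ∧ |c.t0 x - c.t0 p| ≤ r := fun p hp => by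
    have hd : cc * c.E.d x p ≤ r / 4 := by
      have : c.E.d x p ≤ r := hp
      unfold cc; linarith
    exact ⟨(c.E.lip_ball lY hp).trans hd, (c.E.lip_ball lY2 hp).trans hd,
      (c.t0_lip (c.ball h1 hp).1.symm).trans ((c.E.π_lip x p).trans hp)⟩
  rcases lt_abs.1 h3 with k3 | k3
  swap
  · refine Or.inl fun u hu v hv huv => ?_
    have e : ∀ p ∈ c.E.B x r, c.X' p = c.σ z * (c.σ z * c.D.X p) := fun p hp => by
      obtain ⟨n1, -, n3⟩ := near p hp
      rw [hcl p hp, min_eq_left (le_max_of_le_left ?_)]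
      linarith [(abs_le.1 n1).1, (abs_le.1 n3).1]
    rw [e u hu, e v hv, ← mul_sub, c.abs_σ hz.1]
    exact lY u hu v hv huv
  rcases lt_abs.1 h4 with k4 | k4
  · refine Or.inl fun u hu v hv huv => ?_
    have e : ∀ p ∈ c.E.B x r, c.X' p = c.σ z * c.Y2 z p := fun p hp => by
      obtain ⟨-, n2, n3⟩ := near p hp
      have : c.Y2 z p ≤ c.v z + max (cc * (c.dK z p - 60 * c.w)) 0 := min_le_right _ _
      rw [hcl p hp, max_eq_right, C1.Y2]
      linarith [(abs_le.1 n2).2, (abs_le.1 n3).2]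
    rw [e u hu, e v hv, ← mul_sub, c.abs_σ hz.1]
    exact lY2 u hu v hv huv
  · obtain ⟨ε, e, hε, he⟩ := c.t0_aff h1 h2
    refine Or.inr ⟨c.σ z * (-ε / 2), c.σ z * (c.v z + (c.t - e) / 2), ?_, fun p hp => ?_⟩
    · rw [c.abs_σ hz.1, abs_div, abs_neg, hε]; norm_num
    · obtain ⟨n1, n2, n3⟩ := near p hp
      have a1 : c.v z + (c.t - c.t0 p) / 2 < c.σ z * c.D.X p := by
        linarith [(abs_le.1 n1).2, (abs_le.1 n3).2]
      have a2 : c.Y2 z p < c.v z + (c.t - c.t0 p) / 2 := by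
        linarith [(abs_le.1 n2).1, (abs_le.1 n3).1]
      have a3 : c.v z + max (cc * (c.dK z p - 60 * c.w)) 0 < c.v z + (c.t - c.t0 p) / 2 := by
        rcases min_lt_iff.1 a2 with a | a
        · linarith
        · exact a
      rw [hcl p hp, max_eq_left a3.le, min_eq_right a1.le, he p hp]
      ring

end C2

end Crest.Agent.N206.TA
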