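import Crest.Agent.N206.TA.G2

/-!
# Row 206, S0317, Theorem A, geometric stage: the subdomains (helper24)
-/

set_option autoImplicit false

noncomputable section

open scoped Classical

namespace Crest.Agent.N206.TA

open Crest.GeometryTopology.GraphMetric Crest.Agent.N206.PL

variable {V : Type}

namespace C2

variable (c : C2 V)

/-- the part of the band -/
def pos (p : V) : ℕ :=
  if c.E.π p - c.blo p < c.t then 0 else if c.E.π p - c.blo p < c.w / 2 then 1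
  else if c.E.π p - c.blo p < c.w - c.t then 2 else 3
/-- the cut heights in a band -/
def cut (n : ℕ) : ℝ :=
  if n = 0 then 0 else if n = 1 then c.t else if n = 2 then c.w / 2
  else if n = 3 then c.w - c.t else c.w
/-- lower end of the subinterval -/
def slo (p : V) : ℝ := max c.D.j0 (c.blo p + c.cut (c.pos p))
/-- upper end of the subinterval -/
def shi (p : V) : ℝ := min c.D.j1 (c.blo p + c.cut (c.pos p + 1))
/-- inner part of a live band -/
def inner (p : V) : Prop := c.alive p ∧ (c.pos p = 1 ∨ c.pos p = 2)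
/-- the zone -/
def zone (p : V) : ℕ :=
  if c.inner p then (if c.ψ c.ϱ p ≤ c.L0 then 1 else if c.ψ c.ϱ p < c.La then 2 else 3) else 0
/-- links of subdomains -/
def rs (a b : V) : Prop :=
  a ∈ c.D.S ∧ b ∈ c.D.S ∧ c.bk a = c.bk b ∧ c.pos a = c.pos b ∧ c.zone a = c.zone b ∧
    c.dK a b ≤ c.w
/-- name of the subdomain -/
def rep (a : V) : V := qrep c.rs a
/-- distance to the clean boundary of a subdomain -/
def bz (n : ℕ) (p : V) : ℝ :=
  if n = 0 then min (c.D.b p) c.w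
  else if n = 1 then min (min (c.D.b p) (c.L0 - c.ψ c.ϱ p)) c.w
  else if n = 2 then min (min (c.ψ c.ϱ p - c.L0) (c.La - c.ψ c.ϱ p)) c.w
  else min (c.ψ c.ϱ p - c.La) c.w
/-- the subdomain with name `z` -/
def child (z : V) : Dom V :=
  ⟨{a | a ∈ c.D.S ∧ c.rep a = z}, c.slo z, c.shi z,
    if c.zone z = 2 then c.g (c.crep z) else c.X', c.bz (c.zone z)⟩
/-- slope of the tent -/
def ez (z : V) : ℝ := if c.pos z = 1 then 1 else -1
/-- intercept of the tent -/
def e0 (z : V) : ℝ := if c.pos z = 1 then -c.blo z else c.blo z + c.w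

theorem pos_cases (p : V) :
    (c.pos p = 0 ∧ c.E.π p - c.blo p < c.t) ∨
    (c.pos p = 1 ∧ c.t ≤ c.E.π p - c.blo p ∧ c.E.π p - c.blo p < c.w / 2) ∨
    (c.pos p = 2 ∧ c.w / 2 ≤ c.E.π p - c.blo p ∧ c.E.π p - c.blo p < c.w - c.t) ∨
    (c.pos p = 3 ∧ c.w - c.t ≤ c.E.π p - c.blo p) := by
  unfold pos
  split_ifs with h1 h2 h3
  · exact Or.inl ⟨rfl, h1⟩
  · exact Or.inr (Or.inl ⟨rfl, not_lt.1 h1, h2⟩)
  · exact Or.inr (Or.inr (Or.inl ⟨rfl, not_lt.1 h2, h3⟩))
  · exact Or.inr (Or.inr (Or.inr ⟨rfl, not_lt.1 h3⟩))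

theorem cut0 : c.cut 0 = 0 := by simp [cut]
theorem cut1 : c.cut 1 = c.t := by simp [cut]
theorem cut2 : c.cut 2 = c.w / 2 := by simp [cut]
theorem cut3 : c.cut 3 = c.w - c.t := by simp [cut]
theorem cut4 : c.cut 4 = c.w := by simp [cut]

theorem pos_spec (p : V) :
    c.cut (c.pos p) ≤ c.E.π p - c.blo p ∧ c.E.π p - c.blo p < c.cut (c.pos p + 1) := by
  have h1 := c.blo_le p
  have h2 := c.lt_bhi p
  rcases c.pos_cases p with h | h | h | h <;> rw [h.1] <;>
    simp only [Nat.reduceAdd, cut0, cut1, cut2, cut3, cut4] <;> constructor <;>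
    first | linarith | linarith [h.2]

theorem slab_spec {z q : V} (h : q ∈ c.E.slab (c.slo z) (c.shi z)) :
    c.bk q = c.bk z ∧ c.pos q = c.pos z ∧ q ∈ c.D.J c.E := by
  have hw := c.w_pos
  have t1 := c.t1
  have t2 := c.t2
  obtain ⟨a, b⟩ := h
  rw [slo, max_le_iff] at a
  rw [shi, lt_min_iff] at b
  have hb : c.bk q = c.bk z := by
    have a2 := a.2
    have b2 := b.2
    rcases c.pos_cases z with h | h | h | h <;> rw [h.1] at a2 b2 <;>
      simp only [Nat.reduceAdd, cut0, cut1, cut2, cut3, cut4] at a2 b2 <;>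
      exact c.bk_eq (by linarith) (by linarith)
  refine ⟨hb, ?_, a.1, b.1⟩
  have a2 := a.2
  have b2 := b.2
  rw [← c.blo_eq hb] at a2 b2
  rcases c.pos_cases z with h | h | h | h <;> rw [h.1] at a2 b2 ⊢ <;>
    simp only [Nat.reduceAdd, cut0, cut1, cut2, cut3, cut4] at a2 b2 <;>
    rcases c.pos_cases q with k | k | k | k <;>
    first | exact k.1 | linarith [k.2]

theorem mem_slab {z q : V} (hq : q ∈ c.D.J c.E) (h1 : c.bk q = c.bk z) (h2 : c.pos q = c.pos z) :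
    q ∈ c.E.slab (c.slo z) (c.shi z) := by
  have := c.pos_spec q
  rw [slo, shi, ← h2, ← c.blo_eq h1]
  exact ⟨max_le hq.1 (by linarith [this.1]), lt_min hq.2 (by linarith [this.2])⟩

theorem inner_of {p q : V} (h1 : c.bk p = c.bk q) (h2 : c.pos p = c.pos q) (h : c.inner p) :
    c.inner q := ⟨c.alive_of h1 h.1, h2 ▸ h.2⟩

theorem inner_t0 {p : V} (h : c.inner p) : c.t ≤ c.t0 p := by
  have hw := c.w_pos
  have t2 := c.t2
  rcases c.pos_cases p with k | k | k | k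
  · have := h.2; omega
  · exact le_min k.2.1 (by linarith [k.2.2])
  · exact le_min (by linarith [k.2.1]) (by linarith [k.2.2])
  · have := h.2; omega

theorem outer_t0 {p : V} (h : ¬ c.inner p) (ha : c.alive p) : c.t0 p ≤ c.t := by
  rcases c.pos_cases p with k | k | k | k
  · exact (min_le_left _ _).trans k.2.le
  · exact absurd ⟨ha, Or.inl k.1⟩ h
  · exact absurd ⟨ha, Or.inr k.1⟩ h
  · exact (min_le_right _ _).trans (by linarith [k.2])

theorem t0_half {z p : V} (h : c.inner z) (h1 : c.bk p = c.bk z) (h2 : c.pos p = c.pos z) :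
    c.t0 p = c.ez z * c.E.π p + c.e0 z := by
  rw [ez, e0, ← c.blo_eq h1, ← h2]
  have := (c.inner_of h1.symm h2.symm h).2
  rcases c.pos_cases p with k | k | k | k
  · omega
  · rw [if_pos k.1, if_pos k.1, C0.t0, min_eq_left (by linarith [k.2.2])]; ring
  · rw [if_neg (by omega), if_neg (by omega), C0.t0, min_eq_right (by linarith [k.2.1])]; ring
  · omega

theorem abs_ez (z : V) : |cc * c.ez z| ≤ 1 / 2 := by
  unfold ez cc; split_ifs <;> norm_num [abs_of_pos]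

theorem zone_cases (p : V) :
    (c.zone p = 0 ∧ ¬ c.inner p) ∨ (c.zone p = 1 ∧ c.inner p ∧ c.ψ c.ϱ p ≤ c.L0) ∨
    (c.zone p = 2 ∧ c.inner p ∧ c.L0 < c.ψ c.ϱ p ∧ c.ψ c.ϱ p < c.La) ∨
    (c.zone p = 3 ∧ c.inner p ∧ c.La ≤ c.ψ c.ϱ p) := by
  unfold zone
  split_ifs with h1 h2 h3
  · exact Or.inr (Or.inl ⟨rfl, h1, h2⟩)
  · exact Or.inr (Or.inr (Or.inl ⟨rfl, h1, not_le.1 h2, h3⟩))
  · exact Or.inr (Or.inr (Or.inr ⟨rfl, h1, not_lt.1 h3⟩))
  · exact Or.inl ⟨rfl, h1⟩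

theorem bz0 (p : V) : c.bz 0 p = min (c.D.b p) c.w := by simp [bz]
theorem bz1 (p : V) : c.bz 1 p = min (min (c.D.b p) (c.L0 - c.ψ c.ϱ p)) c.w := by simp [bz]
theorem bz2 (p : V) : c.bz 2 p = min (min (c.ψ c.ϱ p - c.L0) (c.La - c.ψ c.ϱ p)) c.w := by
  simp [bz]
theorem bz3 (p : V) : c.bz 3 p = min (c.ψ c.ϱ p - c.La) c.w := by simp [bz]
theorem bz1_le (p : V) : c.bz 1 p ≤ c.L0 - c.ψ c.ϱ p := by
  rw [bz1]; exact (min_le_left _ _).trans (min_le_right _ _)
theorem bz2_le (p : V) : c.bz 2 p ≤ c.ψ c.ϱ p - c.L0 := by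
  rw [bz2]; exact (min_le_left _ _).trans (min_le_left _ _)
theorem bz2_le' (p : V) : c.bz 2 p ≤ c.La - c.ψ c.ϱ p := by
  rw [bz2]; exact (min_le_left _ _).trans (min_le_right _ _)
theorem bz3_le (p : V) : c.bz 3 p ≤ c.ψ c.ϱ p - c.La := by rw [bz3]; exact min_le_left _ _

theorem bz_le_w (n : ℕ) (p : V) : c.bz n p ≤ c.w := by
  unfold bz; split_ifs <;> exact min_le_right _ _

theorem bz_lip (n : ℕ) {p q : V} {L : ℝ} (h1 : |c.D.b p - c.D.b q| ≤ L)
    (h2 : n ≠ 0 → |c.ψ c.ϱ p - c.ψ c.ϱ q| ≤ L) : |c.bz n p - c.bz n q| ≤ L := by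
  have h0 : |c.w - c.w| ≤ L := by simpa using (abs_nonneg _).trans h1
  unfold bz
  split_ifs with a b d
  · exact (abs_min_sub_min_le_max _ _ _ _).trans (max_le h1 h0)
  · refine (abs_min_sub_min_le_max _ _ _ _).trans (max_le
      ((abs_min_sub_min_le_max _ _ _ _).trans (max_le h1 ?_)) h0)
    have := h2 a
    rw [abs_sub_comm] at this; simpa using this
  · refine (abs_min_sub_min_le_max _ _ _ _).trans (max_le
      ((abs_min_sub_min_le_max _ _ _ _).trans (max_le ?_ ?_)) h0)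
    · simpa using h2 a
    · have := h2 a
      rw [abs_sub_comm] at this; simpa using this
  · exact (abs_min_sub_min_le_max _ _ _ _).trans (max_le (by simpa using h2 a) h0)

theorem zone_gap {a b : V} (h1 : c.bk a = c.bk b) (h2 : c.pos a = c.pos b)
    (h : c.zone a ≠ c.zone b) :
    c.alive a ∧ c.bz (c.zone a) a ≤ |c.ψ c.ϱ a - c.ψ c.ϱ b| ∧
      c.bz (c.zone a) a + c.bz (c.zone b) b ≤ |c.ψ c.ϱ a - c.ψ c.ϱ b| := by
  have hL : c.L0 ≤ c.La := by unfold L0 La; linarith [c.w_pos]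
  have m1 := le_abs_self (c.ψ c.ϱ a - c.ψ c.ϱ b)
  have m2 := neg_abs_le (c.ψ c.ϱ a - c.ψ c.ϱ b)
  have a1 := c.bz1_le a
  have a2 := c.bz2_le a
  have a2' := c.bz2_le' a
  have a3 := c.bz3_le a
  have b1 := c.bz1_le b
  have b2 := c.bz2_le b
  have b2' := c.bz2_le' b
  have b3 := c.bz3_le b
  rcases c.zone_cases a with k | k | k | k <;> rcases c.zone_cases b with l | l | l | l <;>
    first
    | exact absurd (k.1.trans l.1.symm) h
    | exact absurd (c.inner_of h1.symm h2.symm l.2.1) k.2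
    | exact absurd (c.inner_of h1 h2 k.2.1) l.2
    | (rw [k.1, l.1]
       refine ⟨k.2.1.1, ?_, ?_⟩ <;> linarith [l.2.2])

theorem rs_symm (a b : V) (h : c.rs a b) : c.rs b a :=
  ⟨h.2.1, h.1, h.2.2.1.symm, h.2.2.2.1.symm, h.2.2.2.2.1.symm, by rw [c.dK_comm]; exact h.2.2.2.2.2⟩

theorem rep_inv {Y : Type} (F : V → Y) {a z : V}
    (h : ∀ u v, c.rs u v → c.zone u = c.zone a → F u = F v) (ha : a ∈ c.D.S) (hz : c.rep a = z) :
    z ∈ c.D.S ∧ c.bk a = c.bk z ∧ c.pos a = c.pos z ∧ c.zone a = c.zone z ∧ F a = F z := by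
  have : Relation.ReflTransGen c.rs a z := by
    rw [← qrep_eq_iff c.rs_symm, ← hz]; exact (qrep_idem _ _).symm
  clear hz
  induction this with
  | refl => exact ⟨ha, rfl, rfl, rfl, rfl⟩
  | tail _ h' ih =>
    exact ⟨h'.2.1, ih.2.1.trans h'.2.2.1, ih.2.2.1.trans h'.2.2.2.1,
      ih.2.2.2.1.trans h'.2.2.2.2.1, ih.2.2.2.2.trans (h _ _ h' ih.2.2.2.1.symm)⟩

theorem rep_spec {a z : V} (ha : a ∈ c.D.S) (hz : c.rep a = z) :
    z ∈ c.D.S ∧ c.bk a = c.bk z ∧ c.pos a = c.pos z ∧ c.zone a = c.zone z := by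
  have := c.rep_inv (fun _ => ()) (fun _ _ _ _ => rfl) ha hz
  exact ⟨this.1, this.2.1, this.2.2.1, this.2.2.2.1⟩

theorem mem_Sp {a : V} (ha : a ∈ c.D.S) (h : 2 ≤ c.zone a) : a ∈ c.Sp := by
  have hL : c.L0 < c.La := by unfold L0 La; linarith [c.w_pos]
  rcases c.zone_cases a with k | k | k | k
  · omega
  · omega
  · exact ⟨ha, k.2.1.1, k.2.2.1⟩
  · exact ⟨ha, k.2.1.1, hL.trans_le k.2.2⟩

theorem crep_rep {a z : V} (ha : a ∈ c.D.S) (hz : c.rep a = z) (h : 2 ≤ c.zone a) :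
    c.crep a = c.crep z := by
  refine (c.rep_inv c.crep (fun u v huv e => ?_) ha hz).2.2.2.2
  have e' := huv.2.2.2.2.1
  have hr : c.rc u v := ⟨c.mem_Sp huv.1 (by omega), c.mem_Sp huv.2.1 (by omega),
    by linarith [huv.2.2.2.2.2, c.w_pos]⟩
  exact qrep_rel hr

theorem dK_le_child (z p q : V) : c.dK p q ≤ (c.child z).dJ c.E p q :=
  c.E.dR_mono (fun _ _ h x hx y hy =>
    (c.slab_spec (h x hx)).1.trans (c.slab_spec (h y hy)).1.symm) p q

theorem dJ_le_child (z p q : V) : c.D.dJ c.E p q ≤ (c.child z).dJ c.E p q :=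
  c.E.dR_mono (fun _ _ h x hx => (c.slab_spec (h x hx)).2.2) p q

variable [Fintype V]

theorem bz_le_b (n : ℕ) (p : V) : c.bz n p ≤ c.D.b p := by
  have h := c.ψ_le_b c.ϱ p
  have hw := c.w_pos
  have := c.s1
  unfold bz
  split_ifs
  · exact min_le_left _ _
  · exact (min_le_left _ _).trans (min_le_left _ _)
  · exact (min_le_left _ _).trans ((min_le_left _ _).trans (by unfold L0; linarith))
  · exact (min_le_left _ _).trans (by unfold La; linarith)

theorem mem_Zs {a p : V} (ha : a ∈ c.D.S) (hi : c.inner p) (h : c.dK a p ≤ c.w / 2)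
    (hψ : c.ψ c.ϱ p < 12 * c.w) : p ∈ c.Zs := ⟨hi.1, c.inner_t0 hi, ⟨a, ha, h⟩, hψ⟩

theorem mem_Zs2 {a : V} (ha : a ∈ c.D.S) (h : c.zone a = 2) : a ∈ c.Zs := by
  have hw := c.w_pos
  have := c.s2
  rcases c.zone_cases a with k | k | k | k
  · omega
  · omega
  · exact c.mem_Zs ha k.2.1 (by rw [c.dK_self]; linarith)
      (k.2.2.2.trans (by unfold La; linarith))
  · omega

theorem α'_rep {a z : V} (ha : a ∈ c.D.S) (hz : c.rep a = z) (h : c.zone a = 2) :
    c.α' a = c.α' z ∧ c.α0' a = c.α0' z := by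
  have := (c.rep_inv (fun u => (c.α' u, c.α0' u)) (fun u v huv e => by
    have := c.zs_loc (c.mem_Zs2 huv.1 (e.trans h))
      (c.mem_Zs2 huv.2.1 (huv.2.2.2.2.1.symm.trans (e.trans h))) huv.2.2.2.2.2
    rw [this.1, this.2]) ha hz).2.2.2.2
  exact Prod.ext_iff.1 this

end C2

end Crest.Agent.N206.TA
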