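import Crest.Agent.N206.TA.G3

/-!
# Row 206, S0317, Theorem A, geometric stage: the stage (helper24)
-/

set_option autoImplicit false

noncomputable section

open scoped Classical

namespace Crest.Agent.N206.TA

open Crest.GeometryTopology.GraphMetric Crest.Agent.N206.PL

variable {V : Type}

namespace C2

variable (c : C2 V)

/-- the kind of a zone -/
def kind (n : ℕ) : Kind := if n = 2 then Kind.ramp else if n = 3 then Kind.tent else Kind.plain

theorem kind_ramp {n : ℕ} : kind n = Kind.ramp ↔ n = 2 := by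
  unfold kind; split_ifs with h1 h2 <;> simp [h1]

theorem kind_tent {n : ℕ} : kind n = Kind.tent ↔ n = 3 := by
  unfold kind; split_ifs with h1 h2 <;> simp [*]

theorem kind_plain {n : ℕ} : kind n = Kind.plain ↔ n ≠ 2 ∧ n ≠ 3 := by
  unfold kind; split_ifs with h1 h2 <;> simp [*]

variable [Fintype V]

theorem child_lipb (z : V) : c.E.LipOn 1 ((c.child z).J c.E) (c.child z).b := by
  intro u hu v hv h
  obtain ⟨a1, -, a3⟩ := c.slab_spec hu
  obtain ⟨b1, -, b3⟩ := c.slab_spec hv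
  exact c.bz_lip _ (c.dom.lipb u a3 v b3 h) fun _ => by
    simpa using c.ψ_lip c.ϱ h (a1.trans b1.symm) a3 b3

theorem child_sep (z : V) : ∀ a ∈ (c.child z).S, ∀ a' ∈ c.E.Sg, a' ∈ (c.child z).J c.E →
    a' ∉ (c.child z).S → (c.child z).b a ≤ (c.child z).dJ c.E a a' := by
  intro a ha a' h1 h2 h3
  have hw := c.w_pos
  obtain ⟨b1, b2, b3⟩ := c.slab_spec h2
  obtain ⟨-, r1, r2, r3⟩ := c.rep_spec ha.1 ha.2
  change c.bz (c.zone z) a ≤ _
  by_cases hS : a' ∈ c.D.S
  swap
  · exact ((c.bz_le_b _ a).trans (c.dom.sep a ha.1 a' h1 b3 hS)).trans (c.dJ_le_child z a a')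
  refine le_trans ?_ (c.dK_le_child z a a')
  by_cases hK : c.dK a a' ≤ c.w
  swap
  · exact (c.bz_le_w _ a).trans (not_le.1 hK).le
  by_cases hz : c.zone a = c.zone a'
  · exact absurd ⟨hS, (qrep_rel (r := c.rs)
      ⟨ha.1, hS, r1.trans b1.symm, r2.trans b2.symm, hz, hK⟩).symm.trans ha.2⟩ h3
  · obtain ⟨g1, g2, -⟩ := c.zone_gap (r1.trans b1.symm) (r2.trans b2.symm) hz
    rw [← r3]
    exact g2.trans (c.ψ_dK c.ϱ g1 (by linarith))

theorem zone_spec {z p : V} (hp : p ∈ (c.child z).Zone c.E (c.w / K0)) :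
    c.bk p = c.bk z ∧ c.pos p = c.pos z ∧ p ∈ c.D.J c.E ∧ c.bz (c.zone z) p < c.w / 8 ∧
      ∃ a ∈ c.D.S, c.rep a = z ∧ c.dK a p ≤ c.w / 8 ∧ c.D.dJ c.E a p ≤ c.w / 8 := by
  obtain ⟨h1, ⟨a, ha, h2⟩, h3⟩ := hp
  obtain ⟨b1, b2, b3⟩ := c.slab_spec h1
  have := c.w'_le
  have := c.w'_pos
  change c.bz (c.zone z) p < _ at h3
  exact ⟨b1, b2, b3, by linarith, a, ha.1, ha.2, by linarith [c.dK_le_child z a p],
    by linarith [c.dJ_le_child z a p]⟩

theorem child_cb (z : V) : ∃ α β : V → ℝ,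
    (∀ p ∈ (c.child z).Zone c.E (c.w / K0), |α p| ≤ 1 / 2 ∧
      (c.child z).X p = α p * c.E.π p + β p) ∧
    ∀ p ∈ (c.child z).Zone c.E (c.w / K0), ∀ q ∈ (c.child z).Zone c.E (c.w / K0),
      (c.child z).dJ c.E p q ≤ c.w / K0 → α p = α q ∧ β p = β q := by
  have hw := c.w_pos
  have w1 := c.w'_le
  have w2 := c.w'_pos
  have s1 := c.s1
  have s2 := c.s2
  have zs : (∀ p ∈ (c.child z).Zone c.E (c.w / K0), p ∈ c.Zs) → c.zone z ≠ 2 → ∃ α β : V → ℝ,
      (∀ p ∈ (c.child z).Zone c.E (c.w / K0), |α p| ≤ 1 / 2 ∧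
        (c.child z).X p = α p * c.E.π p + β p) ∧
      ∀ p ∈ (c.child z).Zone c.E (c.w / K0), ∀ q ∈ (c.child z).Zone c.E (c.w / K0),
        (c.child z).dJ c.E p q ≤ c.w / K0 → α p = α q ∧ β p = β q := fun h h2 =>
    ⟨c.α', c.α0', fun p hp => by
      simp only [child, if_neg h2]; exact c.zs_aff (h p hp), fun p hp q hq hd =>
      c.zs_loc (h p hp) (h q hq) (by linarith [c.dK_le_child z p q])⟩
  rcases c.zone_cases z with k | k | k | k
  · have hz : ∀ p ∈ (c.child z).Zone c.E (c.w / K0),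
        p ∈ c.D.Zone c.E c.w ∧ c.D.b p < c.w := fun p hp => by
      obtain ⟨-, -, b3, b4, a, ha, -, -, b5⟩ := c.zone_spec hp
      rw [k.1, bz0, min_lt_iff] at b4
      have : c.D.b p < c.w := by rcases b4 with b | b <;> linarith
      exact ⟨⟨b3, ⟨a, ha, by linarith⟩, by linarith⟩, this⟩
    refine ⟨c.α, c.α0, fun p hp => ?_, fun p hp q hq hd =>
      c.cb2 p (hz p hp).1 q (hz q hq).1 (by linarith [c.dJ_le_child z p q])⟩
    simp only [child, if_neg (by omega : c.zone z ≠ 2)]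
    rw [c.X'_small (by linarith [(hz p hp).2])]
    exact c.cb1 p (hz p hp).1
  · refine zs (fun p hp => ?_) (by omega)
    obtain ⟨b1, b2, -, -, a, ha, ha', b4, -⟩ := c.zone_spec hp
    obtain ⟨-, r1, r2, r3⟩ := c.rep_spec ha ha'
    have h1 := c.ψ_dK c.ϱ (c.alive_of r1.symm k.2.1.1) (q := p) (by linarith)
    have h2 : c.ψ c.ϱ a ≤ c.L0 := by
      rcases c.zone_cases a with l | l | l | l
      · omega
      · exact l.2.2
      · omega
      · omega
    exact c.mem_Zs ha (c.inner_of b1.symm b2.symm k.2.1) (by linarith)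
      (by unfold L0 at h2; linarith [(abs_le.1 h1).1])
  · have hz : ∀ p ∈ (c.child z).Zone c.E (c.w / K0),
        c.ψ c.ϱ p ≤ 15 / 2 * c.w ∨ 9 * c.w ≤ c.ψ c.ϱ p := fun p hp => by
      obtain ⟨-, -, -, b4, -⟩ := c.zone_spec hp
      rw [k.1, bz2, min_lt_iff, min_lt_iff] at b4
      unfold L0 La at b4
      rcases b4 with (b | b) | b
      · left; linarith
      · right; linarith
      · linarith
    refine ⟨fun p => if c.ψ c.ϱ p ≤ 8 * c.w then 0 else cc * c.ez z,
      fun p => if c.ψ c.ϱ p ≤ 8 * c.w then 0 else cc * (c.e0 z - c.t), fun p hp => ?_,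
      fun p hp q hq hd => ?_⟩
    · simp only [child, if_pos k.1]
      split_ifs with h
      · rw [c.g_zero_ψ h]; simp
      · obtain ⟨b1, b2, -, -, a, ha, ha', b4, -⟩ := c.zone_spec hp
        obtain ⟨-, r1, r2, r3⟩ := c.rep_spec ha ha'
        refine ⟨c.abs_ez z, ?_⟩
        rw [← c.crep_rep ha ha' (by omega), c.g_tent (c.mem_Sp ha (by omega)) (by linarith)
          (c.inner_t0 (c.inner_of b1.symm b2.symm k.2.1))
          ((hz p hp).resolve_left (by linarith)), c.t0_half k.2.1 b1 b2]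
        ring
    · have h0 := c.dK_le_child z p q
      have h1 := abs_le.1 (c.ψ_dK c.ϱ (c.alive_of (c.zone_spec hp).1.symm k.2.1.1) (q := q)
        (by linarith))
      have : c.ψ c.ϱ p ≤ 8 * c.w ↔ c.ψ c.ϱ q ≤ 8 * c.w := by
        rcases hz p hp with a | a <;> rcases hz q hq with b | b <;> constructor <;> intro <;>
          linarith [h1.1, h1.2]
      simp only [this, and_self]
  · refine zs (fun p hp => ?_) (by omega)
    obtain ⟨b1, b2, -, b3, a, ha, -, b4, -⟩ := c.zone_spec hp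
    rw [k.1, bz3, min_lt_iff] at b3
    unfold La at b3
    exact c.mem_Zs ha (c.inner_of b1.symm b2.symm k.2.1) (by linarith)
      (by rcases b3 with b | b <;> linarith)

theorem child_dom (z : V) : IsDom c.E (c.w / K0) (c.child z) where
  sub a ha := c.dom.sub ha.1
  subJ a ha := c.mem_slab (c.dom.subJ ha.1) (c.rep_spec ha.1 ha.2).2.1 (c.rep_spec ha.1 ha.2).2.2.1
  pos := c.dom.pos.trans_le (le_max_left _ _)
  le := (min_le_left _ _).trans c.dom.le
  lipX := by
    simp only [child]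
    split_ifs
    · intro u _ v _ h
      exact (c.lipg _ u trivial v trivial h).trans
        (mul_le_mul_of_nonneg_right (by norm_num [cc]) (c.E.ℓ_pos h).le)
    · exact c.lipX
  lipb := c.child_lipb z
  sep := c.child_sep z
  cb := c.child_cb z

theorem child_terr (z : V) : (c.child z).Terr c.E (c.w / K0) ⊆ c.D.Terr c.E c.w := by
  rintro p ⟨h1, h2, a, ha, h3, h4⟩
  have w1 := c.w'_le
  have w2 := c.w'_pos
  have a1 : c.D.j0 ≤ (c.child z).j0 := le_max_left _ _
  have a2 : (c.child z).j1 ≤ c.D.j1 := min_le_left _ _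
  have a3 := c.dJ_le_child z a p
  have a4 : (c.child z).b a ≤ c.D.b a := c.bz_le_b _ a
  exact ⟨by linarith, by linarith, a, ha.1, by linarith, by linarith⟩

theorem near_terr {z p q : V} (hq : q ∈ (c.child z).Terr c.E (c.w / K0))
    (h : p = q ∨ c.E.G.Adj p q) : c.bk p = c.bk z ∧ c.pos p = c.pos z ∧
      ∃ a ∈ c.D.S, c.rep a = z ∧ c.dK a p ≤ c.w / 4 ∧ c.dK a p + c.E.δ ≤ c.bz (c.zone z) a := by
  obtain ⟨h1, h2, a, ha, h3, h4⟩ := hq
  have w1 := c.w'_le
  have w2 := c.w'_pos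
  have w3 := c.hδ
  have w4 := c.E.δ_pos
  have hπ := abs_le.1 (c.π_near h)
  change c.slo z + _ ≤ _ at h1
  change _ ≤ c.shi z at h2
  change _ ≤ c.bz (c.zone z) a at h4
  obtain ⟨b1, b2, -⟩ := c.slab_spec (z := z) (q := p) ⟨by linarith [hπ.1], by linarith [hπ.2]⟩
  obtain ⟨d1, -, -⟩ := c.slab_spec (z := z) (q := q) ⟨by linarith, by linarith⟩
  have e1 := c.dK_near h (b1.trans d1.symm)
  have e2 := c.dK_tri a q p
  rw [c.dK_comm q p] at e2
  have e3 := c.dK_le_child z a q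
  exact ⟨b1, b2, a, ha.1, ha.2, by linarith, by linarith⟩

theorem child_apart {z z' p q : V} (hp : p ∈ (c.child z).Terr c.E (c.w / K0))
    (hq : q ∈ (c.child z').Terr c.E (c.w / K0)) (h : p = q ∨ c.E.G.Adj p q) : z = z' := by
  have hw := c.w_pos
  obtain ⟨a1, a2, a, ha, a3, a4, a5⟩ := c.near_terr hp (Or.inl rfl)
  obtain ⟨b1, b2, b, hb, b3, b4, b5⟩ := c.near_terr hq h
  obtain ⟨-, r1, r2, r3⟩ := c.rep_spec ha a3
  obtain ⟨-, u1, u2, u3⟩ := c.rep_spec hb b3
  have e1 : c.bk a = c.bk b := by rw [r1, ← a1, b1, u1]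
  have e2 : c.pos a = c.pos b := by rw [r2, ← a2, b2, u2]
  have e3 := c.dK_tri a p b
  rw [c.dK_comm p b] at e3
  by_cases hz : c.zone a = c.zone b
  · rw [← a3, ← b3]
    exact qrep_rel (r := c.rs) ⟨ha, hb, e1, e2, hz, by linarith⟩
  · obtain ⟨g1, -, g3⟩ := c.zone_gap e1 e2 hz
    have := c.ψ_dK c.ϱ g1 (q := b) (by linarith)
    rw [r3, u3] at g3
    linarith [c.E.δ_pos]

theorem child_loc {z p q : V} (hq : q ∈ (c.child z).Terr c.E (c.w / K0))
    (h : p = q ∨ c.E.G.Adj p q) :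
    (c.zone z < 2 → ∀ l, c.g l p = 0) ∧ (2 ≤ c.zone z → ∀ l, l ≠ c.crep z → c.g l p = 0) ∧
      (c.zone z = 3 → c.g (c.crep z) p = cc * c.ez z * c.E.π p + cc * (c.e0 z - c.t)) ∧
      (c.zone z = 2 → c.X' p = c.α' z * c.E.π p + c.α0' z) := by
  have hw := c.w_pos
  have s1 := c.s1
  have s2 := c.s2
  have w4 := c.E.δ_pos
  obtain ⟨b1, b2, a, ha, a3, a4, a5⟩ := c.near_terr hq h
  obtain ⟨-, r1, r2, r3⟩ := c.rep_spec ha a3
  have hψ : c.alive z → |c.ψ c.ϱ a - c.ψ c.ϱ p| ≤ c.dK a p := fun h =>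
    c.ψ_dK c.ϱ (c.alive_of r1.symm h) (by linarith)
  refine ⟨fun hz l => ?_, fun hz l hl => ?_, fun hz => ?_, fun hz => ?_⟩
  · rcases c.zone_cases z with k | k | k | k
    · by_contra hn
      obtain ⟨g1, g2, -⟩ := c.g_ne hn
      linarith [c.outer_t0 (fun h => k.2 (c.inner_of b1 b2 h)) g2]
    · have := c.bz1_le a
      rw [k.1] at a5
      unfold L0 at this
      exact c.g_zero_ψ (by linarith [(abs_le.1 (hψ k.2.1.1)).1])
    · omega
    · omega
  · exact c.g_other (c.mem_Sp ha (by omega)) (by linarith)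
      (by rwa [c.crep_rep ha a3 (by omega)])
  · rcases c.zone_cases z with k | k | k | k
    · omega
    · omega
    · omega
    · have := c.bz3_le a
      rw [k.1] at a5
      unfold La at this
      rw [← c.crep_rep ha a3 (by omega), c.g_tent (c.mem_Sp ha (by omega)) (by linarith)
        (c.inner_t0 (c.inner_of b1.symm b2.symm k.2.1))
        (by linarith [(abs_le.1 (hψ k.2.1.1)).2]), c.t0_half k.2.1 b1 b2]
      ring
  · rcases c.zone_cases z with k | k | k | k
    · omega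
    · omega
    · have := c.bz2_le' a
      rw [k.1] at a5
      unfold La at this
      have hp : p ∈ c.Zs := c.mem_Zs ha (c.inner_of b1.symm b2.symm k.2.1) (by linarith)
        (by linarith [(abs_le.1 (hψ k.2.1.1)).1])
      have e1 := c.zs_loc (c.mem_Zs2 ha (by omega)) hp (by linarith)
      have e2 := c.α'_rep ha a3 (by omega)
      rw [← e2.1, ← e2.2, e1.1, e1.2]
      exact (c.zs_aff hp).2
    · omega

/-- the stage -/
def stage : Stage c.E c.w c.D where
  ι := {z : V // z ∈ c.D.S}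
  fin := inferInstance
  sub i := c.child i.1
  kind i := kind (c.zone i.1)
  cell i := c.crep i.1
  a i := if c.zone i.1 = 2 then c.α' i.1 else cc * c.ez i.1
  a0 i := if c.zone i.1 = 2 then c.α0' i.1 else cc * (c.e0 i.1 - c.t)
  X' := c.X'
  g := c.g
  dom i := c.child_dom i.1
  terr i := c.child_terr i.1
  apart _ _ _ _ hp hq h := Subtype.ext (c.child_apart hp hq h)
  lipX := c.lipX
  suppX := c.suppX
  nearX := c.nearX
  lipg := c.lipg
  bdg := c.bdg
  suppg := c.suppg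
  oneg := c.oneg
  slope i := by
    split_ifs with h
    · exact (c.zs_aff (c.mem_Zs2 i.2 h)).1
    · exact c.abs_ez _
  subX i := ⟨fun h => if_pos (kind_ramp.1 h), fun h => if_neg fun h' => h (kind_ramp.2 h')⟩
  loc i p q hq h := by
    obtain ⟨h1, h2, h3, h4⟩ := c.child_loc hq h
    have h5 : c.zone i.1 ≤ 3 := by rcases c.zone_cases i.1 with k | k | k | k <;> omega
    refine ⟨fun l hl => ?_, fun hk => ?_, fun hk => ?_, fun hk => ?_⟩
    · by_cases hz : c.zone i.1 < 2
      · exact h1 hz l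
      · exact h2 (by omega) l hl
    · have := kind_plain.1 hk
      exact h1 (by omega) _
    · have := kind_tent.1 hk
      rw [if_neg (by omega), if_neg (by omega)]
      exact h3 this
    · have := kind_ramp.1 hk
      rw [if_pos this, if_pos this]
      exact h4 this

end C2

end Crest.Agent.N206.TA
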