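import Crest.Agent.N206.TA.G4

/-!
# Row 206, S0317, Theorem A, geometric stage: surviving and winning pairs (helper24)
-/

set_option autoImplicit false

noncomputable section

open scoped Classical

namespace Crest.Agent.N206.TA

open Crest.GeometryTopology.GraphMetric Crest.Agent.N206.PL

variable {V : Type} [Fintype V]

theorem IsDom.b_dJ {E : Env V} {w : ℝ} {D : Dom V} (h : IsDom E w D) {p q : V}
    (hd : D.dJ E p q < E.Λ) : |D.b p - D.b q| ≤ D.dJ E p q := by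
  have := E.lip_dR (fun e => ∀ x ∈ e, x ∈ D.J E) (L := 1) (g := D.b)
    (fun u v huv ho => h.lipb u (ho u (by simp)) v (ho v (by simp)) huv) (x := p) (y := q) hd
  simpa [Dom.dJ] using this

theorem Dom.dJ_le_d (E : Env V) (D : Dom V) {x v : V} {r : ℝ} (h1 : D.j0 + r ≤ E.π x)
    (h2 : E.π x + r < D.j1) (hv : E.d x v ≤ r) : v ∈ D.J E ∧ D.dJ E x v ≤ E.d x v := by
  have key : ∀ u, E.d x u ≤ r → u ∈ D.J E := fun u hu => by
    have := abs_le.1 ((E.π_lip x u).trans hu)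
    exact ⟨by linarith [this.2], by linarith [this.1]⟩
  refine ⟨key v hv, E.dR_le_d _ (r := r) (fun u v _ hu hv z hz => ?_) hv⟩
  rcases Sym2.mem_iff.1 hz with rfl | rfl
  · exact key _ hu
  · exact key _ hv

theorem IsDom.mem_S {E : Env V} {w : ℝ} {D : Dom V} (h : IsDom E w D) {x v : V} {r : ℝ}
    (hx : x ∈ D.S) (hv : v ∈ E.Sg) (h1 : D.j0 + r ≤ E.π x) (h2 : E.π x + r < D.j1)
    (hb : r < D.b x) (hd : E.d x v ≤ r) : v ∈ D.S := by
  by_contra hn
  obtain ⟨a, b⟩ := D.dJ_le_d E h1 h2 hd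
  linarith [h.sep x hx v hv a hn]

namespace C2

variable (c : C2 V)

omit [Fintype V] in
theorem slab_margin {x : V} {r : ℝ} (h0 : c.D.j0 + r ≤ c.E.π x) (h0' : c.E.π x + r ≤ c.D.j1)
    (h1 : r < c.t0 x) (h2 : r < |c.E.π x - c.blo x - c.w / 2|) (h3 : r < |c.t0 x - c.t|) :
    c.slo x + r ≤ c.E.π x ∧ c.E.π x + r ≤ c.shi x := by
  have hw := c.w_pos
  have t1 := c.t1
  have t2 := c.t2
  have a1 : c.t0 x ≤ c.E.π x - c.blo x := min_le_left _ _
  have a2 : c.t0 x ≤ c.blo x + c.w - c.E.π x := min_le_right _ _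
  have key : c.blo x + c.cut (c.pos x) + r ≤ c.E.π x ∧
      c.E.π x + r ≤ c.blo x + c.cut (c.pos x + 1) := by
    rcases c.pos_cases x with k | k | k | k <;> rw [k.1] <;>
      simp only [Nat.reduceAdd, cut0, cut1, cut2, cut3, cut4]
    · have e : c.t0 x = c.E.π x - c.blo x := min_eq_left (by linarith [k.2])
      rw [abs_of_nonpos (by linarith [k.2])] at h3
      constructor <;> linarith
    · have e : c.t0 x = c.E.π x - c.blo x := min_eq_left (by linarith [k.2.2])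
      rw [abs_of_nonneg (by linarith [k.2.1])] at h3
      rw [abs_of_nonpos (by linarith [k.2.2])] at h2
      constructor <;> linarith
    · have e : c.t0 x = c.blo x + c.w - c.E.π x := min_eq_right (by linarith [k.2.1])
      rw [abs_of_nonneg (by linarith [k.2.2])] at h3
      rw [abs_of_nonneg (by linarith [k.2.1])] at h2
      constructor <;> linarith
    · have e : c.t0 x = c.blo x + c.w - c.E.π x := min_eq_right (by linarith [k.2])
      rw [abs_of_nonpos (by linarith [k.2])] at h3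
      constructor <;> linarith
  rw [slo, shi, ← max_add_add_right]
  exact ⟨max_le h0 key.1, le_min h0' key.2⟩

/-- a pair which avoids all kinks survives -/
theorem alive_pair {x y : V} (h : c.D.OK c.E x y) (hD : 1000 * c.E.d x y ≤ c.w)
    (hδ : c.E.δ ≤ c.E.d x y) (k1 : 70 * c.E.d x y < c.t0 x)
    (k2 : 70 * c.E.d x y < |c.E.π x - c.blo x - c.w / 2|) (k3 : 70 * c.E.d x y < |c.t0 x - c.t|)
    (k4 : 70 * c.E.d x y < |c.t0 x + 2 * (c.σ (c.ctr x) * c.D.X x - c.v (c.ctr x)) - c.t|)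
    (k5 : 70 * c.E.d x y < |c.t0 x + 2 * (c.Y2 (c.ctr x) x - c.v (c.ctr x)) - c.t|)
    (k6 : 70 * c.E.d x y < |c.ψ c.ϱ x - c.L0|) (k7 : 70 * c.E.d x y < |c.ψ c.ϱ x - c.La|) :
    (c.child (c.rep x)).OK c.E x y ∧ x ∈ (c.child (c.rep x)).Terr c.E (c.w / K0) ∧
      y ∈ (c.child (c.rep x)).Terr c.E (c.w / K0) := by
  obtain ⟨hx, hy, hb, m1, m2, hX⟩ := h
  have hw := c.w_pos
  have w2 := c.w'_pos
  have δ0 := c.E.δ_pos
  have hΛ := c.hΛ
  obtain ⟨-, r1, r2, r3⟩ := c.rep_spec hx rfl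
  have e1 : (c.child (c.rep x)).j0 = c.slo x := by
    change c.slo _ = _; rw [slo, slo, r2, c.blo_eq r1]
  have e2 : (c.child (c.rep x)).j1 = c.shi x := by
    change c.shi _ = _; rw [shi, shi, r2, c.blo_eq r1]
  obtain ⟨n1, n2⟩ := c.slab_margin m1 m2 k1 k2 k3
  rw [← e1] at n1
  rw [← e2] at n2
  have hx' : x ∈ (c.child (c.rep x)).S := ⟨hx, rfl⟩
  have hb' : 30 * c.E.d x y ≤ (c.child (c.rep x)).b x := by
    change _ ≤ c.bz (c.zone _) x
    rw [← r3]
    rcases c.zone_cases x with k | k | k | k <;> rw [k.1]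
    · rw [bz0]; exact le_min hb (by linarith)
    · rw [abs_of_nonpos (by linarith [k.2.2])] at k6
      rw [bz1]; exact le_min (le_min hb (by linarith)) (by linarith)
    · rw [abs_of_nonneg (by linarith [k.2.2.1])] at k6
      rw [abs_of_nonpos (by linarith [k.2.2.2])] at k7
      rw [bz2]; exact le_min (le_min (by linarith) (by linarith)) (by linarith)
    · rw [abs_of_nonneg (by linarith [k.2.2])] at k7
      rw [bz3]; exact le_min (by linarith) (by linarith)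
  have hdom := c.child_dom (c.rep x)
  have hy' : y ∈ (c.child (c.rep x)).S :=
    hdom.mem_S (r := c.E.d x y) hx' hy (by linarith) (by linarith) (by linarith) le_rfl
  have hJ := ((c.child (c.rep x)).dJ_le_d c.E (x := x) (v := y) (r := c.E.d x y) (by linarith)
    (by linarith) le_rfl).2
  have hby := abs_le.1 (hdom.b_dJ (p := x) (q := y) (by linarith))
  have hπ := abs_le.1 (c.E.π_lip x y)
  have z0 : ∀ u, (c.child (c.rep x)).dJ c.E u u = 0 := fun u => c.E.dR_self _ u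
  refine ⟨⟨hx', hy, hb', n1, n2, ?_⟩,
    ⟨by linarith, by linarith, x, hx', by rw [z0]; linarith, by rw [z0]; linarith⟩,
    ⟨by linarith [hπ.2], by linarith [hπ.1], y, hy', by rw [z0]; linarith,
      by rw [z0]; linarith [hby.2]⟩⟩
  simp only [child]
  split_ifs
  · exact Or.inl fun u _ v _ h => c.lipg _ u trivial v trivial h
  · exact c.reg hx (by linarith) (by linarith) (by linarith) (by linarith) (by linarith) hX

theorem cell_chain {x y : V} (hx : x ∈ c.Sp) (h : Relation.ReflTransGen c.rc x y) :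
    c.bk x = c.bk y ∧ y ∈ c.cell (c.crep x) ∧ Relation.ReflTransGen (fun a b =>
      a ∈ c.cell (c.crep x) ∧ b ∈ c.cell (c.crep x) ∧ c.E.dR c.ok a b ≤ 4 * c.w) x y := by
  induction h with
  | refl => exact ⟨rfl, ⟨hx, rfl⟩, Relation.ReflTransGen.refl⟩
  | tail _ h ih =>
    have : _ ∈ c.cell (c.crep x) := ⟨h.2.1, (qrep_rel h).symm.trans ih.2.1.2⟩
    exact ⟨ih.1.trans (c.bk_of_dK (by linarith [h.2.2, c.w_pos])), this,
      ih.2.2.tail ⟨ih.2.1, this, h.2.2⟩⟩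

/-- points which cannot be clamped -/
theorem not_clamp {z : V} (hz : z ∈ c.D.S) (hl : c.E.LipOn cc (c.BB z) c.D.X)
    (h : ¬ ∃ σ v, c.Clamp z σ v) :
    (∃ p ∈ c.BB z, ∃ p' ∈ c.BB1 z, 130 * cc * c.w < c.D.X p - c.D.X p') ∧
      ∃ p ∈ c.BB1 z, ∃ p' ∈ c.BB z, 130 * cc * c.w < c.D.X p - c.D.X p' := by
  have hw := c.w_pos
  have hz1 : z ∈ c.BB1 z := ⟨show c.dK z z ≤ _ by rw [c.dK_self]; linarith, z, hz,
    show c.dK z z ≤ _ by rw [c.dK_self]; linarith⟩
  have key : ∀ σ : ℝ, (σ = 1 ∨ σ = -1) →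
      ∃ p ∈ c.BB z, ∃ p' ∈ c.BB1 z, 130 * cc * c.w < σ * c.D.X p - σ * c.D.X p' := by
    intro σ hσ
    obtain ⟨p', hp', hm⟩ := Set.exists_min_image (c.BB1 z) (fun p => σ * c.D.X p)
      (Set.toFinite _) ⟨z, hz1⟩
    by_contra hn
    push Not at hn
    exact h ⟨σ, σ * c.D.X p', hl, hσ, fun p hp => by linarith [hn p hp p' hp'], hm⟩
  obtain ⟨p, hp, p', hp', h1⟩ := key 1 (Or.inl rfl)
  obtain ⟨q, hq, q', hq', h2⟩ := key (-1) (Or.inr rfl)
  exact ⟨⟨p, hp, p', hp', by linarith⟩, q', hq', q, hq, by linarith⟩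

/-- a pair of the current scale in the middle of a cell wins -/
theorem win_pair (gain : GainStmt) {x y : V} (h : c.D.OK c.E x y) (hD : 10 ^ 4 * c.w ≤ c.E.d x y)
    (hR : 10 * c.E.d x y ≤ c.E.R) (k1 : c.w / 4 ≤ c.t0 x) (k2 : 9 * c.w ≤ c.ψ c.ϱ x) :
    (∃ l, cc * c.w / 16 ≤ c.g l x ∧ c.g l y = 0) ∨
      5 * (130 * cc * c.w) ≤ |c.D.X x - c.D.X y| := by
  obtain ⟨hx, hy, hb, m1, m2, hX⟩ := h
  have hw := c.w_pos
  have hΛ := c.hΛ
  have s1 := c.s1
  have s2 := c.s2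
  have t2 := c.t2
  have l1 := c.blo_le x
  have l2 := c.lt_bhi x
  have hal : c.alive x := ⟨by linarith, by linarith⟩
  have hxp : x ∈ c.Sp := ⟨hx, hal, by unfold L0; linarith⟩
  by_cases hg : c.g (c.crep x) y = 0
  · refine Or.inl ⟨c.crep x, ?_, hg⟩
    rw [c.g_tent hxp (by rw [c.dK_self]; linarith) (by linarith) k2]
    unfold cc; linarith
  right
  have hS : ∀ v ∈ c.E.Sg, c.E.d x v ≤ 20 * c.E.d x y → v ∈ c.D.S := fun v hv hd =>
    c.dom.mem_S hx hv (by linarith) (by linarith) (by linarith) hd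
  obtain ⟨-, g2, a, ha, ha'⟩ := c.g_ne hg
  have hyp : y ∈ c.Sp := ⟨hS y hy (by linarith), g2, by
    have : ¬ c.ψ c.ϱ y ≤ 8 * c.w := fun h => hg (c.g_zero_ψ h)
    unfold L0; linarith⟩
  have hch : ∀ u ∈ c.cell (c.crep x), Relation.ReflTransGen c.rc x u := fun u hu =>
    (qrep_eq_iff c.rc_symm).1 hu.2.symm
  have hyc : y ∈ c.cell (c.crep x) :=
    ⟨hyp, (qrep_rel (r := c.rc) ⟨ha.1, hyp, by linarith⟩).symm.trans ha.2⟩
  have hsl : ∀ u, u ∈ c.E.slab (c.blo x) (c.blo x + c.w) ↔ c.bk u = c.bk x := fun u =>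
    ⟨fun hu => c.bk_eq hu.1 hu.2, fun hu => by
      rw [← c.blo_eq hu]; exact ⟨c.blo_le u, c.lt_bhi u⟩⟩
  have G := fun X => gain V c.E c.w (c.blo x) c.ϱ c.ok c.D.S (c.cell (c.crep x)) c.Z X x y c.δ_le
    hΛ (c.dom.pos.trans_le hal.1) (hal.2.trans c.dom.le)
    (fun u hu v _ => by rw [c.ok_iff, hsl, (hsl u).1 hu]; exact eq_comm) c.dom.sub
    (fun u hu => hu.1.1) (fun u hu => (hsl u).2 (c.cell_chain hxp (hch u hu)).1.symm)
    (fun z hz => c.dom.sub (c.Z_S z hz)) ⟨hxp, rfl⟩ hyc hD (by linarith [c.dom.pos])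
    (by linarith [c.dom.le]) hR hS (c.cell_chain hxp (hch y hyc)).2.2 c.ϱ1 c.ϱ2
    (fun u hu z hz => by
      have h1 : c.ψ c.ϱ u ≤ |c.dK z u - c.ϱ| := inf2_le (f := fun z => |c.dK z u - c.ϱ|) hz
      have h2 : c.L0 < c.ψ c.ϱ u := hu.1.2.2
      unfold L0 at h2
      change _ < |c.dK z u - c.ϱ|
      linarith)
  have hz : ∀ z ∈ c.D.S, z ∈ c.E.slab (c.blo x) (c.blo x + c.w) → c.E.d x z ≤ 11 * c.E.d x y →
      c.alive z ∧ 500 * c.w ≤ c.D.b z ∧ c.BB z ⊆ c.E.B x (30 * c.E.d x y) := by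
    intro z hz h1 h2
    refine ⟨c.alive_of ((hsl z).1 h1).symm hal, ?_, fun p hp => ?_⟩
    · obtain ⟨γ, hγ⟩ := c.E.d_geo x z
      have hs : ∀ u ∈ γ.support, u ∈ c.D.J c.E := fun u hu =>
        (c.D.dJ_le_d c.E (x := x) (r := 11 * c.E.d x y) (by linarith) (by linarith)
          (by linarith [c.E.d_add_le_wl γ hu, c.E.d_nonneg u z])).1
      have := c.E.lip_walk (L := 1) (g := c.D.b) γ fun u v huv he =>
        c.dom.lipb u (hs u (γ.fst_mem_support_of_mem_edges he)) v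
          (hs v (γ.snd_mem_support_of_mem_edges he)) huv
      linarith [(abs_le.1 this).2]
    · have a1 := c.E.d_le_dR c.ok z p
      have a2 := c.E.d_tri x z p
      have a3 := hp.1
      rw [c.E.mem_B]; linarith
  rcases hX with hX | ⟨α, β, hα, hX⟩
  · refine G c.D.X hX fun z z1 z2 z3 => ?_
    obtain ⟨a1, a2, a3⟩ := hz z z1 z2 z3
    by_cases hc : c.Capt z
    · exact Or.inl (c.Z_max z hc)
    · exact Or.inr (c.not_clamp z1 (fun u hu v hv => hX u (a3 hu) v (a3 hv))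
        fun h => hc ⟨z1, a1, a2, Or.inr h⟩)
  · have := G (fun _ => 0) (fun u _ v _ huv => by
      simpa using mul_nonneg (by norm_num [cc] : (0 : ℝ) ≤ cc) (c.E.ℓ_pos huv).le)
      fun z z1 z2 z3 => by
        obtain ⟨a1, a2, a3⟩ := hz z z1 z2 z3
        exact Or.inl (c.Z_max z ⟨z1, a1, a2, Or.inl ⟨α, β, hα, fun v hv => hX v (a3 hv)⟩⟩)
    simp only [sub_self, abs_zero] at this
    unfold cc at this
    linarith

end C2

end Crest.Agent.N206.TA
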