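import Crest.Agent.N206.TA.Gain3

/-!
# Row 206, S0317, Theorem A, leaf Gain: walk up, walk down (helper6)
-/

set_option autoImplicit false

noncomputable section

open scoped Classical

namespace Crest.Agent.N206.TA

open Crest.GeometryTopology.GraphMetric Crest.Agent.N206.PL

variable {V : Type} [Fintype V] {E : Env V}

namespace Gn

theorem cc_pos : 0 < cc := by unfold cc; norm_num

theorem Band.lipK (B : Band E) {x : V} {r : ℝ} {X : V → ℝ} (hX : E.LipOn cc (E.B x r) X) {a b : V}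
    (ha : a ∈ B.K) {t : ℝ} (h : B.dK a b ≤ t * B.w) (ht : t ≤ 900) (h' : E.d x a + t * B.w ≤ r) :
    |X a - X b| ≤ t * (cc * B.w) := by
  obtain ⟨p, hp, hs⟩ := B.kwalk ha (h.trans (mul_le_mul_of_nonneg_right ht B.hw.le))
  have hm : ∀ v ∈ p.support, v ∈ E.B x r := fun v hv => E.mem_B.2 (by
    linarith [(hs v hv).2, B.nonneg v b, B.d_le a v, E.d_tri x a v])
  refine (E.lip_walk p fun u v huv he => hX u (hm u (p.fst_mem_support_of_mem_edges he)) v
    (hm v (p.snd_mem_support_of_mem_edges he)) huv).trans ?_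
  rw [hp]
  nlinarith [cc_pos]

namespace Chain

variable {B : Band E} (C : Chain B)

theorem no_centre {ϱ : ℝ} (h1 : 0 ≤ ϱ) (h2 : ϱ ≤ 40 * B.w) {y : V} (hy : y ∈ E.Sg)
    (hs : ∀ k ≤ C.n, 6 * B.w < |B.dK y (C.z k) - ϱ|) {i : ℕ} (hi : i ≤ C.n)
    (h0 : 597 * B.w < B.dK (C.z i) (C.z 0)) (hn : 597 * B.w < B.dK (C.z i) (C.z C.n))
    (h0n : 2 * B.w < B.dK (C.z 0) (C.z C.n)) : ¬ B.dK (C.z i) y ≤ 503 * B.w := fun h => by
  have hw := B.hw
  obtain ⟨k, hk, h'⟩ := C.close hi h0 hn h0n hy h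
  have : ∀ j ≤ C.n, ϱ + 6 * B.w < B.dK y (C.z j) := fun j hj => by
    induction j with
    | zero => linarith [B.tri (C.z i) y (C.z 0)]
    | succ j ih =>
      rcases lt_abs.1 (hs _ hj) with h3 | h3
      · linarith
      · linarith [ih (by omega), C.step j hj, B.tri y (C.z (j + 1)) (C.z j),
          B.comm (C.z j) (C.z (j + 1))]
  linarith [this k hk, B.comm y (C.z k)]

theorem walk_up {D : ℝ} (hD : E.d (C.z 0) (C.z C.n) = D) (h1 : 10 ^ 4 * B.w ≤ D)
    (rl : ∀ i ≤ C.n, E.d (C.z 0) (C.z i) ≤ 10 * D) {S : Set V} (hS : S ⊆ E.Sg) {X : V → ℝ}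
    (hX : E.LipOn cc (E.B (C.z 0) (30 * D)) X)
    (H : ∀ z ∈ S, ∀ i ≤ C.n, B.dK (C.z i) z ≤ 3 * B.w → 597 * B.w < B.dK (C.z i) (C.z 0) →
      597 * B.w < B.dK (C.z i) (C.z C.n) → ∃ p ∈ E.BB B.ok S B.w (200 * B.w) z,
        ∃ p' ∈ E.BB B.ok S B.w (60 * B.w) z, 130 * cc * B.w < X p - X p') (z : V) :
    z ∈ S → ∀ i ≤ C.n, B.dK (C.z i) z ≤ 3 * B.w → ∃ e, (e = C.z 0 ∨ e = C.z C.n) ∧
      X z + cc / 3 * E.d z e - 800 * (cc * B.w) ≤ X e := by
  have hw := B.hw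
  have hc := cc_pos
  have hcw := mul_pos hc hw
  have : IsTrans V fun a b => X b < X a := ⟨fun _ _ _ h h' => h'.trans h⟩
  have : Std.Irrefl fun a b => X b < X a := ⟨fun _ => lt_irrefl _⟩
  induction z using (Finite.wellFounded_of_trans_of_irrefl fun a b => X b < X a).induction with
  | h z ih =>
  intro hz i hi h
  have zK : z ∈ B.K := B.mem_K (C.mK i hi) (by linarith)
  have zd : E.d (C.z 0) z ≤ 11 * D := by
    linarith [rl i hi, B.d_le (C.z i) z, E.d_tri (C.z 0) (C.z i) z]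
  have fin : ∀ e, B.dK (C.z i) e ≤ 597 * B.w →
      X z + cc / 3 * E.d z e - 800 * (cc * B.w) ≤ X e := fun e he => by
    have h3 : B.dK z e ≤ 600 * B.w := by linarith [B.tri z (C.z i) e, B.comm z (C.z i)]
    have h4 := mul_le_mul_of_nonneg_left ((B.d_le z e).trans h3) hc.le
    linarith [(abs_le.1 (B.lipK hX zK h3 (by norm_num) (by linarith))).2]
  rcases le_or_gt (B.dK (C.z i) (C.z 0)) (597 * B.w) with h0 | h0
  · exact ⟨_, .inl rfl, fin _ h0⟩
  rcases le_or_gt (B.dK (C.z i) (C.z C.n)) (597 * B.w) with hn | hn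
  · exact ⟨_, .inr rfl, fin _ hn⟩
  obtain ⟨p, ⟨p1, s, hs, p2⟩, p', ⟨p3, -⟩, hp⟩ := H z hz i hi h h0 hn
  change B.dK _ _ ≤ _ at p1 p2 p3
  have pK : p ∈ B.K := B.mem_K zK (by linarith)
  have l1 := (abs_le.1 (B.lipK hX zK p3 (by norm_num) (by linarith))).2
  have l2 := (abs_le.1 (B.lipK (t := 1) (b := s) hX pK (by linarith [B.comm p s]) (by norm_num)
    (by linarith [B.d_le z p, E.d_tri (C.z 0) z p]))).2
  have zs : B.dK z s ≤ 201 * B.w := by linarith [B.tri z p s, B.comm p s]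
  obtain ⟨k, hk, h'⟩ := C.close hi h0 hn (by linarith [B.d_le (C.z 0) (C.z C.n)]) (hS hs)
    (by linarith [B.tri (C.z i) z s])
  obtain ⟨e, he, h''⟩ := ih s (by linarith) hs k hk h'
  have h4 : E.d z e ≤ E.d s e + 201 * B.w := by linarith [E.d_tri z s e, B.d_le z s]
  exact ⟨e, he, by linarith [mul_le_mul_of_nonneg_left h4 hc.le]⟩

end Chain

end Gn

open Gn in
theorem gain : GainStmt := by
  intro V _ E w β ϱ ok S Qc Z X x y hδ hΛ hβ hlam hok hS hQ hQK hZ hx _ h1 _ h3 h2 _ hr r1 r2 hs hX H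
  have hw : 0 < w := by linarith [E.δ_pos]
  let B : Band E := ⟨w, β, ok, hw, hΛ, hβ, hlam, hok⟩
  obtain ⟨n, z, rfl, rfl, z1, z2, z3⟩ := exists_chain (r := fun a b => E.dR ok a b ≤ 4 * w) hx hr
  let C : Chain B := ⟨n, z, fun k hk => hS (hQ (z1 k hk)), fun k hk => hQK (z1 k hk), z2,
    fun i j hij hj => not_le.1 (z3 i j hij hj)⟩
  have rl : ∀ i ≤ n, E.d (z 0) (z i) ≤ 10 * E.d (z 0) (z n) := fun i hi => C.rl rfl h1 h2 h3 hi
  have H' := fun v (hv : v ∈ S) i (hi : i ≤ n) (h : B.dK (z i) v ≤ 3 * w)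
      (h0 : 597 * w < B.dK (z i) (z 0)) (hn : 597 * w < B.dK (z i) (z n)) =>
    (H v hv (B.mem_K (C.mK i hi) (h.trans (show 3 * w ≤ 900 * w by linarith)))
      (by linarith [rl i hi, B.d_le (z i) v, E.d_tri (z 0) (z i) v])).resolve_left
      fun ⟨z', hz', h'⟩ => C.no_centre (ϱ := ϱ) (by linarith) r2 (hZ hz')
        (fun k hk => hs _ (z1 k hk) _ hz') hi h0 hn
        (show 2 * w < B.dK (z 0) (z n) by linarith [B.d_le (z 0) (z n)])
        (show B.dK (z i) z' ≤ 503 * w by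
          linarith [B.tri (z i) v z', B.comm v z', show B.dK z' v = E.dR ok z' v from rfl])
  have hex : ∃ k, k ≤ n ∧ E.d (z 0) (z n) / 2 < E.d (z 0) (z k) := ⟨n, le_rfl, by linarith⟩
  obtain ⟨hk, k1⟩ := Nat.find_spec hex
  have k2 : E.d (z 0) (z (Nat.find hex)) ≤ E.d (z 0) (z n) / 2 + 4 * w := by
    obtain h0 | ⟨j, hj⟩ := Nat.eq_zero_or_eq_succ_pred (Nat.find hex) |>.imp_right
      fun h => (⟨_, h⟩ : ∃ j, Nat.find hex = j + 1)
    · rw [h0, E.d_self]; linarith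
    · have := Nat.find_min hex (m := j) (by omega)
      rw [hj] at hk ⊢
      linarith [not_lt.1 fun h => this ⟨by omega, h⟩, z2 j hk, E.d_le_dR ok (z j) (z (j + 1)),
        E.d_tri (z 0) (z j) (z (j + 1))]
  set k := Nat.find hex
  have k3 : ∀ e, e = z 0 ∨ e = z n → cc * (4996 * w) ≤ cc * E.d (z k) e := by
    rintro e (rfl | rfl) <;> refine mul_le_mul_of_nonneg_left ?_ cc_pos.le
    · linarith [E.d_comm (z 0) (z k)]
    · linarith [E.d_tri (z 0) (z k) (z n)]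
  have kk : B.dK (z k) (z k) ≤ 3 * w := by linarith [B.self (z k)]
  obtain ⟨e, he, e1⟩ := C.walk_up rfl h1 rl hS hX (fun v hv i hi h h0 hn =>
    (H' v hv i hi h h0 hn).1) (z k) (hQ (z1 k hk)) k hk kk
  obtain ⟨e', he', e2⟩ := C.walk_up (X := fun v => -X v) rfl h1 rl hS
    (fun u hu v hv h => by simpa [abs_sub_comm, ← sub_eq_add_neg, neg_add_eq_sub] using hX u hu v hv h)
    (fun v hv i hi h h0 hn => by
      obtain ⟨p, hp, p', hp', h⟩ := (H' v hv i hi h h0 hn).2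
      exact ⟨p', hp', p, hp, show 130 * cc * w < _ by linarith⟩) (z k) (hQ (z1 k hk)) k hk kk
  have e3 : 1730 * (cc * w) ≤ X e - X e' := by
    linarith [k3 e he, k3 e' he', show B.w = w from rfl, mul_pos cc_pos hw,
      show cc * B.w = cc * w from rfl]
  have := mul_pos cc_pos hw
  change e = z 0 ∨ e = z n at he
  change e' = z 0 ∨ e' = z n at he'
  rcases he with rfl | rfl <;> rcases he' with rfl | rfl <;>
    linarith [le_abs_self (X (z 0) - X (z n)), neg_abs_le (X (z 0) - X (z n))]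

end Crest.Agent.N206.TA
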