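import Crest.Agent.N206.TA.Basic
import Crest.Agent.N206.PL.Basic2

/-!
# Row 206, S0317, Theorem A, leaf Gain, part 1: legs, lines, gates, three gates lemma (helper6)
-/

set_option autoImplicit false

noncomputable section

open scoped Classical

namespace Crest.Agent.N206.TA.Gn

open Crest.GeometryTopology.GraphMetric Crest.Agent.N206.PL

variable {V : Type}

/-- `b` is joined to `A` inside `A ∪ (B \ (A' ∪ A''))` -/
def Leg (G : SimpleGraph V) (b : V) (B A A' A'' : Set V) : Prop :=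
  ∃ a ∈ A, a ∈ cmp G {v | v ∈ A ∨ (v ∈ B ∧ v ∉ A' ∧ v ∉ A'')} b

theorem Leg.start {G : SimpleGraph V} {b : V} {B A A' A'' : Set V} (h : Leg G b B A A' A'') :
    b ∈ A ∨ (b ∈ B ∧ b ∉ A' ∧ b ∉ A'') :=
  let ⟨_, _, p, hp⟩ := h
  hp b p.start_mem_support

theorem Leg.tch {G : SimpleGraph V} {b : V} {B A A' A'' U : Set V} (h : Leg G b B A A' A'')
    (hb : b ∉ U) (hA : A ⊆ U) (hU : ∀ v ∈ U, v ∈ A ∨ v ∈ A' ∨ v ∈ A'') :
    Tch G A (cmp G (B \ U) b) := by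
  obtain ⟨a, ha, p, hp⟩ := h
  obtain ⟨c, a', hca, p₁, p₂, rfl, ha', h1⟩ :=
    first_exit p A (fun h => hb (hA h)) ⟨a, p.end_mem_support, ha⟩
  refine ⟨a', ha', c, ⟨p₁, fun v hv => ?_⟩, hca.symm⟩
  rcases hp v (SimpleGraph.Walk.support_subset_support_append_left _ _ hv) with h2 | h2
  · exact absurd h2 (h1 v hv)
  · exact ⟨h2.1, fun h3 => by
      rcases hU v h3 with h4 | h4 | h4
      exacts [h1 v hv h4, h2.2.1 h4, h2.2.2 h4]⟩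

/-- `K₃₃` with three branch sets given by hubs and legs -/
theorem k33w {G : SimpleGraph V} (h : MF G) (A₁ A₂ A₃ B₁ B₂ B₃ : Set V) (b₁ b₂ b₃ : V)
    (a₁ : Cn G A₁) (a₂ : Cn G A₂) (a₃ : Cn G A₃) (a12 : Disjoint A₁ A₂) (a13 : Disjoint A₁ A₃)
    (a23 : Disjoint A₂ A₃) (b12 : Disjoint B₁ B₂) (b13 : Disjoint B₁ B₃) (b23 : Disjoint B₂ B₃)
    (l11 : Leg G b₁ B₁ A₁ A₂ A₃) (l12 : Leg G b₁ B₁ A₂ A₁ A₃) (l13 : Leg G b₁ B₁ A₃ A₁ A₂)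
    (l21 : Leg G b₂ B₂ A₁ A₂ A₃) (l22 : Leg G b₂ B₂ A₂ A₁ A₃) (l23 : Leg G b₂ B₂ A₃ A₁ A₂)
    (l31 : Leg G b₃ B₃ A₁ A₂ A₃) (l32 : Leg G b₃ B₃ A₂ A₁ A₃) (l33 : Leg G b₃ B₃ A₃ A₁ A₂) :
    False := by
  set U := A₁ ∪ A₂ ∪ A₃ with hU
  have key : ∀ {b B}, Leg G b B A₁ A₂ A₃ → Leg G b B A₂ A₁ A₃ → Leg G b B A₃ A₁ A₂ →
      Cn G (cmp G (B \ U) b) ∧ Tch G A₁ (cmp G (B \ U) b) ∧ Tch G A₂ (cmp G (B \ U) b) ∧
      Tch G A₃ (cmp G (B \ U) b) := by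
    intro b B l1 l2 l3
    have e12 : b ∈ A₁ → b ∉ A₂ := fun h => Set.disjoint_left.1 a12 h
    have e13 : b ∈ A₁ → b ∉ A₃ := fun h => Set.disjoint_left.1 a13 h
    have s1 := l1.start
    have s2 := l2.start
    have hb : b ∈ B ∧ b ∉ U := by simp only [hU, Set.mem_union]; tauto
    exact ⟨cn_cmp hb, l1.tch hb.2 (fun v h => by simp [hU, h]) fun v => by simp [hU]; tauto,
      l2.tch hb.2 (fun v h => by simp [hU, h]) fun v => by simp [hU]; tauto,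
      l3.tch hb.2 (fun v h => by simp [hU, h]) fun v => by simp [hU]; tauto⟩
  obtain ⟨c1, t11, t21, t31⟩ := key l11 l12 l13
  obtain ⟨c2, t12, t22, t32⟩ := key l21 l22 l23
  obtain ⟨c3, t13, t23, t33⟩ := key l31 l32 l33
  have dB : ∀ {B B' : Set V} {b b'}, Disjoint B B' →
      Disjoint (cmp G (B \ U) b) (cmp G (B' \ U) b') := fun h =>
    h.mono (fun _ hv => (cmp_sub _ _ hv).1) fun _ hv => (cmp_sub _ _ hv).1
  have dA : ∀ {A B : Set V} {b}, A ⊆ U → Disjoint A (cmp G (B \ U) b) := fun h =>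
    Set.disjoint_left.2 fun _ hv hv' => (cmp_sub _ _ hv').2 (h hv)
  have u1 : A₁ ⊆ U := fun v h => by simp [hU, h]
  have u2 : A₂ ⊆ U := fun v h => by simp [hU, h]
  have u3 : A₃ ⊆ U := fun v h => by simp [hU, h]
  exact h.k33' _ _ _ _ _ _ a₁ a₂ a₃ c1 c2 c3 a12 a13 a23 (dB b12) (dB b13) (dB b23) (dA u1) (dA u1)
    (dA u1) (dA u2) (dA u2) (dA u2) (dA u3) (dA u3) (dA u3) t11 t12 t13 t21 t22 t23 t31 t32 t33

/-- a geodesic from `s` to `T` through `z` -/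
structure Line (E : Env V) (z : V) where
  L : Set V
  τ : V
  τT : τ ∈ E.T
  ms : E.s ∈ L
  mz : z ∈ L
  mτ : τ ∈ L
  seg : ∀ u ∈ L, ∀ v ∈ L, E.π u ≤ E.π v → ∃ p : E.G.Walk u v, wl E.ℓ p = E.π v - E.π u ∧
    ∀ a ∈ p.support, a ∈ L ∧ E.π u ≤ E.π a ∧ E.π a ≤ E.π v

theorem exists_line [Fintype V] (E : Env V) {z : V} (hz : z ∈ E.Sg) : Nonempty (Line E z) := by
  obtain ⟨τ, hτ, h⟩ := E.st.tight z hz
  obtain ⟨p, hp⟩ := E.d_geo E.s z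
  obtain ⟨q, hq⟩ := E.d_geo z τ
  obtain ⟨Q, hn, hv, h0, -⟩ := E.wg.geo_of_walk (p.append q) (le_antisymm (by
    rw [TA.wl_append, hp, hq]; exact h.trans (E.st.high τ hτ)) (E.wg.le_wl _))
  have hπ : ∀ i ≤ Q.n, E.π (Q.v i) = Q.pos i := fun i hi => by
    have := Q.dist 0 i (Nat.zero_le _) hi
    rwa [h0, sub_zero, hv 0, SimpleGraph.Walk.getVert_zero] at this
  have hm : ∀ v ∈ (p.append q).support, ∃ i ≤ Q.n, Q.v i = v := fun v h => by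
    obtain ⟨i, h1, h2⟩ := SimpleGraph.Walk.mem_support_iff_exists_getVert.1 h
    exact ⟨i, hn ▸ h2, (hv i).trans h1⟩
  refine ⟨⟨{v | ∃ i ≤ Q.n, Q.v i = v}, τ, hτ, hm _ (SimpleGraph.Walk.start_mem_support _),
    hm _ (SimpleGraph.Walk.support_subset_support_append_left _ _ p.end_mem_support),
    hm _ (SimpleGraph.Walk.end_mem_support _), ?_⟩⟩
  rintro _ ⟨i, hi, rfl⟩ _ ⟨j, hj, rfl⟩ hij
  rw [hπ i hi, hπ j hj] at hij ⊢
  have : i ≤ j := not_lt.1 fun h => absurd (Q.pos_lt E.wg h hi) (not_lt.2 hij)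
  obtain ⟨r, h1, h2⟩ := Q.walk this hj
  refine ⟨r, h1, fun a ha => ?_⟩
  obtain ⟨k, k1, k2, rfl⟩ := (h2 a).1 ha
  rw [hπ k (k2.trans hj)]
  exact ⟨⟨k, k2.trans hj, rfl⟩, Q.pos_mono E.wg k1 (k2.trans hj), Q.pos_mono E.wg k2 hj⟩

namespace Line

variable {E : Env V} {z : V} (P : Line E z)

theorem d_le {u v : V} (hu : u ∈ P.L) (hv : v ∈ P.L) (h : E.π u ≤ E.π v) :
    E.d u v ≤ E.π v - E.π u := by
  obtain ⟨p, hp, -⟩ := P.seg u hu v hv h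
  exact hp ▸ E.d_le_wl p

theorem cmp_seg {u v : V} (hu : u ∈ P.L) (hv : v ∈ P.L) (h : E.π u ≤ E.π v) {W : Set V}
    (hW : ∀ a ∈ P.L, E.π u ≤ E.π a → E.π a ≤ E.π v → a ∈ W) : v ∈ cmp E.G W u := by
  obtain ⟨p, -, hp⟩ := P.seg u hu v hv h
  exact ⟨p, fun a ha => hW a (hp a ha).1 (hp a ha).2.1 (hp a ha).2.2⟩

theorem cmp_down {v : V} (hv : v ∈ P.L) {W : Set V} (hW : ∀ a ∈ P.L, E.π a ≤ E.π v → a ∈ W) :
    v ∈ cmp E.G W E.s :=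
  P.cmp_seg P.ms hv (by rw [E.π_eq, E.d_self]; exact E.d_nonneg _ _) fun a ha _ => hW a ha

end Line

/-- a band of height `w` -/
structure Band (E : Env V) where
  w : ℝ
  β : ℝ
  ok : Sym2 V → Prop
  hw : 0 < w
  hΛ : 1000 * w ≤ E.Λ
  hβ : 0 < β
  hlam : β + w ≤ E.lam
  hok : ∀ u ∈ E.slab β (β + w), ∀ v, E.G.Adj u v → (ok s(u, v) ↔ v ∈ E.slab β (β + w))

namespace Band

variable {E : Env V} (B : Band E)

/-- the slab -/
def K : Set V := E.slab B.β (B.β + B.w)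

/-- the distance in the slab -/
def dK (u v : V) : ℝ := E.dR B.ok u v

theorem tri (x y z : V) : B.dK x z ≤ B.dK x y + B.dK y z := E.dR_tri _ _ _ _
theorem comm (x y : V) : B.dK x y = B.dK y x := E.dR_comm _ _ _
theorem nonneg (x y : V) : 0 ≤ B.dK x y := E.dR_nonneg _ _ _
theorem self (x : V) : B.dK x x = 0 := E.dR_self _ _
theorem d_le (x y : V) : E.d x y ≤ B.dK x y := E.d_le_dR _ _ _

theorem dK_le_wl {u v : V} (p : E.G.Walk u v) (h : ∀ a ∈ p.support, a ∈ B.K) :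
    B.dK u v ≤ wl E.ℓ p := by
  refine E.dR_le_wl _ p fun e he => ?_
  induction e using Sym2.ind with
  | h a b =>
    exact (B.hok a (h a (p.fst_mem_support_of_mem_edges he)) b (p.adj_of_mem_edges he)).2
      (h b (p.snd_mem_support_of_mem_edges he))

theorem kwalk [Fintype V] {u v : V} (hu : u ∈ B.K) (h : B.dK u v ≤ 900 * B.w) :
    ∃ p : E.G.Walk u v, wl E.ℓ p = B.dK u v ∧
      ∀ a ∈ p.support, a ∈ B.K ∧ B.dK u a + B.dK a v ≤ B.dK u v := by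
  obtain ⟨p, hp, ho⟩ := E.dR_walk B.ok (x := u) (y := v)
    (by linarith [B.hΛ, B.hw, show B.dK u v = E.dR B.ok u v from rfl])
  have hK : ∀ a ∈ p.support, a ∈ B.K := by
    clear hp h
    induction p with
    | nil => simpa using hu
    | cons ha p ih =>
      have := ih ((B.hok _ hu _ ha).1 (ho _ (by simp))) fun e he => ho e (by simp [he])
      simpa using ⟨hu, this⟩
  refine ⟨p, hp, fun a ha => ⟨hK a ha, ?_⟩⟩
  have h1 := B.dK_le_wl (p.takeUntil a ha) fun b hb =>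
    hK b (p.support_takeUntil_subset_support ha hb)
  have h2 := B.dK_le_wl (p.dropUntil a ha) fun b hb =>
    hK b (p.support_dropUntil_subset_support ha hb)
  have h3 := wl_take_drop (ℓ := E.ℓ) p ha
  rw [hp] at h3
  exact (add_le_add h1 h2).trans h3.le

theorem mem_K [Fintype V] {u v : V} (hu : u ∈ B.K) (h : B.dK u v ≤ 900 * B.w) : v ∈ B.K :=
  let ⟨p, _, hp⟩ := B.kwalk hu h
  (hp v p.end_mem_support).1

theorem cmp_K [Fintype V] {u v : V} (hu : u ∈ B.K) (h : B.dK u v ≤ 900 * B.w) {W : Set V}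
    (hW : ∀ a ∈ B.K, B.dK u a + B.dK a v ≤ B.dK u v → a ∈ W) : v ∈ cmp E.G W u :=
  let ⟨p, _, hp⟩ := B.kwalk hu h
  ⟨p, fun a ha => hW a (hp a ha).1 (hp a ha).2⟩

/-- the gate of a line -/
def gate {z : V} (P : Line E z) : Set V := P.L ∩ B.K

variable {z : V} (P : Line E z)

theorem gate_walk {u v : V} (hu : u ∈ B.gate P) (hv : v ∈ B.gate P) (h : E.π u ≤ E.π v) :
    v ∈ cmp E.G (B.gate P) u ∧ B.dK u v ≤ B.w := by
  obtain ⟨p, h1, h2⟩ := P.seg u hu.1 v hv.1 h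
  have h3 : ∀ a ∈ p.support, a ∈ B.K := fun a ha =>
    ⟨hu.2.1.trans (h2 a ha).2.1, (h2 a ha).2.2.trans_lt hv.2.2⟩
  exact ⟨⟨p, fun a ha => ⟨(h2 a ha).1, h3 a ha⟩⟩,
    (B.dK_le_wl p h3).trans (by linarith [hu.2.1, hv.2.2])⟩

theorem cn_gate (hz : z ∈ B.K) : Cn E.G (B.gate P) :=
  ⟨⟨z, P.mz, hz⟩, fun u hu v hv => (le_total (E.π u) (E.π v)).elim
    (fun h => (B.gate_walk P hu hv h).1) fun h => cmp_symm (B.gate_walk P hv hu h).1⟩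

theorem gate_dK (hz : z ∈ B.K) {v : V} (hv : v ∈ B.gate P) : B.dK z v ≤ B.w :=
  (le_total (E.π z) (E.π v)).elim (fun h => (B.gate_walk P ⟨P.mz, hz⟩ hv h).2)
    fun h => B.comm v z ▸ (B.gate_walk P hv ⟨P.mz, hz⟩ h).2

theorem high_T {v : V} (hv : v ∈ E.T) : B.β + B.w ≤ E.π v := B.hlam.trans (E.st.high v hv)

/-- from the top down to the gate -/
theorem cmp_top (hz : z ∈ B.K) {τ : V} (hτ : τ ∈ E.T) {W : Set V} (h1 : E.T ⊆ W)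
    (h2 : B.gate P ⊆ W) (h3 : ∀ a ∈ P.L, B.β + B.w ≤ E.π a → a ∈ W) : z ∈ cmp E.G W τ := by
  refine cmp_trans (cmp_mono h1 _ (E.st.conn.2 τ hτ P.τ P.τT)) (cmp_symm
    (P.cmp_seg P.mz P.mτ (hz.2.le.trans (B.high_T P.τT)) fun a ha h _ => ?_))
  rcases lt_or_ge (E.π a) (B.β + B.w) with h' | h'
  exacts [h2 ⟨ha, hz.1.trans h, h'⟩, h3 a ha h']

/-- from the bottom up to the gate -/
theorem cmp_bot (hz : z ∈ B.K) {W : Set V} (h2 : B.gate P ⊆ W)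
    (h3 : ∀ a ∈ P.L, E.π a < B.β → a ∈ W) : z ∈ cmp E.G W E.s := by
  refine P.cmp_down P.mz fun a ha h => ?_
  rcases lt_or_ge (E.π a) B.β with h' | h'
  exacts [h3 a ha h', h2 ⟨ha, h', h.trans_lt hz.2⟩]

/-- (TL) three gates are not joined to a common point of the band -/
theorem tl {z₁ z₂ z₃ m : V} (P₁ : Line E z₁) (P₂ : Line E z₂) (P₃ : Line E z₃) (h₁ : z₁ ∈ B.K)
    (h₂ : z₂ ∈ B.K) (h₃ : z₃ ∈ B.K) (d12 : 2 * B.w < B.dK z₁ z₂) (d13 : 2 * B.w < B.dK z₁ z₃)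
    (d23 : 2 * B.w < B.dK z₂ z₃)
    (l1 : z₁ ∈ cmp E.G {v | v ∈ B.K ∧ v ∉ B.gate P₂ ∧ v ∉ B.gate P₃} m)
    (l2 : z₂ ∈ cmp E.G {v | v ∈ B.K ∧ v ∉ B.gate P₁ ∧ v ∉ B.gate P₃} m)
    (l3 : z₃ ∈ cmp E.G {v | v ∈ B.K ∧ v ∉ B.gate P₁ ∧ v ∉ B.gate P₂} m) : False := by
  have dj : ∀ {a b} (P : Line E a) (Q : Line E b), a ∈ B.K → b ∈ B.K → 2 * B.w < B.dK a b →
      Disjoint (B.gate P) (B.gate Q) := fun {a b} P Q ha hb h =>
    Set.disjoint_left.2 fun v h1 h2 => by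
      linarith [B.gate_dK P ha h1, B.gate_dK Q hb h2, B.tri a v b, B.comm b v]
  have lo : ∀ {a b c} (P : Line E a) (Q : Line E b) (R : Line E c), a ∈ B.K →
      Leg E.G E.s {v | E.π v < B.β} (B.gate P) (B.gate Q) (B.gate R) := fun P Q R ha =>
    ⟨_, ⟨P.mz, ha⟩, B.cmp_bot P ha (fun _ h => .inl h) fun a _ h =>
      .inr ⟨h, fun h' => absurd h'.2.1 (not_le.2 h), fun h' => absurd h'.2.1 (not_le.2 h)⟩⟩
  have hi : ∀ {a b c} (P : Line E a) (Q : Line E b) (R : Line E c), a ∈ B.K →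
      Leg E.G P₁.τ {v | B.β + B.w ≤ E.π v} (B.gate P) (B.gate Q) (B.gate R) := fun P Q R ha => by
    have : ∀ v, B.β + B.w ≤ E.π v → v ∈ B.gate P ∨ (v ∈ {v | B.β + B.w ≤ E.π v} ∧
        v ∉ B.gate Q ∧ v ∉ B.gate R) := fun v h =>
      .inr ⟨h, fun h' => absurd h'.2.2 (not_lt.2 h), fun h' => absurd h'.2.2 (not_lt.2 h)⟩
    exact ⟨_, ⟨P.mz, ha⟩, B.cmp_top P ha P₁.τT (fun v h => this v (B.high_T h)) (fun _ h => .inl h)
      fun a _ h => this a h⟩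
  have hw := B.hw
  exact k33w E.mf _ _ _ {v | E.π v < B.β} {v | B.β + B.w ≤ E.π v} B.K _ _ m (B.cn_gate P₁ h₁)
    (B.cn_gate P₂ h₂) (B.cn_gate P₃ h₃) (dj P₁ P₂ h₁ h₂ d12) (dj P₁ P₃ h₁ h₃ d13)
    (dj P₂ P₃ h₂ h₃ d23)
    (Set.disjoint_left.2 fun v (a : E.π v < B.β) (b : B.β + B.w ≤ E.π v) => by linarith)
    (Set.disjoint_left.2 fun v (a : E.π v < B.β) b => by linarith [b.1])
    (Set.disjoint_left.2 fun v (a : B.β + B.w ≤ E.π v) b => by linarith [b.2])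
    (lo _ _ _ h₁) (lo _ _ _ h₂) (lo _ _ _ h₃) (hi _ _ _ h₁) (hi _ _ _ h₂) (hi _ _ _ h₃)
    ⟨_, ⟨P₁.mz, h₁⟩, cmp_mono (fun _ h => .inr h) _ l1⟩
    ⟨_, ⟨P₂.mz, h₂⟩, cmp_mono (fun _ h => .inr h) _ l2⟩
    ⟨_, ⟨P₃.mz, h₃⟩, cmp_mono (fun _ h => .inr h) _ l3⟩

end Band

end Crest.Agent.N206.TA.Gn
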