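import Crest.Agent.N206.TA.Gain1

/-!
# Row 206, S0317, Theorem A, leaf Gain, part 2: shortest chains, (RL) and (S) (helper6)
-/

set_option autoImplicit false

noncomputable section

open scoped Classical

namespace Crest.Agent.N206.TA.Gn

open Crest.GeometryTopology.GraphMetric Crest.Agent.N206.PL

variable {V : Type}

theorem exists_chain {α : Type} {r : α → α → Prop} {x y : α} {Q : Set α} (hx : x ∈ Q)
    (h : Relation.ReflTransGen (fun a b => a ∈ Q ∧ b ∈ Q ∧ r a b) x y) :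
    ∃ (n : ℕ) (z : ℕ → α), z 0 = x ∧ z n = y ∧ (∀ k ≤ n, z k ∈ Q) ∧ (∀ k < n, r (z k) (z (k + 1))) ∧
      ∀ i j, i + 2 ≤ j → j ≤ n → ¬ r (z i) (z j) := by
  have hex : ∃ n, ∃ z : ℕ → α, z 0 = x ∧ z n = y ∧ (∀ k ≤ n, z k ∈ Q) ∧
      ∀ k < n, r (z k) (z (k + 1)) := by
    induction h with
    | refl => exact ⟨0, fun _ => x, rfl, rfl, fun _ _ => hx, fun _ h => absurd h (Nat.not_lt_zero _)⟩
    | @tail b c _ h ih =>
      obtain ⟨n, z, h0, h1, h2, h3⟩ := ih
      refine ⟨n + 1, fun k => if k ≤ n then z k else c, by simpa using h0, by simp, fun k _ => ?_,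
        fun k hk => ?_⟩
      · dsimp only
        split_ifs with h4
        exacts [h2 k h4, h.2.1]
      · dsimp only
        rw [if_pos (by omega)]
        split_ifs with h4
        · exact h3 k (by omega)
        · rw [show k = n by omega, h1]; exact h.2.2
  obtain ⟨z, h0, h1, h2, h3⟩ := Nat.find_spec hex
  refine ⟨_, z, h0, h1, h2, h3, fun i j hij hj hr => ?_⟩
  refine Nat.find_min hex (m := Nat.find hex - (j - i - 1)) (by omega)
    ⟨fun k => if k ≤ i then z k else z (k + (j - i - 1)), by simpa using h0, ?_, fun k hk => ?_,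
      fun k hk => ?_⟩
  · dsimp only
    rw [if_neg (by omega), show Nat.find hex - (j - i - 1) + (j - i - 1) = Nat.find hex by omega]
    exact h1
  · dsimp only
    split_ifs <;> exact h2 _ (by omega)
  · dsimp only
    by_cases h4 : k + 1 ≤ i
    · rw [if_pos h4, if_pos (by omega)]; exact h3 k (by omega)
    · rw [if_neg h4]
      by_cases h5 : k ≤ i
      · rw [if_pos h5, show k = i by omega, show i + 1 + (j - i - 1) = j by omega]; exact hr
      · rw [if_neg h5, show k + 1 + (j - i - 1) = k + (j - i - 1) + 1 by omega]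
        exact h3 _ (by omega)

theorem exists_excursion {f : ℕ → ℝ} {t : ℝ} {i n : ℕ} (h0 : f 0 ≤ t) (hn : f n ≤ t) (hi : t < f i)
    (hin : i ≤ n) : ∃ a b, a < i ∧ i ≤ b ∧ b < n ∧ f a ≤ t ∧ f (b + 1) ≤ t ∧
      ∀ k, a < k → k ≤ b → t < f k := by
  have hi0 : i ≠ 0 := by rintro rfl; linarith
  have hin' : i ≠ n := by rintro rfl; linarith
  have h1 : ∃ b, i ≤ b ∧ f (b + 1) ≤ t := ⟨n - 1, by omega, by rwa [show n - 1 + 1 = n by omega]⟩
  have h2 := Nat.findGreatest_spec (P := fun a => f a ≤ t) (Nat.zero_le i) h0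
  have h3 := Nat.findGreatest_le (P := fun a => f a ≤ t) i
  have h4 : Nat.find h1 ≤ n - 1 :=
    Nat.find_min' h1 ⟨by omega, by rwa [show n - 1 + 1 = n by omega]⟩
  refine ⟨_, _, lt_of_le_of_ne h3 fun e => ?_, (Nat.find_spec h1).1, by omega, h2,
    (Nat.find_spec h1).2, fun k k1 k2 => ?_⟩
  · rw [e] at h2; linarith
  · rcases le_or_gt k i with h | h
    · exact not_le.1 (Nat.findGreatest_is_greatest k1 h)
    · have := Nat.find_min h1 (m := k - 1) (by omega)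
      rw [show k - 1 + 1 = k by omega] at this
      exact not_le.1 fun h' => this ⟨by omega, h'⟩

/-- a shortest chain of points of `Sg` in the band -/
structure Chain {E : Env V} (B : Band E) where
  n : ℕ
  z : ℕ → V
  sg : ∀ k ≤ n, z k ∈ E.Sg
  mK : ∀ k ≤ n, z k ∈ B.K
  step : ∀ k < n, B.dK (z k) (z (k + 1)) ≤ 4 * B.w
  far : ∀ i j, i + 2 ≤ j → j ≤ n → 4 * B.w < B.dK (z i) (z j)

namespace Chain

variable {E : Env V} {B : Band E} (C : Chain B)

theorem dz {i j : ℕ} (hij : i ≤ j) (hj : j ≤ C.n) :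
    B.dK (C.z i) (C.z j) ≤ 4 * B.w * ((j : ℝ) - i) := by
  induction j, hij using Nat.le_induction with
  | base => simp [B.self]
  | succ j hij ih =>
    push_cast
    linarith [ih (by omega), C.step j (by omega), B.tri (C.z i) (C.z j) (C.z (j + 1))]

theorem gap {i j m : ℕ} (hij : i ≤ j) (hj : j ≤ C.n)
    (h : 4 * B.w * m < B.dK (C.z i) (C.z j)) : i + m < j := by
  have := (mul_lt_mul_iff_right₀ (by linarith [B.hw])).1 (h.trans_le (C.dz hij hj))
  exact_mod_cast (show (i : ℝ) + m < j by linarith)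

theorem near {i j : ℕ} (hi : i ≤ C.n) (hj : j ≤ C.n) (h : B.dK (C.z i) (C.z j) ≤ 4 * B.w) :
    i ≤ j + 1 ∧ j ≤ i + 1 :=
  ⟨not_lt.1 fun h' => absurd (C.far j i h' hi) (not_lt.2 (B.comm _ _ ▸ h)),
    not_lt.1 fun h' => absurd (C.far i j h' hj) (not_lt.2 h)⟩

/-- the links -/
def Lk (k : ℕ) : Set V := {v | v ∈ B.K ∧ B.dK (C.z k) v + B.dK v (C.z (k + 1)) ≤ 4 * B.w}

/-- unions of links -/
def U (a b : ℕ) : Set V := {v | ∃ k, a ≤ k ∧ k < b ∧ v ∈ C.Lk k}

theorem lk_dK {k : ℕ} {v : V} (h : v ∈ C.Lk k) : B.dK (C.z k) v ≤ 4 * B.w := by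
  linarith [h.2, B.nonneg v (C.z (k + 1))]

theorem left_mem {k : ℕ} (hk : k < C.n) : C.z k ∈ C.Lk k :=
  ⟨C.mK k hk.le, by linarith [C.step k hk, B.self (C.z k)]⟩

theorem right_mem {k : ℕ} (hk : k < C.n) : C.z (k + 1) ∈ C.Lk k :=
  ⟨C.mK _ hk, by linarith [C.step k hk, B.self (C.z (k + 1))]⟩

theorem lk_lk {k k' : ℕ} (hk : k' < C.n) {v : V} (h : v ∈ C.Lk k) (h' : v ∈ C.Lk k') :
    k' ≤ k + 1 := by
  by_contra hc
  linarith [C.far k k' (by omega) hk.le, C.far (k + 1) (k' + 1) (by omega) hk, h.2, h'.2,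
    B.tri (C.z k) v (C.z k'), B.tri (C.z (k + 1)) v (C.z (k' + 1)), B.comm (C.z k') v,
    B.comm (C.z (k + 1)) v]

theorem lk_close {k : ℕ} {v : V} (h : v ∈ C.Lk k) {y : V} (h' : B.dK y v ≤ B.w) :
    B.dK (C.z k) y ≤ 3 * B.w ∨ B.dK (C.z (k + 1)) y ≤ 3 * B.w := by
  by_contra hc
  push Not at hc
  linarith [hc.1, hc.2, h.2, B.tri (C.z k) v y, B.tri (C.z (k + 1)) v y, B.comm y v,
    B.comm (C.z (k + 1)) v]

theorem lk_gate {k j : ℕ} (hk : k < C.n) (hj : j ≤ C.n) (P : Line E (C.z j)) {v : V}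
    (h : v ∈ C.Lk k) (h' : v ∈ B.gate P) : k ≤ j + 1 ∧ j ≤ k + 2 := by
  have hw := B.hw
  rcases C.lk_close h (B.gate_dK P (C.mK j hj) h') with h1 | h1
  · have := C.near hk.le hj (by linarith); omega
  · have := C.near hk hj (by linarith); omega

variable [Fintype V]

theorem cmp_lk {k : ℕ} (hk : k < C.n) {v : V} (h : v ∈ C.Lk k) : v ∈ cmp E.G (C.Lk k) (C.z k) :=
  B.cmp_K (C.mK k hk.le) (by linarith [C.lk_dK h, B.hw]) fun a ha h' =>
    ⟨ha, by linarith [h.2, B.tri a v (C.z (k + 1))]⟩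

theorem cmp_U {i j : ℕ} (hij : i < j) (hj : j ≤ C.n) {W : Set V}
    (hW : ∀ k, i ≤ k → k < j → C.Lk k ⊆ W) : C.z j ∈ cmp E.G W (C.z i) := by
  induction j, hij using Nat.le_induction with
  | base => exact cmp_mono (hW i le_rfl (by omega)) _ (C.cmp_lk hj (C.right_mem hj))
  | succ j hij ih =>
    exact cmp_trans (ih (by omega) fun k h1 h2 => hW k h1 (by omega))
      (cmp_mono (hW j (by omega) (by omega)) _ (C.cmp_lk hj (C.right_mem hj)))

theorem cn_U {a b : ℕ} (hab : a < b) (hb : b ≤ C.n) : Cn E.G (C.U a b) := by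
  refine Cn.of_root (r := C.z a) ⟨a, le_rfl, hab, C.left_mem (by omega)⟩ ?_
  rintro v ⟨k, h1, h2, hv⟩
  have h3 : v ∈ cmp E.G (C.U a b) (C.z k) :=
    cmp_mono (show C.Lk k ⊆ C.U a b from fun _ h => ⟨k, h1, h2, h⟩) _ (C.cmp_lk (by omega) hv)
  rcases h1.eq_or_lt with rfl | h1
  · exact h3
  · exact cmp_trans (C.cmp_U h1 (by omega) fun k' _ _ _ h => ⟨k', by omega, by omega, h⟩) h3

/-- (S) points of `Sg` near a middle point of the chain are close to the chain -/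
theorem close {i : ℕ} (hi : i ≤ C.n) (h0 : 597 * B.w < B.dK (C.z i) (C.z 0))
    (hn : 597 * B.w < B.dK (C.z i) (C.z C.n)) (h0n : 2 * B.w < B.dK (C.z 0) (C.z C.n)) {y : V}
    (hy : y ∈ E.Sg) (h : B.dK (C.z i) y ≤ 503 * B.w) : ∃ k ≤ C.n, B.dK (C.z k) y ≤ 3 * B.w := by
  by_contra hc
  push Not at hc
  have hw := B.hw
  obtain ⟨P₀⟩ := exists_line E (C.sg 0 (Nat.zero_le _))
  obtain ⟨P₁⟩ := exists_line E (C.sg _ le_rfl)
  obtain ⟨P⟩ := exists_line E hy
  have hyK : y ∈ B.K := B.mem_K (C.mK i hi) (by linarith)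
  have g1 := C.gap (m := 2) (Nat.zero_le i) hi (by push_cast; linarith [B.comm (C.z i) (C.z 0)])
  have g2 := C.gap (m := 2) hi le_rfl (by push_cast; linarith)
  have miss : ∀ k < C.n, ∀ v ∈ C.Lk k, v ∉ B.gate P := fun k hk v hv hv' => by
    rcases C.lk_close hv (B.gate_dK P hyK hv') with h1 | h1
    exacts [absurd h1 (not_le.2 (hc k hk.le)), absurd h1 (not_le.2 (hc _ hk))]
  refine B.tl (m := C.z i) P₀ P₁ P (C.mK 0 (Nat.zero_le _)) (C.mK _ le_rfl) hyK h0n
    (by linarith [hc 0 (Nat.zero_le _)]) (by linarith [hc _ le_rfl])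
    (cmp_symm (C.cmp_U (by omega) hi fun k _ hk v hv => ⟨hv.1, fun h' => ?_, miss k (by omega) v hv⟩))
    (C.cmp_U (by omega) le_rfl fun k hk hk' v hv => ⟨hv.1, fun h' => ?_, miss k hk' v hv⟩)
    (B.cmp_K (C.mK i hi) (by linarith) fun a ha h' => ⟨ha, fun h1 => ?_, fun h1 => ?_⟩)
  · have := C.lk_gate (by omega) le_rfl P₁ hv h'; omega
  · have := C.lk_gate hk' (Nat.zero_le _) P₀ hv h'; omega
  · linarith [B.gate_dK P₀ (C.mK 0 (Nat.zero_le _)) h1, B.nonneg a y, B.tri (C.z i) a (C.z 0),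
      B.comm a (C.z 0)]
  · linarith [B.gate_dK P₁ (C.mK _ le_rfl) h1, B.nonneg a y, B.tri (C.z i) a (C.z C.n),
      B.comm a (C.z C.n)]

/-- a gate with four links -/
def Gt (a : ℕ) (P : Line E (C.z (a + 2))) : Set V := B.gate P ∪ C.U a (a + 4)

theorem cn_Gt {a : ℕ} (ha : a + 4 ≤ C.n) (P : Line E (C.z (a + 2))) : Cn E.G (C.Gt a P) :=
  (B.cn_gate P (C.mK _ (by omega))).union (C.cn_U (by omega) ha) ⟨P.mz, C.mK _ (by omega)⟩
    ⟨a + 2, by omega, by omega, C.left_mem (by omega)⟩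

omit [Fintype V] in
theorem Gt_K {a : ℕ} {P : Line E (C.z (a + 2))} {v : V} (h : v ∈ C.Gt a P) : v ∈ B.K := by
  rcases h with h | ⟨k, -, -, h⟩
  exacts [h.2, h.1]

omit [Fintype V] in
theorem Gt_d {a : ℕ} (ha : a + 4 ≤ C.n) {P : Line E (C.z (a + 2))} {v : V} (h : v ∈ C.Gt a P) :
    E.d (C.z (a + 2)) v ≤ 12 * B.w := by
  have hw := B.hw
  refine (B.d_le _ _).trans ?_
  rcases h with h | ⟨k, h1, h2, h⟩
  · linarith [B.gate_dK P (C.mK _ (by omega)) h]
  · have h3 : B.dK (C.z (a + 2)) (C.z k) ≤ 8 * B.w := by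
      have h1' : (a : ℝ) ≤ k := by exact_mod_cast h1
      have h2' : (k : ℝ) ≤ a + 4 := by exact_mod_cast h2.le
      rcases le_total k (a + 2) with h4 | h4
      · have := C.dz h4 (by omega)
        push_cast at this
        nlinarith [B.comm (C.z (a + 2)) (C.z k)]
      · have := C.dz h4 (by omega)
        push_cast at this
        nlinarith
    linarith [C.lk_dK h, B.tri (C.z (a + 2)) (C.z k) v]

omit [Fintype V] in
theorem Gt_lk {a k : ℕ} (ha : a + 4 ≤ C.n) (hk : k < C.n) {P : Line E (C.z (a + 2))} {v : V}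
    (h : v ∈ C.Gt a P) (h' : v ∈ C.Lk k) : a ≤ k + 1 ∧ k ≤ a + 4 := by
  rcases h with h | ⟨k', h1, h2, h⟩
  · have := C.lk_gate hk (by omega) P h' h; omega
  · have := C.lk_lk hk h h'
    have := C.lk_lk (by omega) h' h
    omega

omit [Fintype V] in
theorem Gt_gate {a j : ℕ} (ha : a + 4 ≤ C.n) (hj : j ≤ C.n) {P : Line E (C.z (a + 2))}
    (Q : Line E (C.z j)) {v : V} (h : v ∈ C.Gt a P) (h' : v ∈ B.gate Q) :
    a ≤ j + 1 ∧ j ≤ a + 5 := by
  rcases h with h | ⟨k', h1, h2, h⟩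
  · have := C.near (i := a + 2) (by omega) hj (by
      linarith [B.gate_dK P (C.mK _ (by omega)) h, B.gate_dK Q (C.mK _ hj) h', B.hw,
        B.tri (C.z (a + 2)) v (C.z j), B.comm v (C.z j)])
    omega
  · have := C.lk_gate (by omega) hj Q h h'; omega

end Chain

end Crest.Agent.N206.TA.Gn
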