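import Crest.Agent.N206.TA.Gain2

/-!
# Row 206, S0317, Theorem A, leaf Gain, part 3: (RL) shortest chains stay local (helper6)
-/

set_option autoImplicit false

noncomputable section

open scoped Classical

namespace Crest.Agent.N206.TA.Gn.Chain

open Crest.GeometryTopology.GraphMetric Crest.Agent.N206.PL

variable {V : Type} [Fintype V] {E : Env V} {B : Band E} (C : Chain B)

/-- (RL) -/
theorem rl {D : ℝ} (hD : E.d (C.z 0) (C.z C.n) = D) (h1 : 10 ^ 4 * B.w ≤ D) (h2 : 10 * D ≤ E.R)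
    (h3 : E.π (C.z 0) + 70 * D ≤ E.lam) {i : ℕ} (hi : i ≤ C.n) : E.d (C.z 0) (C.z i) ≤ 10 * D := by
  by_contra hc
  push Not at hc
  have hw := B.hw
  obtain ⟨a, b, ai, ib, bn, fa, fb, fk⟩ := exists_excursion (f := fun k => E.d (C.z 0) (C.z k))
    (t := 6 * D) (i := i) (n := C.n) (by simp only [E.d_self]; linarith) (by linarith)
    (by linarith) hi
  have dd : ∀ j k, E.d (C.z 0) (C.z j) ≤ E.d (C.z 0) (C.z k) + B.dK (C.z j) (C.z k) ∧
      E.d (C.z 0) (C.z k) ≤ E.d (C.z 0) (C.z j) + B.dK (C.z j) (C.z k) := fun j k =>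
    ⟨by linarith [E.d_tri (C.z 0) (C.z k) (C.z j), B.d_le (C.z k) (C.z j), B.comm (C.z k) (C.z j)],
      by linarith [E.d_tri (C.z 0) (C.z j) (C.z k), B.d_le (C.z j) (C.z k)]⟩
  have g1 := C.gap (m := 6) ai.le hi (by push_cast; linarith [(dd a i).2])
  have g2 := C.gap (i := i) (j := b + 1) (m := 6) (by omega) bn
    (by push_cast; linarith [(dd i (b + 1)).1])
  have g3 := C.gap (m := 6) bn.le le_rfl
    (by push_cast; linarith [(dd b C.n).1, fk b (by omega) le_rfl])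
  have g0 := C.gap (i := 0) (j := a + 1) (m := 6) (by omega) (by omega)
    (by push_cast; linarith [fk (a + 1) (by omega) (by omega), B.d_le (C.z 0) (C.z (a + 1))])
  have fa2 : 6 * D < E.d (C.z 0) (C.z (a + 2)) := fk _ (by omega) (by omega)
  have fb2 : 6 * D - 8 * B.w < E.d (C.z 0) (C.z (b + 2)) := by
    have := C.dz (i := b) (j := b + 2) (by omega) (by omega)
    push_cast at this
    linarith [(dd b (b + 2)).1, fk b (by omega) le_rfl]
  obtain ⟨P₁⟩ := exists_line E (C.sg (a + 2) (by omega))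
  obtain ⟨P₂⟩ := exists_line E (C.sg (b + 2) (by omega))
  obtain ⟨Pz⟩ := exists_line E (C.sg i hi)
  obtain ⟨Px⟩ := exists_line E (C.sg 0 (by omega))
  obtain ⟨τ, hτ, p, hp⟩ := E.st.away
  replace hp : ∀ v ∈ p.support, ∀ k ≤ C.n, 10 * D ≤ E.d (C.z k) v := fun v hv k hk =>
    h2.trans (hp v hv _ (C.sg k hk))
  have xK := C.mK 0 (by omega)
  have x1 : B.β ≤ E.π (C.z 0) := xK.1
  have x2 : E.π (C.z 0) < B.β + B.w := xK.2
  set A₃ : Set V := {v | (v ∈ Pz.L ∧ E.π v < B.β) ∨ (v ∈ Px.L ∧ E.π v < E.π (C.z 0) - 2 * D)}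
    with hA₃
  have K3 : ∀ v, B.β ≤ E.π v → v ∉ A₃ := by rintro v h (h' | h') <;> linarith [h'.2]
  have s3 : E.s ∈ A₃ := .inl ⟨Pz.ms, by rw [E.π_eq, E.d_self]; exact B.hβ⟩
  have b1 : ∀ v, E.d (C.z 0) v ≤ 2 * D → v ∉ C.Gt a P₁ := fun v h h' => by
    linarith [C.Gt_d (by omega) h', E.d_tri (C.z 0) v (C.z (a + 2)), E.d_comm v (C.z (a + 2))]
  have b2 : ∀ v, E.d (C.z 0) v ≤ 2 * D → v ∉ C.Gt b P₂ := fun v h h' => by
    linarith [C.Gt_d (by omega) h', E.d_tri (C.z 0) v (C.z (b + 2)), E.d_comm v (C.z (b + 2))]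
  have b3 : ∀ v, E.d (C.z 0) v ≤ 2 * D → v ∉ A₃ := by
    rintro v h (h' | h')
    · have := C.mK i hi
      linarith [Pz.d_le h'.1 Pz.mz (h'.2.le.trans this.1), this.2, E.d_tri (C.z 0) v (C.z i),
        (abs_le.1 (E.π_lip (C.z 0) v)).2]
    · linarith [h'.2, (abs_le.1 (E.π_lip (C.z 0) v)).2]
  have up : ∀ {j} (P : Line E (C.z j)), j ≤ C.n → 5 * D < E.d (C.z 0) (C.z j) → ∀ v ∈ P.L,
      B.β + B.w ≤ E.π v → ¬ E.d (C.z 0) v ≤ 2 * D := fun {j} P hj h v hv h' h'' => by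
    have := C.mK j hj
    linarith [P.d_le P.mz hv (this.2.le.trans h'), this.1, E.d_tri (C.z 0) v (C.z j),
      E.d_comm v (C.z j), (abs_le.1 (E.π_lip (C.z 0) v)).1]
  have nK : ∀ {v}, B.β + B.w ≤ E.π v → v ∉ B.K := fun h h' => absurd h'.2 (not_lt.2 h)
  set B₁ : Set V := {v | (B.β + B.w ≤ E.π v ∧ (v ∈ P₁.L ∨ v ∈ P₂.L ∨ v ∈ E.T)) ∨ v ∈ p.support}
    with hB₁
  have nB : ∀ v ∈ B.K, ∀ k ≤ C.n, B.dK (C.z k) v ≤ 4 * B.w → v ∉ B₁ := by
    rintro v hv k hk h (h' | h')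
    · exact nK h'.1 hv
    · linarith [hp v h' k hk, B.d_le (C.z k) v]
  have nU : ∀ {c d v}, d ≤ C.n → v ∈ C.U c d → v ∉ B₁ := by
    rintro c d v hd ⟨k, -, hk, h⟩
    exact nB v h.1 k (by omega) (C.lk_dK h)
  have top : ∀ {c c'} (P : Line E (C.z (c + 2))) (P' : Line E (C.z (c' + 2))), c + 2 ≤ C.n →
      (∀ v ∈ P.L, v ∈ P₁.L ∨ v ∈ P₂.L) → Leg E.G τ B₁ (C.Gt c P) (C.Gt c' P') A₃ :=
    fun {c c'} P P' hc h => by
      have : ∀ v, B.β + B.w ≤ E.π v → (v ∈ P₁.L ∨ v ∈ P₂.L ∨ v ∈ E.T) →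
          v ∈ C.Gt c P ∨ (v ∈ B₁ ∧ v ∉ C.Gt c' P' ∧ v ∉ A₃) := fun v h h' =>
        .inr ⟨.inl ⟨h, h'⟩, fun h'' => nK h (C.Gt_K h''), K3 v (by linarith)⟩
      exact ⟨_, .inl ⟨P.mz, C.mK _ hc⟩, B.cmp_top P (C.mK _ hc) hτ
        (fun v h => this v (B.high_T h) (.inr (.inr h))) (fun _ h => .inl (.inl h))
        fun v hv h' => this v h' (by have := h v hv; tauto)⟩
  refine k33w E.mf (C.Gt a P₁) (C.Gt b P₂) A₃ B₁ (B.gate Pz ∪ C.U (a + 4) b)
    (E.B (C.z 0) (2 * D) ∪ (C.U 0 a ∪ C.U (b + 4) C.n)) τ (C.z i) (C.z 0) (C.cn_Gt (by omega) _)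
    (C.cn_Gt (by omega) _) (Cn.of_root s3 ?_) (Set.disjoint_left.2 ?_)
    (Set.disjoint_left.2 fun v h => K3 v (C.Gt_K h).1)
    (Set.disjoint_left.2 fun v h => K3 v (C.Gt_K h).1) (Set.disjoint_right.2 ?_)
    (Set.disjoint_right.2 ?_) (Set.disjoint_left.2 ?_) (top _ _ (by omega) fun _ => .inl)
    (top _ _ (by omega) fun _ => .inr) ⟨_, s3, cmp_symm ⟨p, fun v hv => .inr ⟨.inr hv, ?_, ?_⟩⟩⟩
    ⟨C.z (a + 4), .inr ⟨a + 3, by omega, by omega, C.right_mem (by omega)⟩, cmp_symm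
      (C.cmp_U (by omega) hi fun k k1 k2 v hv => .inr ⟨.inr ⟨k, k1, by omega, hv⟩, fun h => ?_,
        K3 v hv.1.1⟩)⟩
    ⟨C.z b, .inr ⟨b, by omega, by omega, C.left_mem (by omega)⟩,
      C.cmp_U (by omega) bn.le fun k k1 k2 v hv => .inr ⟨.inr ⟨k, by omega, k2, hv⟩, fun h => ?_,
        K3 v hv.1.1⟩⟩
    ⟨_, s3, cmp_symm (B.cmp_bot Pz (C.mK i hi) (fun v hv => .inr ⟨.inl hv, fun h => ?_, fun h => ?_⟩)
      fun v hv h => .inl (.inl ⟨hv, h⟩))⟩
    ⟨C.z a, .inr ⟨a, by omega, by omega, C.left_mem (by omega)⟩,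
      C.cmp_U (by omega) (by omega) fun k k1 k2 v hv => .inr ⟨.inr (.inl ⟨k, k1, k2, hv⟩),
        fun h => ?_, K3 v hv.1.1⟩⟩
    ⟨C.z (b + 4), .inr ⟨b + 3, by omega, by omega, C.right_mem (by omega)⟩,
      cmp_trans (y := C.z C.n) ?_ (cmp_symm (C.cmp_U (by omega) le_rfl fun k k1 k2 v hv =>
        .inr ⟨.inr (.inr ⟨k, k1, k2, hv⟩), fun h => ?_, K3 v hv.1.1⟩))⟩
    ⟨_, s3, cmp_symm (Px.cmp_down Px.mz fun v hv h => ?_)⟩
  · rintro v (h | h)
    · exact Pz.cmp_down h.1 fun u hu h' => .inl ⟨hu, h'.trans_lt h.2⟩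
    · exact Px.cmp_down h.1 fun u hu h' => .inr ⟨hu, h'.trans_lt h.2⟩
  · rintro v h (h' | ⟨k, k1, k2, h'⟩)
    · have := C.Gt_gate (by omega) (by omega) P₂ h h'; omega
    · have := C.Gt_lk (by omega) (by omega) h h'; omega
  · rintro v (h | h)
    · exact nB v h.2 i hi (by linarith [B.gate_dK Pz (C.mK i hi) h])
    · exact nU bn.le h
  · rintro v (h | h | h)
    · rintro (⟨h', h'' | h'' | h''⟩ | h')
      · exact up P₁ (by omega) (by linarith) v h'' h' h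
      · exact up P₂ (by omega) (by linarith) v h'' h' h
      · linarith [E.st.high v h'', (abs_le.1 (E.π_lip (C.z 0) v)).1, E.mem_B.1 h,
          show E.π v = wdist E.G E.ℓ E.s v from rfl]
      · linarith [hp v h' 0 (by omega), E.mem_B.1 h]
    · exact nU (by omega) h
    · exact nU le_rfl h
  · rintro v (h | ⟨k, k1, k2, h⟩) (h' | ⟨k', k3, k4, h'⟩ | ⟨k', k3, k4, h'⟩)
    · linarith [B.gate_dK Pz (C.mK i hi) h, E.mem_B.1 h', E.d_tri (C.z 0) v (C.z i),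
        B.d_le (C.z i) v, E.d_comm v (C.z i)]
    · have := C.lk_gate (by omega) hi Pz h' h; omega
    · have := C.lk_gate (by omega) hi Pz h' h; omega
    · linarith [C.lk_dK h, E.mem_B.1 h', E.d_tri (C.z 0) v (C.z k), B.d_le (C.z k) v,
        E.d_comm v (C.z k), fk k (by omega) (by omega)]
    · have := C.lk_lk (by omega) h' h; omega
    · have := C.lk_lk (by omega) h h'; omega
  · exact fun h => by linarith [C.Gt_d (by omega) h, hp v hv (a + 2) (by omega)]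
  · exact fun h => by linarith [C.Gt_d (by omega) h, hp v hv (b + 2) (by omega)]
  · have := C.Gt_lk (by omega) (by omega) h hv; omega
  · have := C.Gt_lk (by omega) (by omega) h hv; omega
  · have := C.Gt_gate (by omega) hi Pz h hv; omega
  · have := C.Gt_gate (by omega) hi Pz h hv; omega
  · have := C.Gt_lk (by omega) (by omega) h hv; omega
  · obtain ⟨q, hq⟩ := E.d_geo (C.z 0) (C.z C.n)
    refine ⟨q, fun v hv => ?_⟩
    have : E.d (C.z 0) v ≤ 2 * D := by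
      linarith [E.d_add_le_wl q hv, E.d_nonneg v (C.z C.n)]
    exact .inr ⟨.inl this, b1 v this, b3 v this⟩
  · have := C.Gt_lk (by omega) (by omega) h hv; omega
  · rcases lt_or_ge (E.π v) (E.π (C.z 0) - 2 * D) with h' | h'
    · exact .inl (.inr ⟨hv, h'⟩)
    · have : E.d (C.z 0) v ≤ 2 * D := by linarith [Px.d_le hv Px.mz h, E.d_comm v (C.z 0)]
      exact .inr ⟨.inl this, b1 v this, b2 v this⟩

end Crest.Agent.N206.TA.Gn.Chain
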