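import Crest.Agent.N206.TA.G5

/-!
# Row 206, S0317, Theorem A, geometric stage: choice of the parameters (helper24)
-/

set_option autoImplicit false

noncomputable section

open scoped Classical

namespace Crest.Agent.N206.TA

open Crest.GeometryTopology.GraphMetric Crest.Agent.N206.PL

variable {V : Type} [Fintype V]

theorem K0_pow {k : ℕ} (hk : 0 < k) : 1 / K0 ^ k ≤ 1 / 2 ^ 39 * (1 / 2 : ℝ) ^ k := by
  induction k, hk using Nat.le_induction with
  | base => norm_num [K0]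
  | succ k _ ih =>
    have : (1 : ℝ) / K0 ≤ 1 / 2 := by norm_num [K0]
    calc 1 / K0 ^ (k + 1) = 1 / K0 ^ k * (1 / K0) := by rw [pow_succ, one_div_mul_one_div]
      _ ≤ 1 / 2 ^ 39 * (1 / 2 : ℝ) ^ k * (1 / 2) :=
        mul_le_mul ih this (by norm_num [K0]) (by positivity)
      _ = _ := by ring

theorem scale_le {w D : ℝ} {k : ℕ} (hw : 0 < w) (hk : 0 < k) (h : D < 2 * 10 ^ 4 * (w / K0 ^ k)) :
    10 ^ 6 * D ≤ w * (1 / 2) ^ k := by
  have h1 := mul_le_mul_of_nonneg_left (K0_pow hk) hw.le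
  have h2 : 0 ≤ w * (1 / 2 : ℝ) ^ k := by positivity
  rw [mul_one_div] at h1
  nlinarith

theorem sel' (sel : SelStmt) (ι J : Type) [Fintype ι] [Fintype J] (ω : ι → ℝ) (c P r : ι → J → ℝ)
    (a L : ℝ) (hL : 0 < L) (hω : ∀ i, 0 ≤ ω i) (hP : ∀ i j, 0 < P i j) (hr : ∀ i j, 0 ≤ r i j) :
    ∃ (t : ℝ) (k : ι → Prop), a ≤ t ∧ t < a + L ∧
      (∀ i, ¬ k i → ∀ (j : J) (m : ℤ), r i j < |c i j - t - m * P i j|) ∧
      ∑ i, (if k i then ω i else 0) ≤ ∑ i, ω i * ∑ j, 2 * r i j * (1 / P i j + 1 / L) := by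
  obtain ⟨t, h1, h2, h3⟩ := sel ι J ω c P r a L hL hω hP hr
  refine ⟨t, fun i => ∃ (j : J) (m : ℤ), |c i j - t - m * P i j| ≤ r i j, h1, h2,
    fun i h j m => not_le.1 fun h' => h ⟨j, m, h'⟩, ?_⟩
  convert h3

omit [Fintype V] in
theorem C0.t0_gt (c : C0 V) {x : V} {r : ℝ} (h : ∀ m : ℤ, r < |c.E.π x - c.β - m * c.w|) :
    r < c.t0 x := by
  have h1 := h (c.bk x)
  have h2 := h (c.bk x + 1)
  have l1 := c.blo_le x
  have l2 := c.lt_bhi x
  unfold C0.blo at l1 l2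
  push_cast at h2
  rw [abs_of_nonneg (by linarith)] at h1
  rw [abs_of_nonpos (by linarith)] at h2
  unfold C0.t0 C0.blo
  exact lt_min (by linarith) (by linarith)

theorem C1.ψ_or (c : C1 V) {x : V} (h : 9 * c.w ≤ c.D.b x) :
    9 * c.w ≤ c.ψ (20 * c.w) x ∨ 9 * c.w ≤ c.ψ (40 * c.w) x := by
  have hw := c.w_pos
  by_contra hn
  push Not at hn
  rcases inf2_lt hn.1 with a | ⟨z, hz, a⟩
  · linarith
  rcases inf2_lt hn.2 with b | ⟨z', hz', b⟩
  · linarith
  rw [abs_lt] at a b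
  have e := (c.ctr_eq hz (x := x) (by linarith [a.2])).symm.trans
    (c.ctr_eq hz' (x := x) (by linarith [b.2]))
  subst e
  linarith [a.2, b.1]

theorem geom_C0 (gain : GainStmt) (sel : SelStmt) (c : C0 V) (κ : Type) [Fintype κ]
    (x y : κ → V) (W : κ → ℝ) (idx : κ → ℕ) (hW : ∀ q, 0 ≤ W q)
    (hq : ∀ q, c.D.OK c.E (x q) (y q) ∧ c.E.AtScale c.w (idx q) (x q) (y q) ∧
      1000 * c.E.δ ≤ c.w / K0 ^ idx q) (k1 : κ → Prop)
    (hk0 : ∀ q, idx q = 0 → ¬ k1 q → c.w / 4 ≤ c.t0 (x q))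
    (hk1 : ∀ q, 0 < idx q → ¬ k1 q → 70 * c.E.d (x q) (y q) < c.t0 (x q) ∧
      70 * c.E.d (x q) (y q) < |c.E.π (x q) - c.blo (x q) - c.w / 2|)
    (hk : ∑ q, (if k1 q then (if idx q = 0 then W q / 2 else W q) else 0) ≤
      ∑ q, W q * (if idx q = 0 then 3 / 8 else 1 / 1000 * (1 / 2) ^ idx q)) :
    ∃ (T : Stage c.E c.w c.D) (alive : κ → Option T.ι) (win : κ → Prop),
      (∀ q i, alive q = some i → 0 < idx q ∧ (T.sub i).OK c.E (x q) (y q) ∧
        x q ∈ (T.sub i).Terr c.E (c.w / K0) ∧ y q ∈ (T.sub i).Terr c.E (c.w / K0)) ∧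
      (∀ q, win q → idx q = 0 ∧ ((∃ l, cc * c.w / 16 ≤ T.g l (x q) ∧ T.g l (y q) = 0) ∨
        5 * (130 * cc * c.w) ≤ |c.D.X (x q) - c.D.X (y q)|)) ∧
      ∑ q, W q * (if idx q = 0 then 1 / 8 else -(1 / 16 * (1 / 2) ^ idx q)) ≤
        ∑ q, W q * (if win q then 1 else if 0 < idx q ∧ alive q = none then -1 else 0) := by
  obtain ⟨c, rfl⟩ := exists_C1 c
  have hw := c.w_pos
  have hd : ∀ q, 0 ≤ c.E.d (x q) (y q) := fun q => c.E.d_nonneg _ _
  have h0 : ∀ q, idx q = 0 → 10 ^ 4 * c.w ≤ c.E.d (x q) (y q) := fun q h => by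
    have := (hq q).2.1.1
    rwa [h, pow_zero, div_one] at this
  have h1 : ∀ q, 0 < idx q → 10 ^ 6 * c.E.d (x q) (y q) ≤ c.w * (1 / 2) ^ idx q := fun q h =>
    scale_le hw h (hq q).2.1.2.1
  -- the radius
  obtain ⟨ϱ, ϱ1, ϱ2, hϱ⟩ : ∃ ϱ, 20 * c.w ≤ ϱ ∧ ϱ ≤ 40 * c.w ∧
      ∑ q, (if idx q = 0 ∧ ¬ k1 q then W q / 2 else 0) ≤
        ∑ q, (if idx q = 0 ∧ ¬ k1 q ∧ 9 * c.w ≤ c.ψ ϱ (x q) then W q else 0) := by
    by_contra hn
    push Not at hn
    have a := hn (20 * c.w) le_rfl (by linarith)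
    have b := hn (40 * c.w) (by linarith) le_rfl
    have := add_lt_add a b
    rw [← Finset.sum_add_distrib, ← Finset.sum_add_distrib] at this
    refine absurd this (not_lt.2 (Finset.sum_le_sum fun q _ => ?_))
    have := hW q
    by_cases e : idx q = 0 ∧ ¬ k1 q
    · have := c.ψ_or (x := x q) (by linarith [(hq q).1.2.2.1, h0 q e.1])
      simp only [e.1, e.2, not_false_eq_true, true_and, and_self, if_true]
      rcases this with h | h <;> simp only [h, if_true] <;> split_ifs <;> linarith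
    · rw [if_neg e]
      split_ifs <;> linarith
  have hW' : ∀ q, 0 ≤ (if idx q = 0 then 0 else W q) := fun q => by
    split_ifs
    · exact le_rfl
    · exact hW q
  -- the inner margin
  obtain ⟨t, k2, t1, t2, hk2', ht⟩ := sel' sel κ (Fin 3) (fun q => if idx q = 0 then 0 else W q)
    (fun q => ![c.t0 (x q),
      c.t0 (x q) + 2 * (c.σ (c.ctr (x q)) * c.D.X (x q) - c.v (c.ctr (x q))),
      c.t0 (x q) + 2 * (c.Y2 (c.ctr (x q)) (x q) - c.v (c.ctr (x q)))])
    (fun _ _ => c.w / 16) (fun q _ => 70 * c.E.d (x q) (y q)) (c.w / 8) (c.w / 16) (by linarith)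
    hW' (fun _ _ => by linarith) (fun q _ => by linarith [hd q])
  -- the levels
  obtain ⟨s, k3, s1, s2, hk3', hs⟩ := sel' sel κ Unit (fun q => if idx q = 0 then 0 else W q)
    (fun q _ => c.ψ ϱ (x q)) (fun _ _ => c.w) (fun q _ => 70 * c.E.d (x q) (y q)) 0 c.w hw
    hW' (fun _ _ => hw) (fun q _ => by linarith [hd q])
  obtain ⟨hk2, ht⟩ : (∀ q, ¬ k2 q →
      70 * c.E.d (x q) (y q) < |c.t0 (x q) - t| ∧ 70 * c.E.d (x q) (y q) <
        |c.t0 (x q) + 2 * (c.σ (c.ctr (x q)) * c.D.X (x q) - c.v (c.ctr (x q))) - t| ∧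
      70 * c.E.d (x q) (y q) <
        |c.t0 (x q) + 2 * (c.Y2 (c.ctr (x q)) (x q) - c.v (c.ctr (x q))) - t|) ∧
      ∑ q, (if k2 q then (if idx q = 0 then 0 else W q) else 0) ≤
        ∑ q, W q * (if idx q = 0 then 0 else 1 / 50 * (1 / 2) ^ idx q) := by
    refine ⟨fun q h' => ?_, ht.trans (Finset.sum_le_sum fun q _ => ?_)⟩
    · have h := hk2' q h'
      exact ⟨by simpa using h 0 0, by simpa using h 1 0, by simpa using h 2 0⟩
    · split_ifs with e
      · simp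
      · refine mul_le_mul_of_nonneg_left ?_ (hW q)
        have := h1 q (Nat.pos_of_ne_zero e)
        rw [Finset.sum_const, Finset.card_univ, Fintype.card_fin, nsmul_eq_mul]
        have e2 : ((3 : ℕ) : ℝ) * (2 * (70 * c.E.d (x q) (y q)) * (1 / (c.w / 16) + 1 / (c.w / 16))) =
          13440 * c.E.d (x q) (y q) / c.w := by field_simp; ring
        rw [e2, div_le_iff₀ hw]
        linarith [hd q]
  obtain ⟨hk3, hs⟩ : (∀ q, ¬ k3 q →
      70 * c.E.d (x q) (y q) < |c.ψ ϱ (x q) - (6 * c.w + s)| ∧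
      70 * c.E.d (x q) (y q) < |c.ψ ϱ (x q) - (10 * c.w + s)|) ∧
      ∑ q, (if k3 q then (if idx q = 0 then 0 else W q) else 0) ≤
        ∑ q, W q * (if idx q = 0 then 0 else 1 / 1000 * (1 / 2) ^ idx q) := by
    refine ⟨fun q h' => ?_, hs.trans (Finset.sum_le_sum fun q _ => ?_)⟩
    · have h := hk3' q h'
      have a := h () 6
      have b := h () 10
      push_cast at a b
      exact ⟨a.trans_le (le_of_eq (by congr 1; ring)), b.trans_le (le_of_eq (by congr 1; ring))⟩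
    · split_ifs with e
      · simp
      · refine mul_le_mul_of_nonneg_left ?_ (hW q)
        have := h1 q (Nat.pos_of_ne_zero e)
        rw [Finset.sum_const, Finset.card_univ, Fintype.card_unit, one_nsmul]
        have e2 : 2 * (70 * c.E.d (x q) (y q)) * (1 / c.w + 1 / c.w) =
          280 * c.E.d (x q) (y q) / c.w := by field_simp; ring
        rw [e2, div_le_iff₀ hw]
        linarith [hd q]
  let e : C2 V := ⟨c, t, s, ϱ, t1, by linarith, s1, by linarith, ϱ1, ϱ2⟩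
  refine ⟨e.stage, fun q => if 0 < idx q ∧ ¬ k1 q ∧ ¬ k2 q ∧ ¬ k3 q then
      some ⟨e.rep (x q), (e.rep_spec (hq q).1.1 rfl).1⟩ else none,
    fun q => idx q = 0 ∧ ¬ k1 q ∧ 9 * c.w ≤ c.ψ ϱ (x q), fun q i hi => ?_, fun q h => ⟨h.1, ?_⟩, ?_⟩
  · dsimp only at hi
    split_ifs at hi with h
    obtain rfl := Option.some.inj hi
    obtain ⟨a, b, d, f⟩ := h
    have m1 := h1 q a
    have m2 : c.w * (1 / 2 : ℝ) ^ idx q ≤ c.w :=
      mul_le_of_le_one_right hw.le (pow_le_one₀ (by norm_num) (by norm_num))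
    have m3 := (hq q).2.1.1
    have m4 := (hq q).2.2
    have := c.E.δ_pos
    exact ⟨a, e.alive_pair (hq q).1 (show 1000 * c.E.d _ _ ≤ c.w by linarith [hd q])
      (show c.E.δ ≤ c.E.d _ _ by linarith) (hk1 q a b).1 (hk1 q a b).2 (hk2 q d).1 (hk2 q d).2.1
      (hk2 q d).2.2 (hk3 q f).1 (hk3 q f).2⟩
  · exact e.win_pair gain (hq q).1 (h0 q h.1) (hq q).2.1.2.2 (hk0 q h.1 h.2.1) h.2.2
  · have tot := add_le_add (add_le_add hk ht) (add_le_add hs hϱ)
    simp only [← Finset.sum_add_distrib] at tot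
    rw [← sub_nonneg, ← Finset.sum_sub_distrib] at tot ⊢
    refine tot.trans (Finset.sum_le_sum fun q _ => ?_)
    have := hW q
    by_cases a : idx q = 0
    · by_cases b : k1 q
      · simp [a, b]; linarith
      · by_cases d : 9 * c.w ≤ c.ψ ϱ (x q) <;> simp [a, b, d] <;> linarith
    · have p0 : 0 ≤ W q * (1 / 2 : ℝ) ^ idx q := by positivity
      have a' : 0 < idx q := Nat.pos_of_ne_zero a
      by_cases b : k1 q <;> by_cases d : k2 q <;> by_cases f : k3 q <;>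
        simp only [a, a', b, d, f, if_true, if_false, false_and, true_and, not_true,
          not_false_eq_true, and_self, and_false, reduceCtorEq] <;> linarith

theorem geom : GeomImp := by
  intro gain sel V _ E w D hδ hΛ dom κ _ x y W idx hW hq
  have hw : 0 < w := C0.w_pos ⟨E, w, D, 0, hδ, hΛ, dom⟩
  have hd : ∀ q, 0 ≤ E.d (x q) (y q) := fun q => E.d_nonneg _ _
  obtain ⟨β, k1, -, -, hk1, hβ⟩ := sel' sel κ Unit (fun q => if idx q = 0 then W q / 2 else W q)
    (fun q _ => E.π (x q)) (fun q _ => if idx q = 0 then w else w / 2)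
    (fun q _ => if idx q = 0 then w / 4 else 70 * E.d (x q) (y q)) 0 (2 * w) (by linarith)
    (fun q => by split_ifs <;> linarith [hW q]) (fun q _ => by split_ifs <;> linarith)
    (fun q _ => by split_ifs <;> linarith [hd q])
  refine geom_C0 gain sel ⟨E, w, D, β, hδ, hΛ, dom⟩ κ x y W idx hW hq k1 (fun q a h' => ?_)
    (fun q a h' => ?_) (hβ.trans (Finset.sum_le_sum fun q _ => ?_))
  · have h := hk1 q h'
    simp only [if_pos a] at h
    exact (C0.t0_gt _ (h ())).le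
  · have h := hk1 q h'
    simp only [if_neg a.ne'] at h
    refine ⟨C0.t0_gt _ fun m => ?_, ?_⟩
    · have := h () (2 * m)
      push_cast at this
      exact this.trans_le (le_of_eq (by congr 1; ring))
    · have := h () (2 * C0.bk ⟨E, w, D, β, hδ, hΛ, dom⟩ (x q) + 1)
      push_cast at this
      exact this.trans_le (le_of_eq (by unfold C0.blo; congr 1; ring))
  · rw [Finset.sum_const, Finset.card_univ, Fintype.card_unit, one_nsmul]
    split_ifs with a
    · have : 2 * (w / 4) * (1 / w + 1 / (2 * w)) = 3 / 4 := by field_simp; ring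
      rw [this]; linarith
    · refine mul_le_mul_of_nonneg_left ?_ (hW q)
      have := scale_le hw (Nat.pos_of_ne_zero a) (hq q).2.1.2.1
      have e2 : 2 * (70 * E.d (x q) (y q)) * (1 / (w / 2) + 1 / (2 * w)) =
        350 * E.d (x q) (y q) / w := by field_simp; ring
      rw [e2, div_le_iff₀ hw]
      linarith [hd q]

end Crest.Agent.N206.TA
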