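import Crest.Agent.N206.TA.Defs

/-!
# Row 206, Theorem A: means over finite types and random signs (helper22)
-/

set_option autoImplicit false

noncomputable section

open scoped Classical

namespace Crest.Agent.N206.TA

/-- the mean over a finite type -/
def mean {Ω : Type} [Fintype Ω] (F : Ω → ℝ) : ℝ := (∑ ω, F ω) / (Fintype.card Ω : ℝ)

/-- the sign of a bit -/
def sg (b : Bool) : ℝ := if b then 1 else -1

theorem abs_sg (b : Bool) : |sg b| = 1 := by cases b <;> simp [sg]

theorem sg_mul_sg (b : Bool) : sg b * sg b = 1 := by cases b <;> simp [sg]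

theorem sg_not (b : Bool) : sg (!b) = - sg b := by cases b <;> simp [sg]

section

variable {Ω : Type} [Fintype Ω]

theorem mean_mono {F G : Ω → ℝ} (h : ∀ ω, F ω ≤ G ω) : mean F ≤ mean G :=
  div_le_div_of_nonneg_right (Finset.sum_le_sum fun ω _ => h ω) (Nat.cast_nonneg _)

theorem mean_congr {F G : Ω → ℝ} (h : ∀ ω, F ω = G ω) : mean F = mean G := by
  rw [show F = G from funext h]

theorem mean_add (F G : Ω → ℝ) : mean (fun ω => F ω + G ω) = mean F + mean G := by
  simp only [mean, Finset.sum_add_distrib, add_div]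

theorem mean_sub (F G : Ω → ℝ) : mean (fun ω => F ω - G ω) = mean F - mean G := by
  simp only [mean, Finset.sum_sub_distrib, sub_div]

theorem mean_mul_left (c : ℝ) (F : Ω → ℝ) : mean (fun ω => c * F ω) = c * mean F := by
  simp only [mean, ← Finset.mul_sum, mul_div_assoc]

theorem mean_mul_right (c : ℝ) (F : Ω → ℝ) : mean (fun ω => F ω * c) = mean F * c := by
  simp only [mean, ← Finset.sum_mul]; ring

theorem mean_const [Nonempty Ω] (c : ℝ) : mean (fun _ : Ω => c) = c := by
  have : (Fintype.card Ω : ℝ) ≠ 0 := by exact_mod_cast Fintype.card_ne_zero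
  simp only [mean, Finset.sum_const, Finset.card_univ, nsmul_eq_mul]
  field_simp

theorem mean_zero : mean (fun _ : Ω => (0 : ℝ)) = 0 := by simp [mean]

theorem mean_sum {ι : Type} (s : Finset ι) (F : ι → Ω → ℝ) :
    mean (fun ω => ∑ i ∈ s, F i ω) = ∑ i ∈ s, mean (F i) := by
  simp only [mean]
  rw [Finset.sum_comm, Finset.sum_div]

theorem mean_nonneg {F : Ω → ℝ} (h : ∀ ω, 0 ≤ F ω) : 0 ≤ mean F :=
  div_nonneg (Finset.sum_nonneg fun ω _ => h ω) (Nat.cast_nonneg _)

theorem abs_mean_le (F : Ω → ℝ) : |mean F| ≤ mean (fun ω => |F ω|) := by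
  simp only [mean, abs_div, Nat.abs_cast]
  exact div_le_div_of_nonneg_right (Finset.abs_sum_le_sum_abs _ _) (Nat.cast_nonneg _)

end

variable {V : Type} [Fintype V]

theorem avg_eq {n : ℕ} (F : Om V n → ℝ) : avg F = mean F := rfl

theorem mean_succ {n : ℕ} (F : Om V (n + 1) → ℝ) :
    mean F = mean (fun e : V → Bool => mean (fun ω : Om V n => F (Fin.cons e ω))) := by
  have h1 : ∑ ω, F ω = ∑ e : V → Bool, ∑ ω : Om V n, F (Fin.cons e ω) := by
    rw [← Fintype.sum_prod_type' (f := fun (e : V → Bool) (ω : Om V n) => F (Fin.cons e ω))]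
    exact (Fintype.sum_equiv (Fin.consEquiv fun _ => V → Bool) _ _ fun _ => rfl).symm
  have h2 : (Fintype.card (Om V (n + 1)) : ℝ) =
      (Fintype.card (V → Bool) : ℝ) * (Fintype.card (Om V n) : ℝ) := by
    rw [← Nat.cast_mul, ← Fintype.card_prod]
    exact_mod_cast (Fintype.card_congr (Fin.consEquiv fun _ => V → Bool)).symm
  simp only [mean]
  rw [h1, h2, ← Finset.sum_div, div_div, mul_comm]

theorem mean_sg (l : V) : mean (fun e : V → Bool => sg (e l)) = 0 := by
  have hinv : Function.Involutive (fun e : V → Bool => fun v => !(e v)) := by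
    intro e; funext v; simp
  have h : ∑ e : V → Bool, sg (e l) = ∑ e : V → Bool, - sg (e l) := by
    rw [← Equiv.sum_comp hinv.toPerm]
    exact Finset.sum_congr rfl fun e _ => sg_not _
  rw [Finset.sum_neg_distrib] at h
  have h0 : ∑ e : V → Bool, sg (e l) = 0 := by linarith
  simp only [mean, h0, zero_div]

theorem mean_aff (a b : ℝ) (l : V) : mean (fun e : V → Bool => a + b * sg (e l)) = a := by
  rw [mean_add, mean_const, mean_mul_left, mean_sg]; ring

theorem mean_sg_sg (l l' : V) :
    mean (fun e : V → Bool => sg (e l) * sg (e l')) = if l = l' then 1 else 0 := by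
  split_ifs with h
  · subst h
    simp only [sg_mul_sg]; exact mean_const _
  · have hinv : Function.Involutive
        (fun e : V → Bool => Function.update e l (!(e l))) := by
      intro e; funext v
      by_cases hv : v = l
      · subst hv; simp
      · simp [Function.update_of_ne hv]
    have h1 : ∑ e : V → Bool, sg (e l) * sg (e l') = ∑ e : V → Bool, - (sg (e l) * sg (e l')) := by
      rw [← Equiv.sum_comp hinv.toPerm]
      refine Finset.sum_congr rfl fun e _ => ?_
      simp only [Function.Involutive.coe_toPerm, Function.update_self,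
        Function.update_of_ne (Ne.symm h), sg_not]
      ring
    rw [Finset.sum_neg_distrib] at h1
    have h0 : ∑ e : V → Bool, sg (e l) * sg (e l') = 0 := by linarith
    simp only [mean, h0, zero_div]

end Crest.Agent.N206.TA
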