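import Crest.Agent.N206.TA.Basic
import Crest.Agent.N206.PL.Basic2

/-!
# Row 206, S0317, Theorem A: the root domain, `root : RootImp` (helper62)
-/

set_option autoImplicit false

noncomputable section

open scoped Classical

namespace Crest.Agent.N206.TA

open Crest.GeometryTopology.GraphMetric Crest.Agent.N206.PL Crest.Agent.R206.Iface534

namespace Rt

variable {V : Type} [Fintype V] {n : ℕ}

theorem card_pos : (0 : ℝ) < Fintype.card (Om V n) := by exact_mod_cast Fintype.card_pos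

theorem avg_mono {F F' : Om V n → ℝ} (h : ∀ o, F o ≤ F' o) : avg F ≤ avg F' :=
  div_le_div_of_nonneg_right (Finset.sum_le_sum fun o _ => h o) card_pos.le

theorem avg_add (F F' : Om V n → ℝ) : avg (fun o => F o + F' o) = avg F + avg F' := by
  simp only [avg, Finset.sum_add_distrib, add_div]

theorem avg_sub (F F' : Om V n → ℝ) : avg (fun o => F o - F' o) = avg F - avg F' := by
  simp only [avg, Finset.sum_sub_distrib, sub_div]

theorem avg_const (c : ℝ) : avg (fun _ : Om V n => c) = c := by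
  have := (card_pos (V := V) (n := n)).ne'
  simp only [avg, Finset.sum_const, Finset.card_univ, nsmul_eq_mul]
  field_simp

theorem abs_avg_le (F : Om V n → ℝ) : |avg F| ≤ avg fun o => |F o| := by
  simp only [avg, abs_div, abs_of_pos (card_pos (V := V) (n := n))]
  exact div_le_div_of_nonneg_right (Finset.abs_sum_le_sum_abs _ _) card_pos.le

theorem isCut_avg (F : Om V n → V → ℝ) : IsCut fun x y => avg fun o => |F o x - F o y| := by
  refine ((IsCut.sum Finset.univ _ fun o _ => IsCut.abs (F o)).smul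
    (c := 1 / (Fintype.card (Om V n) : ℝ)) (by positivity)).congr fun x y => ?_
  simp only [avg]
  ring

/-- a cutoff function -/
theorem exists_cut {G : SimpleGraph V} {ℓ : Sym2 V → ℝ} {δ : ℝ} (hw : WG G ℓ δ) (S : Set V)
    {r : ℝ} (hr : 0 < r) :
    ∃ χ : V → ℝ, (∀ x, 0 ≤ χ x) ∧ (∀ x, χ x ≤ 1) ∧ (∀ x ∈ S, χ x = 1) ∧
      (∀ x, χ x ≠ 0 → ∃ z ∈ S, wdist G ℓ z x < r) ∧
      ∀ x y, G.Adj x y → |χ x - χ y| ≤ ℓ s(x, y) / r := by
  have key : ∀ x, ∃ a : ℝ, 0 ≤ a ∧ (∀ z ∈ S, r - wdist G ℓ z x ≤ a) ∧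
      (a = 0 ∨ ∃ z ∈ S, a = r - wdist G ℓ z x) := by
    intro x
    by_cases h : ∃ z ∈ S, wdist G ℓ z x ≤ r
    · obtain ⟨z₀, hz₀, h₀⟩ := h
      obtain ⟨z, hz, hmin⟩ := Finset.exists_min_image (Finset.univ.filter fun z => z ∈ S)
        (fun z => wdist G ℓ z x) ⟨z₀, by simpa using hz₀⟩
      exact ⟨r - wdist G ℓ z x, by linarith [hmin z₀ (by simpa using hz₀)],
        fun y hy => by linarith [hmin y (by simpa using hy)], Or.inr ⟨z, by simpa using hz, rfl⟩⟩
    · push Not at h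
      exact ⟨0, le_rfl, fun z hz => by linarith [h z hz], Or.inl rfl⟩
  choose a a0 a1 a2 using key
  have ale : ∀ x, a x ≤ r := fun x => by
    rcases a2 x with e | ⟨z, -, e⟩ <;> rw [e]
    · exact hr.le
    · linarith [hw.nonneg z x]
  have alip : ∀ x y, G.Adj x y → a x ≤ a y + ℓ s(x, y) := fun x y hxy => by
    rcases a2 x with e | ⟨z, hz, e⟩ <;> rw [e]
    · linarith [a0 y, hw.adj_pos hxy]
    · linarith [a1 y z hz, hw.tri z x y, hw.edge hxy]
  refine ⟨fun x => a x / r, fun x => div_nonneg (a0 x) hr.le, fun x => (div_le_one hr).2 (ale x),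
    fun x hx => ?_, fun x hx => ?_, fun x y hxy => ?_⟩
  · have := a1 x x hx
    rw [hw.self] at this
    show a x / r = 1
    rw [div_eq_one_iff_eq hr.ne']
    linarith [ale x]
  · rcases a2 x with e | ⟨z, hz, e⟩
    · exact absurd (by simp [e]) hx
    · refine ⟨z, hz, ?_⟩
      by_contra h
      have : a x = 0 := le_antisymm (by linarith) (a0 x)
      exact hx (by simp [this])
  · have e1 := alip x y hxy
    have e2 := alip y x hxy.symm
    rw [Sym2.eq_swap] at e2
    show |a x / r - a y / r| ≤ _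
    rw [← sub_div, abs_div, abs_of_pos hr]
    exact div_le_div_of_nonneg_right (abs_le.2 ⟨by linarith, by linarith⟩) hr.le

theorem prod_le {f g c d B L : ℝ} (hd0 : 0 ≤ d) (hd1 : d ≤ 1) (hf : |f| ≤ B) (hL : |c - d| ≤ L) :
    |f * c - g * d| ≤ B * L + |f - g| := by
  have e : f * c - g * d = f * (c - d) + (f - g) * d := by ring
  rw [e]
  refine (abs_add_le _ _).trans (add_le_add ?_ ?_)
  · rw [abs_mul]
    exact mul_le_mul hf hL (abs_nonneg _) ((abs_nonneg _).trans hf)
  · rw [abs_mul, abs_of_nonneg hd0]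
    exact mul_le_of_le_one_right (abs_nonneg _) hd1

/-- the root domain -/
def dom (E : Env V) : Dom V := ⟨E.Sg, E.R / 2, E.lam, fun _ => 0, fun _ => 30 * E.R⟩

omit [Fintype V] in
theorem le_π (E : Env V) {x : V} (hx : x ∈ E.Sg) : E.R ≤ E.π x := by
  obtain ⟨τ, -, p, hp⟩ := E.st.away
  rw [E.π_eq, E.d_comm]
  exact hp _ p.start_mem_support x hx

omit [Fintype V] in
theorem isDom (E : Env V) (hR : 0 < E.R) (w : ℝ) : IsDom E w (dom E) where
  sub := fun _ h => h
  subJ := fun x hx => ⟨by have := le_π E hx; show E.R / 2 ≤ _; linarith, by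
    have := E.st.room x hx; show wdist E.G E.ℓ E.s x < E.lam; linarith⟩
  pos := half_pos hR
  le := le_rfl
  lipX := fun u _ v _ h => by simpa [dom] using (E.ℓ_pos h).le
  lipb := fun u _ v _ h => by simpa [dom] using (E.ℓ_pos h).le
  sep := fun _ _ _ h _ h' => absurd h h'
  cb := ⟨fun _ => 0, fun _ => 0, fun _ _ => by simp [dom], fun _ _ _ _ _ => ⟨rfl, rfl⟩⟩

omit [Fintype V] in
theorem ok (E : Env V) {x y : V} (hx : x ∈ E.Sg) (hy : y ∈ E.Sg) (h : 140 * E.d x y ≤ E.R) :
    (dom E).OK E x y := by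
  have h0 := E.d_nonneg x y
  have h1 := le_π E hx
  have h2 : E.π x + E.R ≤ E.lam := E.st.room x hx
  refine ⟨hx, hy, ?_, ?_, ?_, Or.inr ⟨0, 0, by norm_num, fun _ _ => by simp [dom]⟩⟩
  · show _ ≤ 30 * E.R
    linarith
  · show E.R / 2 + _ ≤ _
    linarith
  · show _ ≤ E.lam
    linarith

/-- one class of scales -/
theorem one_class (H : ∀ n, Claim n) (E : Env V) (hR : 0 < E.R) {Δ m w : ℝ} (hΔ : 1 ≤ Δ)
    (hm : ∀ x ∈ E.Sg, |E.π x - m| ≤ Δ * E.R) (hw0 : 0 ≤ w) (hwR : w ≤ E.R) (hΛ : 1000 * w ≤ E.Λ)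
    (hn : 1000 * E.δ ≤ w / K0 ^ n) {κ : Type} [Fintype κ] (a b : κ → V) (ω : κ → ℝ)
    (idx : κ → ℕ) (hω : ∀ q, 0 ≤ ω q)
    (hq : ∀ q, a q ∈ E.Sg ∧ b q ∈ E.Sg ∧ 140 * E.d (a q) (b q) ≤ E.R ∧
      E.AtScale w (idx q) (a q) (b q) ∧ idx q < n) :
    ∃ ρ : V → V → ℝ, IsCut ρ ∧ (∀ x y, E.G.Adj x y → ρ x y ≤ (20 * Δ + 75) * E.ℓ s(x, y)) ∧
      (∀ x y, (∀ z ∈ E.Sg, E.R / 10 ≤ E.d z x) → (∀ z ∈ E.Sg, E.R / 10 ≤ E.d z y) → ρ x y = 0) ∧
      c2 / 16 * ∑ q, ω q * E.d (a q) (b q) ≤ ∑ q, ω q * ρ (a q) (b q) := by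
  obtain ⟨Xf, u, αe, good, -, -, hX, -, hu, hu0, hα, hload, hgood, hsum⟩ :=
    H n V E w (dom E) hn hΛ (isDom E hR w) κ a b (fun q => ω q * E.d (a q) (b q)) idx
      (fun q => mul_nonneg (hω q) (E.d_nonneg _ _))
      fun q => ⟨ok E (hq q).1 (hq q).2.1 (hq q).2.2.1, (hq q).2.2.2.1, (hq q).2.2.2.2⟩
  obtain ⟨χ, χ0, χ1, χS, χn, χl⟩ := exists_cut E.wg E.Sg (r := E.R / 10) (by linarith)
  set F : ℝ → Om V n → V → ℝ := fun ξ o p => E.π p + ξ * Xf p + u (1 / 2) ξ o p - m with hF
  have hinc : ∀ ξ : ℝ, |ξ| = 1 → ∀ o p q, inc E (1 / 2) ξ Xf (u (1 / 2) ξ o) p q =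
      F ξ o p - F ξ o q := by
    intro ξ hξ o p q
    simp only [inc, hF, hξ]; ring
  have hFb : ∀ ξ : ℝ, |ξ| = 1 → ∀ o p, χ p ≠ 0 → |F ξ o p| ≤ (Δ + 3) * E.R := by
    intro ξ hξ o p hp
    obtain ⟨z, hz, hd⟩ := χn p hp
    have e1 := abs_le.1 (hm z hz)
    have e2 := abs_le.1 (E.π_lip z p)
    have e3 : |ξ * Xf p| ≤ w := by
      have := hX p
      rw [abs_mul, hξ, one_mul]
      simp only [dom, sub_zero, cc] at this
      linarith
    have e4 := hu (1 / 2) ξ (by norm_num) o p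
    rw [hξ] at e4
    have e5 := abs_le.1 e3
    have e6 := abs_le.1 e4
    have hd' : E.d z p < E.R / 10 := hd
    simp only [hF]
    rw [abs_le]; constructor <;> linarith
  have hedge : ∀ ξ : ℝ, |ξ| = 1 → ∀ x y, E.G.Adj x y →
      avg (fun o => |F ξ o x * χ x - F ξ o y * χ y|) ≤ (10 * Δ + 75 / 2) * E.ℓ s(x, y) := by
    intro ξ hξ x y hxy
    have hl := E.ℓ_pos hxy
    have hB : (Δ + 3) * E.R * (E.ℓ s(x, y) / (E.R / 10)) = (10 * Δ + 30) * E.ℓ s(x, y) := by
      field_simp; ring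
    have h1 : ∀ o, |F ξ o x * χ x - F ξ o y * χ y| ≤
        (10 * Δ + 30) * E.ℓ s(x, y) + |F ξ o x - F ξ o y| := by
      intro o
      rw [← hB]
      by_cases hx : χ x = 0
      · by_cases hy : χ y = 0
        · rw [hx, hy, hB]
          simp only [mul_zero, sub_zero, abs_zero]
          positivity
        · rw [abs_sub_comm, abs_sub_comm (F ξ o x)]
          exact prod_le (χ0 x) (χ1 x) (hFb ξ hξ o y hy) (by rw [abs_sub_comm]; exact χl x y hxy)
      · exact prod_le (χ0 y) (χ1 y) (hFb ξ hξ o x hx) (χl x y hxy)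
    have h2 := hload (1 / 2) ξ (by norm_num) x y hxy
    simp only [hinc ξ hξ] at h2
    have h3 : ξ * αe x y ≤ 1 / 2 := by
      have := le_abs_self (ξ * αe x y)
      rw [abs_mul, hξ, one_mul] at this
      linarith [hα x y]
    refine (avg_mono h1).trans ?_
    rw [avg_add, avg_const]
    rw [hξ] at h2
    nlinarith
  have a1 : |(1 : ℝ)| = 1 := abs_one
  have a2 : |(-1 : ℝ)| = 1 := by simp
  refine ⟨fun x y => avg (fun o => |F 1 o x * χ x - F 1 o y * χ y|) +
    avg (fun o => |F (-1) o x * χ x - F (-1) o y * χ y|),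
    (isCut_avg fun o x => F 1 o x * χ x).add (isCut_avg fun o x => F (-1) o x * χ x),
    fun x y hxy => ?_, fun x y hx hy => ?_, ?_⟩
  · have := hedge 1 a1 x y hxy
    have := hedge (-1) a2 x y hxy
    linarith
  · have e : ∀ x, (∀ z ∈ E.Sg, E.R / 10 ≤ E.d z x) → χ x = 0 := fun x hx => by
      by_contra h
      obtain ⟨z, hz, hd⟩ := χn x h
      exact absurd (hx z hz) (not_le.2 hd)
    simp [e x hx, e y hy, avg_const]
  · have hc2 : 0 < c2 := by unfold c2 cc; norm_num
    have key : ∀ q, c2 * (ω q * E.d (a q) (b q) * if good q then 1 else 0) ≤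
        ω q * (avg (fun o => |F 1 o (a q) * χ (a q) - F 1 o (b q) * χ (b q)|) +
          avg (fun o => |F (-1) o (a q) * χ (a q) - F (-1) o (b q) * χ (b q)|)) := by
      intro q
      rw [χS _ (hq q).1, χS _ (hq q).2.1]
      simp only [mul_one]
      have n1 := (abs_nonneg _).trans (abs_avg_le fun o => F 1 o (a q) - F 1 o (b q))
      have n2 := (abs_nonneg _).trans (abs_avg_le fun o => F (-1) o (a q) - F (-1) o (b q))
      split_ifs with hg
      swap
      · simpa using mul_nonneg (hω q) (add_nonneg n1 n2)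
      suffices h : c2 * E.d (a q) (b q) ≤ avg (fun o => |F 1 o (a q) - F 1 o (b q)|) +
          avg (fun o => |F (-1) o (a q) - F (-1) o (b q)|) by
        have := mul_le_mul_of_nonneg_left h (hω q)
        linarith
      rcases hgood q hg with h | h | ⟨α, -, h⟩
      · have m : ∀ ξ : ℝ, avg (fun o => F ξ o (a q) - F ξ o (b q)) =
            E.π (a q) - E.π (b q) + ξ * (Xf (a q) - Xf (b q)) := by
          intro ξ
          have : (fun o => F ξ o (a q) - F ξ o (b q)) = fun o =>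
              (E.π (a q) - E.π (b q) + ξ * (Xf (a q) - Xf (b q))) +
                (u (1 / 2) ξ o (a q) - u (1 / 2) ξ o (b q)) := by
            funext o; simp only [hF]; ring
          rw [this, avg_add, avg_const, avg_sub, hu0, hu0]; ring
        have b1 := abs_avg_le fun o => F 1 o (a q) - F 1 o (b q)
        have b2 := abs_avg_le fun o => F (-1) o (a q) - F (-1) o (b q)
        rw [m] at b1 b2
        have b3 := abs_le.1 b1
        have b4 := abs_le.1 b2
        have hd := mul_nonneg hc2.le (E.d_nonneg (a q) (b q))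
        rcases le_abs.1 h with h | h <;> linarith
      · have b1 := h (1 / 2) 1 (by norm_num)
        have b2 := h (1 / 2) (-1) (by norm_num)
        simp only [hinc 1 a1, hinc (-1) a2] at b1 b2
        linarith
      · have b1 := h (1 / 2) 1 (by norm_num)
        have b2 := h (1 / 2) (-1) (by norm_num)
        simp only [hinc 1 a1, hinc (-1) a2, a1, a2] at b1 b2
        linarith
    refine le_trans ?_ (Finset.sum_le_sum fun q _ => key q)
    rw [← Finset.mul_sum]
    refine le_trans ?_ (mul_le_mul_of_nonneg_left hsum hc2.le)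
    rw [div_eq_mul_one_div, mul_assoc, Finset.mul_sum]
    refine mul_le_mul_of_nonneg_left (Finset.sum_le_sum fun q _ => ?_) hc2.le
    have hv : 1 / 16 ≤ val (idx q) := by
      unfold val
      have : (0 : ℝ) ≤ 1 / 16 * (1 / 2) ^ idx q := by positivity
      linarith
    rw [mul_comm]
    exact mul_le_mul_of_nonneg_left hv (mul_nonneg (hω q) (E.d_nonneg _ _))

theorem exists_dyadic {y : ℝ} (hy : 1 ≤ y) : ∃ t : ℕ, y ≤ 2 ^ t ∧ 2 ^ t < 2 * y := by
  have hex : ∃ t : ℕ, y ≤ 2 ^ t := by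
    obtain ⟨t, ht⟩ := pow_unbounded_of_one_lt y (one_lt_two (α := ℝ))
    exact ⟨t, ht.le⟩
  refine ⟨Nat.find hex, Nat.find_spec hex, ?_⟩
  rcases h : Nat.find hex with _ | t
  · simp only [pow_zero]; linarith
  · have := Nat.find_min hex (m := t) (by omega)
    rw [pow_succ]
    linarith [not_le.1 this]

end Rt

open Rt in
theorem root : RootImp := by
  intro H Δ hΔ
  have hc2 : 0 < c2 := by unfold c2 cc; norm_num
  refine ⟨40 * (20 * Δ + 75), c2 / 16, 10 ^ 8 * K0, by positivity, by positivity,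
    by unfold K0; norm_num, ?_⟩
  intro V _ G ℓ δ hw hmf s T lam R m Sg hR st hm ι _ a b ω hω hab
  set C : ℝ := 10 ^ 8 * K0 with hC
  have hK : (1 : ℝ) ≤ K0 := by unfold K0; norm_num
  have hC1 : 10 ^ 8 ≤ C := by rw [hC]; nlinarith
  have hC0 : 0 < C := by linarith
  have ht : ∀ q, ∃ t : ℕ, 0 < wdist G ℓ (a q) (b q) →
      R / C / 2 ^ t ≤ wdist G ℓ (a q) (b q) ∧ wdist G ℓ (a q) (b q) < 2 * (R / C / 2 ^ t) := by
    intro q
    by_cases hd : 0 < wdist G ℓ (a q) (b q)
    · obtain ⟨t, h1, h2⟩ := exists_dyadic (y := R / C / wdist G ℓ (a q) (b q)) (by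
        rw [le_div_iff₀ hd, le_div_iff₀ hC0]; linarith [(hab q).2.2.2])
      refine ⟨t, fun _ => ⟨?_, ?_⟩⟩
      · rw [div_le_iff₀ hd] at h1
        rw [div_le_iff₀ (by positivity)]; linarith
      · rw [← mul_div_assoc, lt_div_iff₀ hd] at h2
        rw [← mul_div_assoc, lt_div_iff₀ (by positivity)]; linarith
    · exact ⟨0, fun h => absurd h hd⟩
  choose t ht using ht
  set P : ℕ → ι → Prop := fun r q => 0 < wdist G ℓ (a q) (b q) ∧ t q % 40 = r with hP
  have hcl : ∀ r : ℕ, ∃ ρ : V → V → ℝ, IsCut ρ ∧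
      (∀ x y, G.Adj x y → ρ x y ≤ (20 * Δ + 75) * ℓ s(x, y)) ∧
      (∀ x y, (∀ z ∈ Sg, R / 10 ≤ wdist G ℓ z x) → (∀ z ∈ Sg, R / 10 ≤ wdist G ℓ z y) →
        ρ x y = 0) ∧
      c2 / 16 * ∑ q ∈ Finset.univ.filter (P r), ω q * wdist G ℓ (a q) (b q) ≤
        ∑ q ∈ Finset.univ.filter (P r), ω q * ρ (a q) (b q) := by
    intro r
    rcases (Finset.univ.filter (P r)).eq_empty_or_nonempty with he | hne
    · exact ⟨fun _ _ => 0, IsCut.zero, fun x y hxy => mul_nonneg (by linarith)
        (hw.adj_pos hxy).le, fun _ _ _ _ => rfl, by simp [he]⟩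
    obtain ⟨q₀, hq₀, hmax⟩ := Finset.exists_max_image _ (fun q => t q / 40) hne
    have hq₀' : P r q₀ := by simpa using hq₀
    have hδ : 0 < δ := by
      have key : ∀ x y, 0 < wdist G ℓ x y → 0 < δ := by
        intro x y hxy
        obtain ⟨p, -, hp⟩ := hw.exists_geo x y
        cases p with
        | nil => rw [← hp] at hxy; simp [wl] at hxy
        | cons h p => exact (hw.adj_pos h).trans_le (hw.adj_le h)
      exact key _ _ hq₀'.1
    set w : ℝ := R / C / 2 ^ r / 10 ^ 4 with hw'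
    have hw0 : 0 ≤ w := by positivity
    have hsc : ∀ q, P r q → 10 ^ 4 * (w / K0 ^ (t q / 40)) = R / C / 2 ^ t q := by
      intro q hq
      have e : (2 : ℝ) ^ t q = 2 ^ r * K0 ^ (t q / 40) := by
        unfold K0
        rw [← pow_mul, ← pow_add, ← hq.2, Nat.mod_add_div]
      rw [e, hw']
      field_simp
    have hwR : w ≤ R := by
      rw [hw', div_div, div_div]
      refine div_le_self hR.le ?_
      have : (1 : ℝ) ≤ 2 ^ r := one_le_pow₀ (by norm_num)
      nlinarith
    let E : Env V := ⟨G, ℓ, δ, s, T, lam, R, Sg, 1000 * w, hw, hmf, st, hδ, by positivity⟩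
    obtain ⟨ρ, h1, h2, h3, h4⟩ := one_class (n := t q₀ / 40 + 1) H E hR hΔ (m := m) hm hw0 hwR
      le_rfl (by
        show 1000 * δ ≤ _
        have e1 := (ht q₀ hq₀'.1).2
        have e2 := (hab q₀).2.2.1
        rw [← hsc q₀ hq₀'] at e1
        have e3 : w / K0 ^ (t q₀ / 40) = K0 * (w / K0 ^ (t q₀ / 40 + 1)) := by
          rw [pow_succ]; field_simp
        rw [e3] at e1
        have e4 : K0 * (10 ^ 8 * δ) < K0 * (2 * 10 ^ 4 * (w / K0 ^ (t q₀ / 40 + 1))) := by
          rw [hC] at e2; linarith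
        have e5 := lt_of_mul_lt_mul_left e4 (by linarith)
        linarith)
      (κ := {q // P r q}) (fun q => a q) (fun q => b q) (fun q => ω q) (fun q => t q / 40)
      (fun q => hω q) fun q => by
        have e1 := ht q q.2.1
        have e2 := (hab q).2.2.2
        have e3 := q.2.1
        rw [← hsc q q.2] at e1
        refine ⟨(hab q).1, (hab q).2.1, ?_, ⟨e1.1, ?_, ?_⟩,
          Nat.lt_succ_of_le (hmax q (by simpa using q.2))⟩
        · show 140 * wdist G ℓ _ _ ≤ R
          nlinarith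
        · show wdist G ℓ _ _ < _
          linarith [e1.2]
        · show 10 * wdist G ℓ _ _ ≤ R
          nlinarith
    refine ⟨ρ, h1, h2, h3, ?_⟩
    rw [Finset.sum_subtype (Finset.univ.filter (P r)) (p := P r) (by simp),
      Finset.sum_subtype (Finset.univ.filter (P r)) (p := P r) (by simp)]
    exact h4
  choose ρ c1 c2' c3 c4 using hcl
  refine ⟨fun x y => ∑ r ∈ Finset.range 40, ρ r x y, IsCut.sum _ _ fun r _ => c1 r,
    fun x y hxy => ?_, fun x y hx hy => Finset.sum_eq_zero fun r _ => c3 r x y hx hy, ?_⟩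
  · refine (Finset.sum_le_sum fun r _ => c2' r x y hxy).trans (le_of_eq ?_)
    simp only [Finset.sum_const, Finset.card_range, nsmul_eq_mul]
    push_cast; ring
  · have e1 : ∑ q, ω q * wdist G ℓ (a q) (b q) ≤ ∑ r ∈ Finset.range 40,
        ∑ q ∈ Finset.univ.filter (P r), ω q * wdist G ℓ (a q) (b q) := by
      simp only [Finset.sum_filter]
      rw [Finset.sum_comm]
      refine Finset.sum_le_sum fun q _ => ?_
      by_cases hd : 0 < wdist G ℓ (a q) (b q)
      · refine le_trans ?_ (Finset.single_le_sum (f := fun r =>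
          if P r q then ω q * wdist G ℓ (a q) (b q) else 0) (fun r _ => ?_)
          (Finset.mem_range.2 (Nat.mod_lt (t q) (by norm_num))))
        · rw [if_pos ⟨hd, rfl⟩]
        · split_ifs
          · exact mul_nonneg (hω q) hd.le
          · exact le_rfl
      · have : wdist G ℓ (a q) (b q) = 0 := le_antisymm (not_lt.1 hd) (hw.nonneg _ _)
        simp [this]
    refine (mul_le_mul_of_nonneg_left e1 (by positivity)).trans ?_
    rw [Finset.mul_sum]
    refine (Finset.sum_le_sum fun r _ => c4 r).trans ?_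
    simp only [Finset.mul_sum]
    rw [Finset.sum_comm]
    refine Finset.sum_le_sum fun r _ => Finset.sum_le_sum_of_subset_of_nonneg
      (Finset.filter_subset _ _) fun q _ _ => mul_nonneg (hω q) ((c1 r).nonneg _ _)

end Crest.Agent.N206.TA
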